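import Vale.Agent.P167.QB.FactD

/-!
# P167, general `q`, block Q-BRIDGE: the functional on a dual half circuit

`clus`: the strands around a boundary site and the clusters. `factCirc`: if a dual half circuit of the flat
box surrounds the small box, the functional of `factD` is a local functional of the box times the indicator
that the half circuit is joined by a dual path to the free arc from `q l` to `q k`.
-/

namespace Vale.Agent.P167.QB

open Finset Relation Vale.Agent.P167.BR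
open Vale.Agent.P145.FB (PStep)
open Vale.Agent.P167.E6 (IsPolygon Encloses dir face)
open Vale.Agent.P167.E2 (dir0 face0 face3 f4_0m)
open Vale.Agent.P167.H718 (IsXY lft pot_lft side_const)
open Vale.Agent.P167.QX (lo hi exists_xy lo_xy hi_xy)

variable {D Z : Finset (ℤ × ℤ)} {ω : Cfg} {n : ℕ} {q : ZMod n → ℤ × ℤ} {A B C : Finset Ed}
  {θ : ℝ} {k l m w t1 t2 : ℕ} {r R : ℤ} {u : ℤ × ℤ → ℤ}

/-- The piece `A` of the half box of radius `R` surrounds `b`, it does not come to the outer boundary and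
does not visit the half box of radius `r`. -/
def GI (b : ℤ × ℤ) (r R : ℤ) (A : Finset Ed) : Prop :=
  (∀ e ∈ A, Inn b R e) ∧ Sep (hbox b R) A b (top b R) ∧ ¬ Vz (hbox b r) A

open Classical in
/-- The local state function. -/
noncomputable def Gin (θ : ℝ) (b : ℤ × ℤ) (r R : ℤ) (ω : Cfg) : ℝ :=
  if (∀ A ∈ pcs ω (hbox b R), ¬ GI b r R A) then 1
  else if (∃ A ∈ pcs ω (hbox b R), GI b r R A ∧ ¬ LeftIn b A ∧
    ∀ B ∈ pcs ω (hbox b R), GI b r R B → B = A) then
    (4 * Real.cos θ ^ 2 - 1) / (4 * Real.cos θ ^ 2) else 0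

section

variable (hq : IsPolygon q) (hD : Encloses q D)
include hq hD

/-- The values of a potential along the boundary. -/
theorem pot_val (hA : A ∈ pcs ω D) (hu : PotD D A u) (hw : w ≤ n) :
    u (q w) = u (q 0) - (open Classical in if Ard q w A then sg q A else 0) := by
  classical
  by_cases hl : IsLp D A
  · rw [if_neg (ard_lp hq hD hA hl), sub_zero, lp_bd hq hD hA hu hl w]
  · obtain ⟨x, y, h⟩ := exists_xy hq hD hA hl
    have hne := h.ne
    have h1 := pot_lft hq hD hA hu h hw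
    have h2 := pot_lft hq hD hA hu h (Nat.zero_le n)
    rw [Nat.cast_zero] at h2
    have h3 := sg_xy hq hD hA h
    have h4 := ard_xy (w := w) hq hD hA h
    have e1 : lft x y w ↔ (x < y ∧ (w ≤ x ∨ y < w)) ∨ (y < x ∧ y < w ∧ w ≤ x) := Iff.rfl
    have e2 : lft x y 0 ↔ (x < y ∧ (0 ≤ x ∨ y < 0)) ∨ (y < x ∧ y < 0 ∧ 0 ≤ x) := Iff.rfl
    rw [h1, h2, h3]
    by_cases a1 : lft x y w <;> by_cases a2 : lft x y 0 <;> by_cases a3 : Ard q w A <;>
      by_cases a4 : x < y <;> simp only [a1, a2, a3, a4, if_true, if_false] <;> rw [e1] at a1 <;>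
      rw [e2] at a2 <;> rw [h4] at a3 <;> omega

omit hq hD in
theorem sg_ne (A : Finset Ed) : sg q A ≠ 0 := by
  unfold sg
  rcases ep_cases (q := q) (lo q A) with h | h <;> rw [h] <;> norm_num

/-- A potential has the same value at `q w` and at the base if and only if the piece does not surround
`q w`. -/
theorem pot_ard (hA : A ∈ pcs ω D) (hu : PotD D A u) (hw : w ≤ n) :
    u (q w) ≠ u (q 0) ↔ Ard q w A := by
  classical
  have h1 := pot_val hq hD hA hu hw
  have h2 := sg_ne (q := q) A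
  by_cases h : Ard q w A
  · rw [if_pos h] at h1
    exact iff_of_true (by omega) h
  · rw [if_neg h] at h1
    exact iff_of_false (by omega) h

/-- Two boundary sites with the same value of the potential. -/
theorem ard_iff_of_eq (hA : A ∈ pcs ω D) (hu : PotD D A u) {w' : ℕ} (hw : w ≤ n) (hw' : w' ≤ n)
    (h : u (q w) = u (q w')) : Ard q w A ↔ Ard q w' A := by
  rw [← pot_ard hq hD hA hu hw, ← pot_ard hq hD hA hu hw', h]

open Classical in
/-- **Clusters and strands**: `C` is a union of dual clusters. -/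
theorem clus (C : Set (ℤ × ℤ)) (hC : ∀ s t, Stp ω D s t → (s ∈ C ↔ t ∈ C))
    (hCd : ∀ s ∈ C, ¬ Even (s.1 + s.2)) (hw : w ≤ n) :
    (if q w ∈ C then (1 : ℤ) else 0) = (if q 0 ∈ C then 1 else 0) +
      ∑ A ∈ (pcs ω D).filter (fun A => (∃ e ∈ A, rs e ∈ C) ∧ Ard q w A), sg q A := by
  have hCr : ∀ A ∈ pcs ω D, ∀ e ∈ A, ∀ e' ∈ A, (rs e ∈ C ↔ rs e' ∈ C) := by
    intro A hA e he e' he'
    refine piece_const (P := fun e => rs e ∈ C) hA (fun e he => ?_) he he'
    rcases rs_stp (ω := ω) he with h1 | h1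
    · simp only [h1]
    · exact hC _ _ h1
  choose! U hU using fun A (hA : A ∈ pcs ω D) => exists_pot hq hD hA
  let τ : Finset Ed → ℤ := fun A => -(if ∃ e ∈ A, rs e ∈ C then 1 else 0)
  have hg : ∀ e ∈ eds D, (fun s => if s ∈ C then (1 : ℤ) else 0) (ls e) =
      (fun s => if s ∈ C then (1 : ℤ) else 0) (rs e) + τ (piece ω D e) := by
    intro e he
    have h1 : ls e ∉ C := fun h => hCd _ h (even_ls e)
    have h2 : (∃ e' ∈ piece ω D e, rs e' ∈ C) ↔ rs e ∈ C :=
      ⟨fun ⟨e', he', h'⟩ => (hCr _ (piece_mem_pcs he) e' he' e (self_mem_piece he)).1 h',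
        fun h' => ⟨e, self_mem_piece he, h'⟩⟩
    simp only [τ, h1, h2, if_false]
    ring
  have h1 := const_bd hq hD hU (g := fun s => if s ∈ C then (1 : ℤ) else 0) (τ := τ) hg w
  have h2 : ∑ A ∈ pcs ω D, τ A * U A (q w) = ∑ A ∈ pcs ω D, τ A * U A (q 0) +
      ∑ A ∈ (pcs ω D).filter (fun A => (∃ e ∈ A, rs e ∈ C) ∧ Ard q w A), sg q A := by
    rw [sum_filter, ← sum_add_distrib]
    refine sum_congr rfl fun A hA => ?_
    rw [pot_val hq hD hA (hU A hA) hw]
    simp only [τ]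
    by_cases a1 : ∃ e ∈ A, rs e ∈ C <;> by_cases a2 : Ard q w A <;> (simp [a1, a2]; try ring)
  linarith


/-! ### the squares off the domain -/

theorem fo_joined (i j : ZMod n) : ReflTransGen (Adj D) (H531.fo' q i) (H531.fo' q j) := by
  classical
  have h := H531.ext_const hq hD (h := fun f =>
    if Relation.ReflTransGen (Adj D) (H531.fo' q i) f then 1 else 0) ?_ j i
  · rw [if_pos Relation.ReflTransGen.refl] at h
    by_contra hc
    rw [if_neg hc] at h
    exact zero_ne_one h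
  · intro v r hvr
    have hadj : Adj D (face v r) (face v (r - 1)) := by
      refine ⟨ce v r, ?_, ?_⟩
      · rw [ce_mem_eds]
        rw [E2.mem_edges] at hvr
        tauto
      · rcases ce_squares v r with ⟨h1, h2⟩ | ⟨h1, h2⟩
        · exact Or.inr ⟨h2, h1⟩
        · exact Or.inl ⟨h1, h2⟩
    by_cases h1 : Relation.ReflTransGen (Adj D) (H531.fo' q i) (face v r)
    · rw [if_pos h1, if_pos (h1.tail hadj)]
    · rw [if_neg h1, if_neg (fun h2 => h1 (h2.tail hadj.symm))]

omit hq hD in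
theorem adj_symm {v w : ℤ × ℤ} (h : ReflTransGen (Adj D) v w) : ReflTransGen (Adj D) w v := by
  induction h with
  | refl => exact ReflTransGen.refl
  | tail _ h ih => exact ReflTransGen.head h.symm ih

omit hq hD in
theorem adj_anti (hZD : Z ⊆ D) {v w : ℤ × ℤ} (h : ReflTransGen (Adj D) v w) :
    ReflTransGen (Adj Z) v w := by
  induction h with
  | refl => exact ReflTransGen.refl
  | tail _ h ih =>
    obtain ⟨e, he, h⟩ := h
    exact ih.tail ⟨e, fun h' => he (eds_mono hZD h'), h⟩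

omit hq hD in
theorem adj_v {x y : ℤ} (h1 : (x, y) ∉ D) (h2 : (x, y + 1) ∉ D) : Adj D (x, y) (x, y + 1) := by
  refine ⟨Sum.inr (x, y), ?_, ?_⟩
  · rw [mem_eds]
    by_cases hp : Even (x + y) <;> simp only [hdv, tlv, hp, if_true, if_false] <;> tauto
  · by_cases hp : Even (x + y)
    · right; simp [tlv, hdv, hp]
    · left; simp [tlv, hdv, hp]

omit hq hD in
theorem adj_h {x y : ℤ} (h1 : (x, y) ∉ D) (h2 : (x + 1, y) ∉ D) : Adj D (x, y) (x + 1, y) := by
  refine ⟨Sum.inl (x, y), ?_, ?_⟩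
  · rw [mem_eds]
    by_cases hp : Even (x + y) <;> simp only [hdv, tlv, hp, if_true, if_false] <;> tauto
  · by_cases hp : Even (x + y)
    · left; simp [tlv, hdv, hp]
    · right; simp [tlv, hdv, hp]

omit hq hD in
theorem row_adj {y : ℤ} (h : ∀ x, (x, y) ∉ D) (x x' : ℤ) :
    ReflTransGen (Adj D) (x, y) (x', y) := by
  have key : ∀ (n : ℕ) (x : ℤ), ReflTransGen (Adj D) (x, y) (x + n, y) := by
    intro n
    induction n with
    | zero => intro x; simpa using ReflTransGen.refl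
    | succ n ih =>
      intro x
      have h1 := ReflTransGen.tail (ih x) (adj_h (h _) (h _))
      rwa [show x + ((n + 1 : ℕ) : ℤ) = x + n + 1 by push_cast; ring]
  rcases le_total x x' with hx | hx
  · have := key (x' - x).toNat x
    rwa [Int.toNat_of_nonneg (by omega), add_sub_cancel] at this
  · have := key (x - x').toNat x'
    rw [Int.toNat_of_nonneg (by omega), add_sub_cancel] at this
    exact adj_symm this

omit hq hD in
theorem col_adj {x : ℤ} (h : ∀ y, (x, y) ∉ D) (y y' : ℤ) :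
    ReflTransGen (Adj D) (x, y) (x, y') := by
  have key : ∀ (n : ℕ) (y : ℤ), ReflTransGen (Adj D) (x, y) (x, y + n) := by
    intro n
    induction n with
    | zero => intro y; simpa using ReflTransGen.refl
    | succ n ih =>
      intro y
      have h1 := ReflTransGen.tail (ih y) (adj_v (h _) (h _))
      rwa [show y + ((n + 1 : ℕ) : ℤ) = y + n + 1 by push_cast; ring]
  rcases le_total y y' with hx | hx
  · have := key (y' - y).toNat y
    rwa [Int.toNat_of_nonneg (by omega), add_sub_cancel] at this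
  · have := key (y - y').toNat y'
    rw [Int.toNat_of_nonneg (by omega), add_sub_cancel] at this
    exact adj_symm this

omit hq hD in
theorem scon_hbox (b : ℤ × ℤ) (R : ℤ) : SCon (hbox b R) := by
  have key : ∀ v, v ∉ hbox b R →
      ReflTransGen (Adj (hbox b R)) v (b.1 - R - 1, b.2 - 1) := by
    rintro ⟨v1, v2⟩ hv
    have hrow : ∀ x, (x, b.2 - 1) ∉ hbox b R := fun x hx => by
      rw [mem_hbox] at hx
      simp only at hx
      omega
    have hcol : ∀ y, (b.1 - R - 1, y) ∉ hbox b R := fun y hy => by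
      rw [mem_hbox] at hy
      simp only at hy
      omega
    rw [mem_hbox] at hv
    simp only at hv
    by_cases h1 : v1 < b.1 - R ∨ b.1 + R ≤ v1
    · exact (col_adj (fun y hy => by rw [mem_hbox] at hy; simp only at hy; omega) v2
        (b.2 - 1)).trans (row_adj hrow _ _)
    · exact (row_adj (fun x hx => by rw [mem_hbox] at hx; simp only at hx; omega) v1
        (b.1 - R - 1)).trans (col_adj hcol _ _)
  exact fun _ _ _ _ h1 h2 => (key _ h1).trans (adj_symm (key _ h2))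

omit hq hD in
/-- A piece of `D` off `Z` with both ends off `D` is a piece of `D` which does not visit `Z`. -/
theorem cut_piece (hB : B ∈ pcs ω (D \ Z)) {e1 e2 : Ed} (h1 : e1 ∈ B) (h2 : e2 ∈ B)
    (h1' : tlv e1 ∉ D) (h2' : hdv e2 ∉ D) (hZD : Z ⊆ D) : B ∈ pcs ω D ∧ ¬ Vz Z B := by
  have hh : ∀ e ∈ B, hdv e ∈ D → hdv e ∈ D \ Z := by
    intro e he h
    by_contra hc
    have := exit_unique hB he h2 hc (fun h' => h2' (mem_sdiff.1 h').1)
    exact h2' (this ▸ h)
  have ht : ∀ e ∈ B, tlv e ∈ D → tlv e ∈ D \ Z := by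
    intro e he h
    by_contra hc
    have := entry_unique hB he h1 hc (fun h' => h1' (mem_sdiff.1 h').1)
    exact h1' (this ▸ h)
  refine ⟨mem_pcs_of_superset sdiff_subset hB hh ht, ?_⟩
  rintro ⟨e, he, heZ⟩
  rcases mem_eds.1 heZ with h | h
  · exact (mem_sdiff.1 (hh e he (hZD h))).2 h
  · exact (mem_sdiff.1 (ht e he (hZD h))).2 h

omit hD in
/-- The potential along the sides which are not in the piece. -/
theorem pot_run {u : ℤ × ℤ → ℤ} (hu : PotD Z A u) {i j : ℕ} (hij : i ≤ j)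
    (hm : ∀ t : ℕ, i ≤ t → t < j → be q t ∈ eds Z) (hn : ∀ t : ℕ, i ≤ t → t < j → be q t ∉ A) :
    u (q i) = u (q j) := by
  induction j, hij using Nat.le_induction with
  | base => rfl
  | succ j hj ih =>
    rw [ih (fun t h1 h2 => hm t h1 (by omega)) (fun t h1 h2 => hn t h1 (by omega))]
    have h1 := hu.eq (hm j hj (by omega)) (hn j hj (by omega))
    push_cast
    rcases be_sides hq (j : ZMod n) with ⟨h2, h3⟩ | ⟨h2, h3⟩ <;> rw [h2, h3] at h1
    · exact h1
    · exact h1.symm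

omit hD in
theorem pot_jump {u : ℤ × ℤ → ℤ} (hu : PotD Z A u) {i : ℕ} (hm : be q i ∈ eds Z)
    (hn : be q i ∈ A) : u (q i) ≠ u (q (i + 1 : ℕ)) := by
  have h1 := hu.eq_add hm hn
  push_cast
  rcases be_sides hq (i : ZMod n) with ⟨h2, h3⟩ | ⟨h2, h3⟩ <;> rw [h2, h3] at h1 <;> omega

omit hq hD in
theorem preach_symm {F : Set (ℤ × ℤ)} {s t : ℤ × ℤ} (h : ReflTransGen (PStep F) s t) :
    ReflTransGen (PStep F) t s := by
  induction h with
  | refl => exact ReflTransGen.refl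
  | tail _ h ih => exact ReflTransGen.head h.symm ih

omit hq hD in
theorem stp_mono (hZD : Z ⊆ D) {s t : ℤ × ℤ} (h : ReflTransGen (Stp ω Z) s t) :
    ReflTransGen (Stp ω D) s t := by
  refine ReflTransGen.mono (fun s t h => ?_) _ _ h
  rcases h with ⟨a1, a2, a3, a4, a5⟩ | ⟨a1, a2, a3, a4, a5⟩
  · exact Or.inl ⟨a1, a2, a3, a4, hZD a5⟩
  · exact Or.inr ⟨a1, a2, a3, a4, hZD a5⟩

omit hq hD in
theorem of_stp {s t : ℤ × ℤ} (hs : ¬ Even (s.1 + s.2)) (h : ReflTransGen (Stp ω D) s t) :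
    ReflTransGen (PStep {v | ω v = false ∧ v ∈ D}) s t ∧ ¬ Even (t.1 + t.2) := by
  induction h with
  | refl => exact ⟨ReflTransGen.refl, hs⟩
  | tail _ h ih =>
    have hp := h.par
    rcases h with ⟨h0, -⟩ | ⟨-, h1, h2, h3⟩
    · exact absurd h0 ih.2
    · refine ⟨ih.1.tail ⟨h1, h2, ?_⟩, ?_⟩
      · obtain ⟨h4, h5⟩ := h3
        refine ⟨?_, h5⟩
        by_contra hc
        exact h4 (by simpa [op] using hc)
      · have := ih.2
        rw [Int.even_iff] at *
        omega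

omit hq hD in
theorem stp_of {F : Set (ℤ × ℤ)} (hF : ∀ v ∈ F, ω v = false ∧ v ∈ D) {s t : ℤ × ℤ}
    (hs : ¬ Even (s.1 + s.2)) (h : ReflTransGen (PStep F) s t) :
    ReflTransGen (Stp ω D) s t ∧ ¬ Even (t.1 + t.2) := by
  induction h with
  | refl => exact ⟨ReflTransGen.refl, hs⟩
  | tail _ h ih =>
    have hp := pstep_par h
    obtain ⟨h1, h2, h3⟩ := h
    refine ⟨ih.1.tail (Or.inr ⟨ih.2, h1, h2, ?_⟩), ?_⟩
    · have := hF _ h3
      simp only [Set.mem_inter_iff, Set.mem_compl_iff, mem_coe]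
      refine ⟨?_, this.2⟩
      show ¬ (ω _ = true)
      rw [this.1]
      exact Bool.false_ne_true
    · have := ih.2
      rw [Int.even_iff] at *
      omega

/-- The squares off `D` and the half box are joined. -/
theorem scon_diff (hF : Flt D (q m) R) (hR : 1 ≤ R) (hm : m < n)
    (h0 : q 0 ∉ sites (hbox (q m) R)) (hrR : r ≤ R) : SCon (D \ hbox (q m) r) := by
  have key : ∀ v, v ∉ D \ hbox (q m) r → (∃ e ∈ eds D, tlv e = v ∨ hdv e = v) →
      ∃ i : ZMod n, ReflTransGen (Adj (D \ hbox (q m) r)) v (H531.fo' q i) := by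
    rintro v hv ⟨e, he, hev⟩
    by_cases hvD : v ∈ D
    · have hvZ : v ∈ hbox (q m) r := by
        by_contra h
        exact hv (mem_sdiff.2 ⟨hvD, h⟩)
      rw [mem_hbox] at hvZ
      obtain ⟨v1, v2⟩ := v
      simp only at hvZ
      obtain ⟨hr1, hr2⟩ := flat_range hq hD hF hR hm h0
      obtain ⟨f1, f2⟩ := flat_side hq hD hF hR hm h0 (i := ((m : ℤ) + (v1 - (q m).1)).toNat)
        (by omega) (by omega)
      set i := ((m : ℤ) + (v1 - (q m).1)).toNat with hi
      refine ⟨(i : ZMod n), ?_⟩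
      have h1 : ∀ y : ℤ, (q m).2 - R ≤ y → y < (q m).2 + r → (v1, y) ∉ D \ hbox (q m) r := by
        intro y hy1 hy2
        rw [mem_sdiff, mem_hbox]
        rintro ⟨h1, h2⟩
        have := (hF (v1, y) (by simp only; omega) (by simp only; omega) (by simp only; omega)
          (by simp only; omega)).1 h1
        simp only at this
        exact h2 ⟨by omega, by omega, this, hy2⟩
      have h2 : ∀ j : ℕ, (q m).2 - 1 + j < (q m).2 + r →
          ReflTransGen (Adj (D \ hbox (q m) r)) (v1, (q m).2 - 1) (v1, (q m).2 - 1 + j) := by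
        intro j
        induction j with
        | zero => intro _; simpa using ReflTransGen.refl
        | succ j ih =>
          intro hj
          push_cast at hj
          have h3 := (ih (by omega)).tail (adj_v (h1 _ (by omega) (by omega))
            (h1 ((q m).2 - 1 + j + 1) (by omega) (by omega)))
          rwa [show (q m).2 - 1 + ((j + 1 : ℕ) : ℤ) = (q m).2 - 1 + j + 1 by push_cast; ring]
      have h3 := h2 (v2 - ((q m).2 - 1)).toNat (by omega)
      rw [Int.toNat_of_nonneg (by omega), add_sub_cancel] at h3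
      have h4 : H531.fo' q (i : ZMod n) = (v1, (q m).2 - 1) := by
        have f3 : face (q i) (0 - 1) = (v1, (q m).2 - 1) := by
          rw [f4_0m, face3, f1]
          ext
          · simp only; omega
          · simp only
        have f4 : face (q i) 0 ∈ D := by
          rw [face0, f1]
          exact (hF _ (by simp only; omega) (by simp only; omega) (by simp only; omega)
            (by simp only; omega)).2 (by simp only; omega)
        rcases be_bd hq hD (i : ZMod n) with ⟨h5, h6⟩ | ⟨h5, h6⟩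
        · rw [← (outer_eq hq hD (i : ZMod n)).1 h6]
          rw [f2] at h6 ⊢
          rcases ce_squares (q i) 0 with ⟨h7, h8⟩ | ⟨h7, h8⟩
          · rw [h8, f3]
          · exact absurd (by rw [h7]; exact f4) h6
        · rw [← (outer_eq hq hD (i : ZMod n)).2 h6]
          rw [f2] at h6 ⊢
          rcases ce_squares (q i) 0 with ⟨h7, h8⟩ | ⟨h7, h8⟩
          · exact absurd (by rw [h7]; exact f4) h6
          · rw [h8, f3]
      rw [h4]
      exact adj_symm h3
    · rcases hev with rfl | rfl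
      · obtain ⟨i, rfl, -⟩ := exists_be_tl hq hD ((mem_eds.1 he).resolve_right hvD) hvD
        refine ⟨i, ?_⟩
        rw [(outer_eq hq hD i).1 hvD]
      · obtain ⟨i, rfl, -⟩ := exists_be_hd hq hD ((mem_eds.1 he).resolve_left hvD) hvD
        refine ⟨i, ?_⟩
        rw [(outer_eq hq hD i).2 hvD]
  intro e he e' he' h1 h2
  obtain ⟨i, hi⟩ := key _ h1 ⟨e, eds_mono sdiff_subset he, Or.inl rfl⟩
  obtain ⟨j, hj⟩ := key _ h2 ⟨e', eds_mono sdiff_subset he', Or.inr rfl⟩
  exact (hi.trans (adj_anti sdiff_subset (fo_joined hq hD i j))).trans (adj_symm hj)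

section

variable (hF : Flt D (q m) R) (hR : 1 ≤ R) (hm : m < n) (h0 : q 0 ∉ sites (hbox (q m) R))
include hF hR hm h0

/-- The sides of the flat piece are edges of the half box. -/
theorem side_hbox {j : ℕ} (h1 : (m : ℤ) - R ≤ j) (h2 : (j : ℤ) < m + R) :
    be q j ∈ eds (hbox (q m) R) ∧ ((hdv (be q j) ∈ hbox (q m) R ∧ tlv (be q j) ∉ D ∧
      (tlv (be q j)).2 < (q m).2) ∨ (tlv (be q j) ∈ hbox (q m) R ∧ hdv (be q j) ∉ D ∧
      (hdv (be q j)).2 < (q m).2)) := by
  obtain ⟨f1, f2⟩ := flat_side hq hD hF hR hm h0 h1 h2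
  have f3 : face (q j) (0 - 1) = ((q m).1 + ((j : ℤ) - m), (q m).2 - 1) := by
    rw [f4_0m, face3, f1]
  have f4 : face (q j) 0 = ((q m).1 + ((j : ℤ) - m), (q m).2) := by
    rw [face0, f1]
  have f5 : face (q j) 0 ∈ hbox (q m) R := by
    rw [f4, mem_hbox]
    simp only
    omega
  have f6 : face (q j) (0 - 1) ∉ D := by
    rw [f3]
    intro h
    have := (hF _ (by simp only; omega) (by simp only; omega) (by simp only; omega)
      (by simp only; omega)).1 h
    simp only at this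
    omega
  rcases ce_squares (q j) 0 with ⟨h3, h4⟩ | ⟨h3, h4⟩ <;> rw [← f2] at h3 h4
  · refine ⟨mem_eds.2 (Or.inl (by rw [h3]; exact f5)), Or.inl ⟨by rw [h3]; exact f5,
      by rw [h4]; exact f6, ?_⟩⟩
    rw [h4, f3]
    simp only
    omega
  · refine ⟨mem_eds.2 (Or.inr (by rw [h3]; exact f5)), Or.inr ⟨by rw [h3]; exact f5,
      by rw [h4]; exact f6, ?_⟩⟩
    rw [h4, f3]
    simp only
    omega

/-- **Shield**: a strand with a side between the feet of a dual half circuit is inner. -/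
theorem shield (h1 : (m : ℤ) - R ≤ t1) (h2 : (t2 : ℤ) ≤ m + R)
    (hT : ReflTransGen (Stp ω (hbox (q m) R)) (q t1) (q t2)) (hA : A ∈ pcs ω D) {i : ℕ}
    (hi1 : t1 ≤ i) (hi2 : i < t2) (hiA : be q i ∈ A) :
    A ∈ pcs ω (hbox (q m) R) ∧ ∀ e ∈ A, Inn (q m) R e := by
  have hn : NeZero n := ⟨by omega⟩
  obtain ⟨hr1, hr2⟩ := flat_range hq hD hF hR hm h0
  have hside : ∀ j : ℕ, t1 ≤ j → j < t2 → _ := fun j h3 h4 =>
    side_hbox hq hD hF hR hm h0 (j := j) (by omega) (by omega)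
  have hA' := piece_mem_pcs (ω := ω) (hside i hi1 hi2).1
  have hiA' := self_mem_piece (ω := ω) (hside i hi1 hi2).1
  generalize piece ω (hbox (q m) R) (be q i) = A' at hA' hiA'
  obtain ⟨u, hu⟩ := exists_potD (scon_hbox (q m) R) hA'
  have hut := pot_reach hA' hu hT
  have hex : ∃ j : ℕ, t1 ≤ j ∧ j < t2 ∧ j ≠ i ∧ be q j ∈ A' := by
    by_contra hcon
    push Not at hcon
    have e1 := pot_run hq hu hi1 (fun t h3 h4 => (hside t h3 (by omega)).1)
      (fun t h3 h4 => hcon t h3 (by omega) (by omega))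
    have e2 := pot_run hq hu (i := i + 1) (j := t2) (by omega)
      (fun t h3 h4 => (hside t (by omega) (by omega)).1)
      (fun t h3 h4 => hcon t (by omega) (by omega) (by omega))
    have e3 := pot_jump hq hu (hside i hi1 hi2).1 hiA'
    exact e3 (by rw [← e1, e2, hut])
  obtain ⟨j, hj1, hj2, hji, hjA'⟩ := hex
  have hZD : ∀ v, v ∉ D → v ∉ hbox (q m) R := fun v hv h => hv (hbox_sub hF h)
  have hne : be q (i : ZMod n) ≠ be q (j : ZMod n) := by
    intro h
    have h3 := congrArg ZMod.val (be_injective hq h)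
    rw [ZMod.val_cast_of_lt (by omega), ZMod.val_cast_of_lt (by omega)] at h3
    exact hji h3.symm
  have hends : ∃ e1 ∈ A', ∃ e2 ∈ A', tlv e1 ∉ D ∧ (tlv e1).2 < (q m).2 ∧ hdv e2 ∉ D ∧
      (hdv e2).2 < (q m).2 := by
    rcases (hside i hi1 hi2).2 with ⟨-, h3, h4⟩ | ⟨-, h3, h4⟩ <;>
      rcases (hside j hj1 hj2).2 with ⟨-, h5, h6⟩ | ⟨-, h5, h6⟩
    · exact absurd (entry_unique hA' hiA' hjA' (hZD _ h3) (hZD _ h5)) hne
    · exact ⟨_, hiA', _, hjA', h3, h4, h5, h6⟩
    · exact ⟨_, hjA', _, hiA', h5, h6, h3, h4⟩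
    · exact absurd (exit_unique hA' hiA' hjA' (hZD _ h3) (hZD _ h5)) hne
  obtain ⟨e1, he1, e2, he2, h3, h4, h5, h6⟩ := hends
  have hInn : ∀ e ∈ A', Inn (q m) R e := by
    intro e he
    constructor
    · by_cases h : hdv e ∈ hbox (q m) R
      · exact Or.inl h
      · right
        rw [exit_unique hA' he he2 h (hZD _ h5)]
        exact h6
    · by_cases h : tlv e ∈ hbox (q m) R
      · exact Or.inl h
      · right
        rw [entry_unique hA' he he1 h (hZD _ h3)]
        exact h4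
  have hAA : A = A' := eq_of_mem_pcs hA (pcs_of_inn hF hA' hInn) hiA hiA'
  rw [hAA]
  exact ⟨hA', hInn⟩

/-- The sides off the small flat piece are edges of `D` minus the small half box. -/
theorem side_diff (hr : 1 ≤ r) (hrR : r < R) {j : ℕ} (hj : j < n)
    (h : (j : ℤ) < m - r ∨ (m : ℤ) + r ≤ j) : be q j ∈ eds (D \ hbox (q m) r) := by
  have key : be q (j : ZMod n) ∉ eds (hbox (q m) r) := by
    intro he
    have h0' : q 0 ∉ sites (hbox (q m) r) := fun h' => h0 (sites_mono (hbox_mono hrR.le) h')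
    have hI : Inn (q m) r (be q (j : ZMod n)) := by
      have hsq := adj_sq (be q (j : ZMod n))
      have hv : ∀ v w : ℤ × ℤ, v ∈ hbox (q m) r → w ∉ D → |w.1 - v.1| ≤ 1 → |w.2 - v.2| ≤ 1 →
          w.2 < (q m).2 := by
        intro v w h1 h2 h3 h4
        rw [mem_hbox] at h1
        rw [abs_le] at h3 h4
        by_contra hc
        exact h2 ((hF w (by omega) (by omega) (by omega) (by omega)).2 (by omega))
      have hD' : ∀ v ∈ hbox (q m) r, v ∈ D := fun v hv => hbox_sub hF (hbox_mono hrR.le hv)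
      rcases be_bd hq hD (j : ZMod n) with ⟨h1, h2⟩ | ⟨h1, h2⟩
      · have h3 : hdv (be q (j : ZMod n)) ∈ hbox (q m) r :=
          (mem_eds.1 he).resolve_right (fun h' => h2 (hD' _ h'))
        refine ⟨Or.inl h3, Or.inr (hv _ _ h3 h2 ?_ ?_)⟩ <;> rw [abs_le] <;> omega
      · have h3 : tlv (be q (j : ZMod n)) ∈ hbox (q m) r :=
          (mem_eds.1 he).resolve_left (fun h' => h2 (hD' _ h'))
        refine ⟨Or.inr (hv _ _ h3 h2 ?_ ?_), Or.inl h3⟩ <;> rw [abs_le] <;> omega
    have := bd_inn hq hD (hF.mono hrR.le) hr hm h0' hj he hI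
    omega
  rw [mem_eds] at key ⊢
  push Not at key
  rcases be_bd hq hD (j : ZMod n) with ⟨h1, -⟩ | ⟨h1, -⟩
  · exact Or.inl (mem_sdiff.2 ⟨h1, key.1⟩)
  · exact Or.inr (mem_sdiff.2 ⟨h1, key.2⟩)

/-- A strand with a side on the left of a dual half circuit does not visit the small half box. -/
theorem novis (hr : 1 ≤ r) (hrR : r < R) (h1 : (t1 : ℤ) ≤ m - r) (h2 : (m : ℤ) + r ≤ t2)
    (h2n : t2 ≤ n) (hT : ReflTransGen (Stp ω (D \ hbox (q m) r)) (q t1) (q t2))
    (hA : A ∈ pcs ω D) {i : ℕ} (hi : i < t1) (hiA : be q i ∈ A) : ¬ Vz (hbox (q m) r) A := by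
  intro hV
  have hn : NeZero n := ⟨by omega⟩
  have hside : ∀ j : ℕ, j < n → ((j : ℤ) < m - r ∨ (m : ℤ) + r ≤ j) → _ := fun j h3 h4 =>
    side_diff hq hD hF hR hm h0 hr hrR h3 h4
  have hin : i < n := by omega
  have his := hside i hin (Or.inl (by omega))
  have hB := piece_mem_pcs (ω := ω) his
  have hiB := self_mem_piece (ω := ω) his
  generalize piece ω (D \ hbox (q m) r) (be q i) = B at hB hiB
  obtain ⟨u, hu⟩ := exists_potD (scon_diff hq hD hF hR hm h0 hrR.le) hB
  have hut := pot_reach hB hu hT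
  have hZD : hbox (q m) r ⊆ D := (hbox_mono hrR.le).trans (hbox_sub hF)
  have hnD : ∀ v, v ∉ D → v ∉ D \ hbox (q m) r := fun v hv h => hv (mem_sdiff.1 h).1
  have hno : ∀ j : ℕ, j < n → ((j : ℤ) < m - r ∨ (m : ℤ) + r ≤ j) → j ≠ i → be q j ∉ B := by
    intro j hj hj' hji hjB
    have hne : be q (i : ZMod n) ≠ be q (j : ZMod n) := by
      intro h
      have h3 := congrArg ZMod.val (be_injective hq h)
      rw [ZMod.val_cast_of_lt (by omega), ZMod.val_cast_of_lt (by omega)] at h3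
      exact hji h3.symm
    have hc : B ∈ pcs ω D ∧ ¬ Vz (hbox (q m) r) B := by
      rcases be_bd hq hD (i : ZMod n) with ⟨-, h3⟩ | ⟨-, h3⟩ <;>
        rcases be_bd hq hD (j : ZMod n) with ⟨-, h5⟩ | ⟨-, h5⟩
      · exact absurd (entry_unique hB hiB hjB (hnD _ h3) (hnD _ h5)) hne
      · exact cut_piece hB hiB hjB h3 h5 hZD
      · exact cut_piece hB hjB hiB h5 h3 hZD
      · exact absurd (exit_unique hB hiB hjB (hnD _ h3) (hnD _ h5)) hne
    rw [eq_of_mem_pcs hA hc.1 hiA hiB] at hV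
    exact hc.2 hV
  have e1 := pot_run hq hu (i := i + 1) (j := t1) (by omega)
    (fun t h3 h4 => hside t (by omega) (Or.inl (by omega)))
    (fun t h3 h4 => hno t (by omega) (Or.inl (by omega)) (by omega))
  have e3 := pot_run hq hu (i := t2) (j := n) h2n
    (fun t h3 h4 => hside t (by omega) (Or.inr (by omega)))
    (fun t h3 h4 => hno t (by omega) (Or.inr (by omega)) (by omega))
  have e4 := pot_run hq hu (i := 0) (j := i) (by omega)
    (fun t h3 h4 => hside t (by omega) (Or.inl (by omega)))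
    (fun t h3 h4 => hno t (by omega) (Or.inl (by omega)) (by omega))
  rw [ZMod.natCast_self] at e3
  rw [Nat.cast_zero] at e4
  exact pot_jump hq hu his hiB (by rw [e1, hut, e3, e4])

/-- If the half circuit is joined to the arc from `q l` to `q k`, the strands around only `m` are
inner. -/
theorem mo_gi (hr : 1 ≤ r) (h1 : (m : ℤ) - R ≤ t1) (h1' : (t1 : ℤ) ≤ m - r)
    (h2 : (m : ℤ) + r ≤ t2) (h2' : (t2 : ℤ) ≤ m + R) (hml : (m : ℤ) + R ≤ l) (hkn : k ≤ n)
    (hTB : ReflTransGen (Stp ω (hbox (q m) R)) (q t1) (q t2))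
    (hJ : ∃ j : ℕ, l ≤ j ∧ j ≤ k ∧ ReflTransGen (Stp ω D) (q t2) (q j)) :
    (A ∈ pcs ω D ∧ MO q (hbox (q m) r) m l A) ↔
      (A ∈ pcs ω (hbox (q m) R) ∧ GI (q m) r R A) := by
  have hms : q m ∈ sites (hbox (q m) R) := by
    rw [mem_sites_hbox hR]
    omega
  constructor
  · rintro ⟨hA, ha, hna, hV⟩
    have hl' : ¬ IsLp D A := fun h => ard_lp hq hD hA h ha
    obtain ⟨u, hu⟩ := exists_pot hq hD hA
    obtain ⟨j, hj1, hj2, hj3⟩ := hJ
    have hTD := stp_mono (hbox_sub hF) hTB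
    have c1 := ard_iff_of_eq hq hD hA hu (by omega) (by omega) (pot_reach hA hu hTD)
    have c2 := ard_iff_of_eq hq hD hA hu (by omega) (by omega) (pot_reach hA hu hj3)
    obtain ⟨x, y, h⟩ := exists_xy hq hD hA hl'
    have hlo := lo_xy hq hD hA h
    have hlA : be q (lo q A) ∈ A := by
      rw [hlo]
      rcases le_total x y with h3 | h3
      · rw [min_eq_left h3]; exact h.2.2.1
      · rw [min_eq_right h3]; exact h.2.2.2.1
    unfold Ard at ha hna c1 c2
    obtain ⟨hAB, hInn⟩ := shield hq hD hF hR hm h0 h1 h2' hTB hA (i := lo q A) (by omega) (by omega)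
      hlA
    refine ⟨hAB, hInn, ?_, hV⟩
    exact (sep_inn hq hD hF hR hm h0 hA (fun e he => subset_eds hAB he) hInn hms).1
      ((sep_ard hq hD hA hm.le).2 ha)
  · rintro ⟨hAB, hInn, hS, hV⟩
    have hA := pcs_of_inn hF hAB hInn
    have hE : ∀ e ∈ A, e ∈ eds (hbox (q m) R) := fun e he => subset_eds hAB he
    have ha : Ard q m A := (sep_ard hq hD hA hm.le).1
      ((sep_inn hq hD hF hR hm h0 hA hE hInn hms).2 hS)
    have hl' : ¬ IsLp D A := fun h => ard_lp hq hD hA h ha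
    obtain ⟨x, y, h, a1, a2, a3, a4, -⟩ := inn_xy hq hD hF hR hm h0 hA hE hInn hl'
    refine ⟨hA, ha, ?_, hV⟩
    rw [ard_xy hq hD hA h]
    omega

/-- The sign of the inner strands. -/
theorem gi_sg (hAB : A ∈ pcs ω (hbox (q m) R)) (hG : GI (q m) r R A) :
    sg q A = -1 ↔ ¬ LeftIn (q m) A := by
  have hms : q m ∈ sites (hbox (q m) R) := by
    rw [mem_sites_hbox hR]
    omega
  have hA := pcs_of_inn hF hAB hG.1
  have hE : ∀ e ∈ A, e ∈ eds (hbox (q m) R) := fun e he => subset_eds hAB he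
  have ha : Ard q m A := (sep_ard hq hD hA hm.le).1
    ((sep_inn hq hD hF hR hm h0 hA hE hG.1 hms).2 hG.2.1)
  have hl' : ¬ IsLp D A := fun h => ard_lp hq hD hA h ha
  rw [← slc_inn hq hD hF hR hm h0 hA hE hG.1 hl']
  unfold slc
  by_cases hL : LeftIn (q m) A
  · rw [if_pos hL]
    exact iff_of_false (by norm_num) (not_not.2 hL)
  · rw [if_neg hL]
    exact iff_of_true rfl hL

open Classical in
/-- **The half circuit is joined to the free arc** if the state is `0` or `1`. -/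
theorem join_of_state (hr : 1 ≤ r) (hrR : r < R) (h1' : (t1 : ℤ) ≤ m - r)
    (h2 : (m : ℤ) + r ≤ t2) (h2' : (t2 : ℤ) ≤ m + R) (hml : (m : ℤ) + R ≤ l) (hlk : l < k)
    (hkn : k ≤ n) (hodd : ¬ Even ((q t2).1 + (q t2).2))
    (hTB : ReflTransGen (Stp ω (hbox (q m) R)) (q t1) (q t2))
    (hTZ : ReflTransGen (Stp ω (D \ hbox (q m) r)) (q t1) (q t2))
    (hall : ∀ A ∈ pcs ω D, MO q (hbox (q m) r) m l A → sg q A = -1)
    (hfw : ∀ A ∈ pcs ω D, Ard q l A → ¬ Ard q m A → hi q A < k) :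
    ∃ j : ℕ, l ≤ j ∧ j ≤ k ∧ ReflTransGen (Stp ω D) (q t2) (q j) := by
  by_contra hJ
  push Not at hJ
  have hTD := stp_mono (hbox_sub hF) hTB
  set C : Set (ℤ × ℤ) := {s | ReflTransGen (Stp ω D) (q t2) s} with hCdef
  have hC : ∀ s t, Stp ω D s t → (s ∈ C ↔ t ∈ C) := fun s t h =>
    ⟨fun h' => ReflTransGen.tail h' h, fun h' => ReflTransGen.tail h' h.symm⟩
  have hCd : ∀ s ∈ C, ¬ Even (s.1 + s.2) := fun s hs => (of_stp hodd hs).2
  have e1 := clus hq hD (ω := ω) C hC hCd (w := t2) (by omega)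
  have e2 := clus hq hD (ω := ω) C hC hCd (w := l) (by omega)
  rw [if_pos (show q t2 ∈ C from ReflTransGen.refl)] at e1
  rw [if_neg (show q l ∉ C from hJ l le_rfl hlk.le)] at e2
  -- strands around `l` only
  have hl : ∀ A ∈ pcs ω D, (∃ e ∈ A, rs e ∈ C) → Ard q l A → ¬ Ard q t2 A → sg q A = 1 := by
    intro A hA hRC ha hna
    rcases ep_cases (q := q) (lo q A) with h5 | h5
    · exact h5
    exfalso
    have hl' : ¬ IsLp D A := fun h => ard_lp hq hD hA h ha
    have hnm : ¬ Ard q m A := by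
      unfold Ard at ha hna ⊢
      omega
    have hhi := hfw A hA ha hnm
    obtain ⟨x, y, h⟩ := exists_xy hq hD hA hl'
    have h6 := sg_xy hq hD hA h
    have h6' : sg q A = -1 := h5
    have hyx : y < x := by
      have hne := h.ne
      by_contra hc
      rw [if_pos (by omega)] at h6
      omega
    have hhx : hi q A = x := by
      rw [hi_xy hq hD hA h, max_eq_left hyx.le]
    obtain ⟨e, he, heC⟩ := hRC
    have hxC : rs (be q (x : ZMod n)) ∈ C := by
      have : ∀ e ∈ A, ∀ e' ∈ A, (rs e ∈ C ↔ rs e' ∈ C) := by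
        intro e he e' he'
        refine piece_const (P := fun e => rs e ∈ C) hA (fun e he => ?_) he he'
        rcases rs_stp (ω := ω) he with h1 | h1
        · simp only [h1]
        · exact hC _ _ h1
      exact (this e he _ h.2.2.1).1 heC
    rw [(be_even hq hD h.2.2.2.2.1).2.1] at hxC
    refine hJ (x + 1) ?_ (by omega) (by push_cast; exact hxC)
    unfold Ard at ha
    omega
  -- strands around `t2` only
  have ht : ∀ A ∈ pcs ω D, (∃ e ∈ A, rs e ∈ C) → Ard q t2 A → ¬ Ard q l A → sg q A = -1 := by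
    intro A hA hRC ha hna
    have hl' : ¬ IsLp D A := fun h => ard_lp hq hD hA h ha
    obtain ⟨u, hu⟩ := exists_pot hq hD hA
    have c1 := ard_iff_of_eq hq hD hA hu (by omega) (by omega) (pot_reach hA hu hTD)
    have ha1 := c1.2 ha
    obtain ⟨x, y, h⟩ := exists_xy hq hD hA hl'
    have hlo := lo_xy hq hD hA h
    have hlA : be q (lo q A) ∈ A := by
      rw [hlo]
      rcases le_total x y with h3 | h3
      · rw [min_eq_left h3]; exact h.2.2.1
      · rw [min_eq_right h3]; exact h.2.2.2.1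
    have hV := novis hq hD hF hR hm h0 hr hrR h1' h2 (by omega) hTZ hA ha1.1 hlA
    refine hall A hA ⟨?_, hna, hV⟩
    unfold Ard at ha ha1 ⊢
    omega
  have e3 : ∑ A ∈ (pcs ω D).filter (fun A => (∃ e ∈ A, rs e ∈ C) ∧ Ard q t2 A), sg q A ≤
      ∑ A ∈ (pcs ω D).filter (fun A => (∃ e ∈ A, rs e ∈ C) ∧ Ard q l A), sg q A := by
    rw [sum_filter, sum_filter]
    refine sum_le_sum fun A hA => ?_
    by_cases a0 : ∃ e ∈ A, rs e ∈ C
    · by_cases a1 : Ard q t2 A <;> by_cases a2 : Ard q l A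
      · rw [if_pos ⟨a0, a1⟩, if_pos ⟨a0, a2⟩]
      · rw [if_pos ⟨a0, a1⟩, if_neg (fun h => a2 h.2), ht A hA a0 a1 a2]
        norm_num
      · rw [if_neg (fun h => a1 h.2), if_pos ⟨a0, a2⟩, hl A hA a0 a2 a1]
        norm_num
      · rw [if_neg (fun h => a1 h.2), if_neg (fun h => a2 h.2)]
    · rw [if_neg (fun h => a0 h.1), if_neg (fun h => a0 h.1)]
  omega

open Classical in
/-- **The state function on a dual half circuit.** -/
theorem stfCirc (hr : 1 ≤ r) (hrR : r < R) (h1 : (m : ℤ) - R ≤ t1) (h1' : (t1 : ℤ) ≤ m - r)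
    (h2 : (m : ℤ) + r ≤ t2) (h2' : (t2 : ℤ) ≤ m + R) (hml : (m : ℤ) + R ≤ l) (hlk : l < k)
    (hkn : k ≤ n) (hodd : ¬ Even ((q t2).1 + (q t2).2))
    (hT : ReflTransGen (PStep {v | ω v = false ∧ v ∈ hbox (q m) R ∧ v ∉ hbox (q m) r})
      (q t1) (q t2)) (θ : ℝ) :
    Stf θ q D (hbox (q m) r) k m l ω = Gin θ (q m) r R ω *
      (if ∃ j : ℕ, l ≤ j ∧ j ≤ k ∧
        ReflTransGen (PStep {v | ω v = false ∧ v ∈ D}) (q t2) (q j) then 1 else 0) := by
  have hTs : ReflTransGen (PStep {v | ω v = false ∧ v ∈ hbox (q m) R ∧ v ∉ hbox (q m) r})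
      (q t2) (q t1) := preach_symm hT
  have hTB : ReflTransGen (Stp ω (hbox (q m) R)) (q t1) (q t2) :=
    reach_symm (stp_of (D := hbox (q m) R) (fun v hv => ⟨hv.1, hv.2.1⟩) hodd hTs).1
  have hTZ : ReflTransGen (Stp ω (D \ hbox (q m) r)) (q t1) (q t2) :=
    reach_symm (stp_of (D := D \ hbox (q m) r) (fun v hv => ⟨hv.1,
      mem_sdiff.2 ⟨hbox_sub hF hv.2.1, hv.2.2⟩⟩) hodd hTs).1
  have hJJ : (∃ j : ℕ, l ≤ j ∧ j ≤ k ∧
      ReflTransGen (PStep {v | ω v = false ∧ v ∈ D}) (q t2) (q j)) ↔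
      ∃ j : ℕ, l ≤ j ∧ j ≤ k ∧ ReflTransGen (Stp ω D) (q t2) (q j) := by
    refine exists_congr fun j => and_congr_right fun _ => and_congr_right fun _ => ?_
    exact ⟨fun h => (stp_of (D := D) (fun v hv => hv) hodd h).1, fun h => (of_stp hodd h).1⟩
  rw [if_congr hJJ rfl rfl, stf_eq]
  by_cases hJ : ∃ j : ℕ, l ≤ j ∧ j ≤ k ∧ ReflTransGen (Stp ω D) (q t2) (q j)
  · have key : ∀ A, (A ∈ pcs ω D ∧ MO q (hbox (q m) r) m l A) ↔
        (A ∈ pcs ω (hbox (q m) R) ∧ GI (q m) r R A) := fun A =>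
      mo_gi hq hD hF hR hm h0 hr h1 h1' h2 h2' hml hkn hTB hJ
    have hfw : ∀ A ∈ pcs ω D, Ard q l A → ¬ Ard q m A → hi q A < k := by
      intro A hA ha hna
      by_contra hc
      obtain ⟨u, hu⟩ := exists_pot hq hD hA
      obtain ⟨j, hj1, hj2, hj3⟩ := hJ
      have c1 := ard_iff_of_eq hq hD hA hu (by omega) (by omega)
        (pot_reach hA hu (stp_mono (hbox_sub hF) hTB))
      have c2 := ard_iff_of_eq hq hD hA hu (by omega) (by omega) (pot_reach hA hu hj3)
      unfold Ard at ha hna c1 c2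
      omega
    rw [if_pos hJ, if_pos hfw, mul_one, mul_one]
    unfold Gin
    have k1 : (∀ A ∈ pcs ω D, ¬ MO q (hbox (q m) r) m l A) ↔
        (∀ A ∈ pcs ω (hbox (q m) R), ¬ GI (q m) r R A) :=
      ⟨fun h A hA hG => h A ((key A).2 ⟨hA, hG⟩).1 ((key A).2 ⟨hA, hG⟩).2,
        fun h A hA hG => h A ((key A).1 ⟨hA, hG⟩).1 ((key A).1 ⟨hA, hG⟩).2⟩
    have k2 : (∃ A ∈ pcs ω D, MO q (hbox (q m) r) m l A ∧ sg q A = -1 ∧
        ∀ B ∈ pcs ω D, MO q (hbox (q m) r) m l B → B = A) ↔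
        (∃ A ∈ pcs ω (hbox (q m) R), GI (q m) r R A ∧ ¬ LeftIn (q m) A ∧
        ∀ B ∈ pcs ω (hbox (q m) R), GI (q m) r R B → B = A) := by
      constructor
      · rintro ⟨A, hA, hM, hs, hu⟩
        obtain ⟨hA', hG⟩ := (key A).1 ⟨hA, hM⟩
        exact ⟨A, hA', hG, (gi_sg hq hD hF hR hm h0 hA' hG).1 hs, fun B hB hGB =>
          hu B ((key B).2 ⟨hB, hGB⟩).1 ((key B).2 ⟨hB, hGB⟩).2⟩
      · rintro ⟨A, hA, hG, hs, hu⟩
        obtain ⟨hA', hM⟩ := (key A).2 ⟨hA, hG⟩
        exact ⟨A, hA', hM, (gi_sg hq hD hF hR hm h0 hA hG).2 hs, fun B hB hMB =>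
          hu B ((key B).1 ⟨hB, hMB⟩).1 ((key B).1 ⟨hB, hMB⟩).2⟩
    rw [if_congr k1 rfl rfl, if_congr k2 rfl rfl]
  · rw [if_neg hJ, mul_zero]
    by_cases hfw : ∀ A ∈ pcs ω D, Ard q l A → ¬ Ard q m A → hi q A < k
    · rw [if_pos hfw, mul_one]
      have hall : ¬ ∀ A ∈ pcs ω D, MO q (hbox (q m) r) m l A → sg q A = -1 := fun h =>
        hJ (join_of_state hq hD hF hR hm h0 hr hrR h1' h2 h2' hml hlk hkn hodd hTB hTZ h hfw)
      rw [if_neg (fun h => hall fun A hA hM => absurd hM (h A hA)), if_neg]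
      rintro ⟨A, hA, hM, hs, hu⟩
      exact hall fun B hB hMB => by rw [hu B hB hMB]; exact hs
    · rw [if_neg hfw, mul_zero]

open Classical in
/-- **The functional on a dual half circuit.** -/
theorem factCirc (h0t : 0 < θ) (h1t : θ ≤ Real.pi / 3) (hr : 1 ≤ r) (hrR : r < R)
    (h1 : (m : ℤ) - R ≤ t1) (h1' : (t1 : ℤ) ≤ m - r) (h2 : (m : ℤ) + r ≤ t2)
    (h2' : (t2 : ℤ) ≤ m + R) (hml : (m : ℤ) + R ≤ l) (hlk : l < k) (hkn : k ≤ n)
    (hodd : ¬ Even ((q t2).1 + (q t2).2))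
    (hT : ReflTransGen (PStep {v | ω v = false ∧ v ∈ hbox (q m) R ∧ v ∉ hbox (q m) r})
      (q t1) (q t2)) {f : ℤ × ℤ → ℝ} (hf : ∀ z, f z ≠ 0 → z ∈ sites (hbox (q m) r))
    (hs : ∑ᶠ z, f z = θ) (hI : Iso (q m) r R ω) :
    XG θ q D k (fun z => f z - dlt (q l) θ z) ω =
      (2 * Real.cos θ) ^ (sgm q l - sgm q m) * FL θ (q m) r R 1 f ω *
        (Gin θ (q m) r R ω * (if ∃ j : ℕ, l ≤ j ∧ j ≤ k ∧
          ReflTransGen (PStep {v | ω v = false ∧ v ∈ D}) (q t2) (q j) then 1 else 0)) := by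
  rw [factD h0t h1t n q D hq hD k m l hlk hkn r R hr hrR.le hF h0 hml f hf hs ω hI,
    stfCirc hq hD hF hR hm h0 hr hrR h1 h1' h2 h2' hml hlk hkn hodd hT θ]

end

end

theorem Gin_congr {ω' : Cfg} (b : ℤ × ℤ) (h : ∀ v ∈ hbox b R, ω v = ω' v) :
    Gin θ b r R ω = Gin θ b r R ω' := by
  unfold Gin
  rw [pcs_congr h]

theorem Gin_bd (h0t : 0 < θ) (h1t : θ ≤ Real.pi / 3) (b : ℤ × ℤ) :
    0 ≤ Gin θ b r R ω ∧ Gin θ b r R ω ≤ 1 := by
  have hc : 1 / 2 ≤ Real.cos θ := by
    rw [← Real.cos_pi_div_three]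
    exact Real.cos_le_cos_of_nonneg_of_le_pi h0t.le (by linarith [Real.pi_pos]) h1t
  unfold Gin
  split_ifs
  · exact ⟨zero_le_one, le_rfl⟩
  · constructor
    · exact div_nonneg (by nlinarith) (by positivity)
    · rw [div_le_one (by positivity)]
      linarith
  · exact ⟨le_rfl, zero_le_one⟩

end Vale.Agent.P167.QB
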