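import Vale.Agent.P167.QB.Alt

/-!
# P167, general `q`, block Q-BRIDGE: local functionals near a flat free point

`√q = 2 cos θ`, gauge 2 (`gB θ = (θ - π) / 2`): the weight of the strands from the free to the wired part is
`sin (θ + t) / sin θ`. `b` is a flat free boundary point, the domain is above `b` in the box of radius `R`.

`FL θ b r R σ f`: on `Iso b r R` the product over the pieces `A` of the half box of radius `R` which visit
the half box of radius `r` of the weight of `A` with its mass, times `(2 cos θ) ^ (σ s_A)` if `A` surrounds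
`b`, where `s_A = 1` if the strand enters on the left of its end, `- 1` otherwise.
-/

namespace Vale.Agent.P167.QB

open Finset Vale.Agent.P167.BR Vale.Agent.P167.FK
open Vale.Agent.P167.QX (wB XB lo hi)
open Vale.Agent.P167.E6 (IsPolygon Encloses)

variable {n : ℕ}

/-- The mean phase of the wired sides in gauge 2. -/
noncomputable def gB (θ : ℝ) : ℝ := (θ - Real.pi) / 2

/-- The functional in gauge 2. -/
noncomputable def XG (θ : ℝ) (q : ZMod n → ℤ × ℤ) (D : Finset (ℤ × ℤ)) (k : ℕ) (f : ℤ × ℤ → ℝ)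
    (ω : Cfg) : ℝ := XB θ (gB θ) q D k f ω

/-- The piece enters on the left of its end (through the line below `b`). -/
def LeftIn (b : ℤ × ℤ) (A : Finset Ed) : Prop := ∃ e ∈ A, ∃ e' ∈ A, (tlv e).2 < b.2 ∧
  (hdv e').2 < b.2 ∧ (hdv e).1 < (tlv e').1

open Classical in
/-- The sign of a strand. -/
noncomputable def slc (b : ℤ × ℤ) (A : Finset Ed) : ℤ := if LeftIn b A then 1 else -1

open Classical in
/-- The weight of the piece `A` with mass `t`. -/
noncomputable def wL (θ : ℝ) (b : ℤ × ℤ) (D : Finset (ℤ × ℤ)) (A : Finset Ed) (t : ℝ) : ℝ :=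
  if IsLp D A then Real.cos (θ + t) / Real.cos θ
  else if LeftIn b A then Real.sin (θ - t) / Real.sin θ
  else Real.sin (2 * θ + t) / Real.sin (2 * θ)

open Classical in
/-- The local functional of the charge `f` near `b`. -/
noncomputable def FL (θ : ℝ) (b : ℤ × ℤ) (r R : ℤ) (σ : ℤ) (f : ℤ × ℤ → ℝ) (ω : Cfg) : ℝ :=
  if Iso b r R ω then
    ∏ A ∈ (pcs ω (hbox b R)).filter (Vz (hbox b r)),
      wL θ b (hbox b R) A (mass (hbox b R) (top b R) f A) *
        (2 * Real.cos θ) ^ (σ * if Sep (hbox b R) A b (top b R) then slc b A else 0)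
  else 0

/-- A bump of mass `t` at distance of order `r` of the flat boundary point `b`. -/
structure Bmq (K t : ℝ) (b : ℤ × ℤ) (r : ℤ) (f : ℤ × ℤ → ℝ) : Prop where
  nonneg : ∀ z, 0 ≤ f z
  le : ∀ z, f z ≤ K / r ^ 2
  supp : ∀ z, f z ≠ 0 → b.1 - r ≤ z.1 ∧ z.1 ≤ b.1 + r ∧ b.2 + r / K ≤ z.2 ∧ z.2 ≤ b.2 + r
  sum : ∑ᶠ z, f z = t

open Classical in
/-- The point charge `t` at the site `b`. -/
noncomputable def dlt (b : ℤ × ℤ) (t : ℝ) (z : ℤ × ℤ) : ℝ := if z = b then t else 0

/-- The strands which surround the boundary site `m` and not the boundary site `l` and do not visit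
`Z`. -/
def MO (q : ZMod n → ℤ × ℤ) (Z : Finset (ℤ × ℤ)) (m l : ℕ) (A : Finset Ed) : Prop :=
  Ard q m A ∧ ¬ Ard q l A ∧ ¬ Vz Z A

/-- State 0: no strand surrounds only `m` (except those which visit `Z`), no strand to the wired part
surrounds only `l`. -/
def St0 (q : ZMod n → ℤ × ℤ) (D Z : Finset (ℤ × ℤ)) (k m l : ℕ) (ω : Cfg) : Prop :=
  (∀ A ∈ pcs ω D, ¬ MO q Z m l A) ∧ ∀ A ∈ pcs ω D, Ard q l A → ¬ Ard q m A → hi q A < k

/-- State 1: exactly one strand surrounds only `m` (except those which visit `Z`), it enters on the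
upper side, no strand to the wired part surrounds only `l`. -/
def St1 (q : ZMod n → ℤ × ℤ) (D Z : Finset (ℤ × ℤ)) (k m l : ℕ) (ω : Cfg) : Prop :=
  (∃ A ∈ pcs ω D, MO q Z m l A ∧ sg q A = -1 ∧ ∀ B ∈ pcs ω D, MO q Z m l B → B = A) ∧
    ∀ A ∈ pcs ω D, Ard q l A → ¬ Ard q m A → hi q A < k

open Classical in
/-- The state function. -/
noncomputable def Stf (θ : ℝ) (q : ZMod n → ℤ × ℤ) (D Z : Finset (ℤ × ℤ)) (k m l : ℕ) (ω : Cfg) : ℝ :=
  if St0 q D Z k m l ω then 1
  else if St1 q D Z k m l ω then (4 * Real.cos θ ^ 2 - 1) / (4 * Real.cos θ ^ 2) else 0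

/-- **Factorisation at `d = q m`** (deterministic): the functional with the bump `f` of mass `θ` near
`q m` and the point charge `- θ` at `q l`, `m < l < k`, both on the free side. -/
def S_factD (θ : ℝ) : Prop := ∀ (n : ℕ) (q : ZMod n → ℤ × ℤ) (D : Finset (ℤ × ℤ)), IsPolygon q →
  Encloses q D → ∀ (k m l : ℕ), l < k → k ≤ n → ∀ (r R : ℤ), 1 ≤ r → r ≤ R → Flt D (q m) R →
  q 0 ∉ sites (hbox (q m) R) → (m : ℤ) + R ≤ l → ∀ f : ℤ × ℤ → ℝ,
    (∀ z, f z ≠ 0 → z ∈ sites (hbox (q m) r)) → ∑ᶠ z, f z = θ →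
    ∀ ω : Cfg, Iso (q m) r R ω →
      XG θ q D k (fun z => f z - dlt (q l) θ z) ω =
        (2 * Real.cos θ) ^ (sgm q l - sgm q m) * FL θ (q m) r R 1 f ω *
          Stf θ q D (hbox (q m) r) k m l ω

end Vale.Agent.P167.QB
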