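import Vale.Agent.P167.QB.Maj3

/-!
# P167, general `q`, block Q-BRIDGE: moments of the majorants near a flat boundary point
-/

namespace Vale.Agent.P167.QB

open Finset Filter Topology MeasureTheory Vale.Agent.P167.BR Vale.Agent.P167.FK
open Vale.Agent.P167.FKA (Loc Ind ArmDec)
open Vale.Agent.P167.H519 (IsLim)
open Vale.Agent.P167.H259 (f_markov)
open Vale.Agent.P167.H166 (bxx mem_bxx)
open Vale.Agent.P167.H562 (Em Em_mono Em_eq)
open Vale.Agent.P167.H562.SML Vale.Agent.P167.H562.GL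
open Vale.Agent.P167.H562.MAJ (bigs Sm core Sc mem_core exists_cball nm_tri nm_comm')
open Vale.Agent.P167.H562.QM

variable {Q : ℝ} {P : Measure Cfg} {D : Finset (ℤ × ℤ)} {η : Cfg} {b : ℤ × ℤ} {r R : ℤ} {K : ℝ}

/-- Near the half box. -/
theorem nr_near (h : Sc K r) {v : ℤ × ℤ} (hv : Nr (bxx b (r + 1)) (dq K r) v) :
    nm (v - b) < 2 * r := by
  obtain ⟨u, hu, h1⟩ := hv
  rw [mem_bxx] at hu
  have h8 := h.r8
  have h2 := dq_mul h
  have h3 := dq_pos h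
  have hK := h.one_le
  have h4 : (r : ℝ) / K ≤ r := div_le_self (by exact_mod_cast (by omega : (0 : ℤ) ≤ r)) hK
  have h5 : (8 : ℝ) ≤ r := by exact_mod_cast h8
  have h6 : (nm (v - u) : ℝ) < ((r - 1 : ℤ) : ℝ) := by push_cast; linarith
  have h7 : nm (v - u) < r - 1 := by exact_mod_cast h6
  have h8 := nm_tri v u b
  omega

/-- Near the charge. -/
theorem supp_near (h : Sc K r) {z v : ℤ × ℤ} (hz : z ∈ sites (core K b r))
    (hv : (nm (v - z) : ℝ) ≤ 33 * (1 / (66 * K)) * r) : nm (v - b) < 2 * r ∧ b.2 ≤ v.2 := by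
  have h8 := h.r8
  have hK := h.one_le
  have h2 := dq_mul h
  have h5 : (8 : ℝ) ≤ r := by exact_mod_cast h8
  rw [h.mem_sites] at hz
  have e1 : 33 * (1 / (66 * K)) * (r : ℝ) = r / K / 2 := by field_simp; norm_num
  rw [e1] at hv
  have h4 : (r : ℝ) / K ≤ r := div_le_self (by linarith) hK
  have h9 : (8 : ℝ) ≤ r / K := by
    rw [le_div_iff₀ (by linarith)]
    exact h.le
  have hc := Int.le_ceil ((r : ℝ) / K)
  constructor
  · have h6 : (nm (v - z) : ℝ) < ((r : ℤ) : ℝ) := by linarith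
    have h7 : nm (v - z) < r := by exact_mod_cast h6
    have h10 := nm_tri v z b
    have h11 : nm (z - b) ≤ r := by
      obtain ⟨-, h2, h3⟩ := h.ceil
      simp only [nm, Prod.fst_sub, Prod.snd_sub, max_le_iff, abs_le]
      omega
    omega
  · have h6 : |v.2 - z.2| ≤ nm (v - z) := le_max_right _ _
    have h7 : (|v.2 - z.2| : ℝ) ≤ r / K / 2 := le_trans (by exact_mod_cast h6) hv
    have h10 := (abs_le.1 h7).1
    have h11 : (b.2 : ℝ) + ⌈(r : ℝ) / K⌉ - 1 ≤ z.2 := by exact_mod_cast hz.2.2.1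
    have : (b.2 : ℝ) ≤ v.2 := by linarith
    exact_mod_cast this

theorem supp_nm (h : Sc K r) {z : ℤ × ℤ} (hz : z ∈ sites (core K b r)) : nm (z - b) ≤ r := by
  rw [h.mem_sites] at hz
  obtain ⟨-, h2, h3⟩ := h.ceil
  simp only [nm, Prod.fst_sub, Prod.snd_sub, max_le_iff, abs_le]
  omega

/-- The squares of the domain near `b` are in the half box. -/
theorem near_hbox {pl pr : Bool} (hF : FltQ D η b (2 * r) pl pr) {v : ℤ × ℤ} (hv : v ∈ D)
    (h : nm (v - b) < 2 * r) : v ∈ hbox b (2 * r) := by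
  have h1 := (hF.dom v h.le).1 hv
  rw [mem_hbox]
  simp only [nm, Prod.fst_sub, Prod.snd_sub, max_lt_iff, abs_lt] at h
  omega

/-- **Moments of the majorant near a flat boundary point.** -/
theorem yb_mom (hQ : 1 ≤ Q) (hR0 : RSW Q) (hP : IsLim Q P) {K : ℝ} (hK : 1 ≤ K) (M s : ℝ)
    (hM : 1 ≤ M) (hs : 0 ≤ s) : ∃ C r0 : ℝ, 0 < C ∧ 1 ≤ r0 ∧ ∀ r : ℤ, r0 ≤ r → Sc K r ∧
    ∀ b : ℤ × ℤ, ∃ N : Cfg → ℕ,
      (∀ ω ω' : Cfg, (∀ v, nm (v - b) < 2 * r → ω v = ω' v) → N ω = N ω') ∧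
      (∀ (ω : Cfg) (D : Finset (ℤ × ℤ)), (bigs D (hbox b r) (dq K r) ω).card ≤ N ω) ∧
      ∀ (D : Finset (ℤ × ℤ)) (η : Cfg) (pl pr : Bool), Good η → FltQ D η b (2 * r) pl pr →
        ∀ f : ℤ × ℤ → ℝ, (∀ z, |f z| ≤ K / (r : ℝ) ^ 2) →
        (∀ z, f z ≠ 0 → z ∈ sites (core K b r)) →
        ∀ G : Cfg → ℝ, (∀ ω, 0 ≤ G ω) → Ind (hbox b (2 * r)) G →
        ∀ τ t : ℝ, 0 ≤ τ → τ ≤ 2 → 0 ≤ t → t ≤ s →
        Ex Q D η (fun ω => G ω * YQ M τ N f (dq K r) ω ^ t) ≤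
          C * Real.exp (-(t * τ * (∑ᶠ z, f z) * NbP P (dq K r))) * Ex Q D η G := by
  classical
  obtain ⟨ε, C, ρ0, hε, hC, hρ0, h1⟩ := YQ_mom hQ hR0 hP (1 / (66 * K)) 2 K s M 0 (by positivity)
    (by norm_num) (by linarith) hs hM
  refine ⟨C, max ρ0 (8 * K), hC, hρ0.trans (le_max_left _ _), fun r hr => ?_⟩
  have hSc : Sc K r := ⟨hK, (le_max_right _ _).trans hr⟩
  refine ⟨hSc, fun b => ?_⟩
  have h8 := hSc.r8
  have h5 : (8 : ℝ) ≤ r := by exact_mod_cast h8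
  obtain ⟨N, hN1, hN2, hN3⟩ := h1 r ((le_max_left _ _).trans hr) b (bxx b (r + 1))
    (fun v hv => by
      rw [mem_bxx] at hv
      have h2 : (nm (v - b) : ℝ) ≤ ((r + 1 : ℤ) : ℝ) := by exact_mod_cast hv
      push_cast at h2
      linarith) (fun i => i.elim0)
  refine ⟨N, fun ω ω' hw => hN1 ω ω' fun v hv _ => hw v (nr_near hSc hv), fun ω D => ?_, ?_⟩
  · refine bigs_card_leA (A := bxx b (r + 1)) (fun v hv w hw => ?_) (hN2 ω)
    rw [mem_bxx]
    rw [mem_hbox] at hv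
    have h2 := nm_tri w v b
    have h3 : nm (v - b) ≤ r := by
      simp only [nm, Prod.fst_sub, Prod.snd_sub, max_le_iff, abs_le]
      omega
    omega
  · intro D η pl pr hη hF f hf hs' G hG0 hG τ t hτ0 hτ2 ht0 hts
    refine hN3 D η hη (fun y a ha hy => hF.oneC fun v hv => (nr_near hSc (hy v hv)).le) f hf
      (fun z hz => ?_) (fun z hz v hv => ?_) G hG0 (fun ω ω' hw => hG ω ω' fun v hv => ?_)
      τ t hτ0 hτ2 ht0 hts
    · have h2 : (nm (z - b) : ℝ) ≤ r := by exact_mod_cast supp_nm hSc (hs' z hz)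
      linarith
    · obtain ⟨h2, h3⟩ := supp_near hSc (hs' z hz) hv
      exact (hF.dom v h2.le).2 h3
    · refine hw v fun hv' => hv (near_hbox hF hv'.1 ?_)
      rcases hv'.2 with h2 | ⟨z, hz, h2⟩
      · exact nr_near hSc h2
      · exact (supp_near hSc (hs' z hz) h2).1

/-- The sum of the squares of the masses of the small loops. -/
noncomputable def Sq (A : Finset (ℤ × ℤ)) (f : ℤ × ℤ → ℝ) (d : ℝ) (ω : Cfg) : ℝ :=
  ∑ ℓ ∈ smf A d ω, (G f ℓ) ^ 2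

/-- **Moments of the sum of the squares.** -/
theorem sq_mom (hQ : 1 ≤ Q) (hR0 : RSW Q) (hP : IsLim Q P) {K : ℝ} (hK : 1 ≤ K) (s : ℝ)
    (hs : 0 ≤ s) : ∃ C : ℝ, 0 < C ∧ ∀ r : ℤ, Sc K r → ∀ (b : ℤ × ℤ) (f : ℤ × ℤ → ℝ),
    (∀ z, |f z| ≤ K / (r : ℝ) ^ 2) → (∀ z, f z ≠ 0 → z ∈ sites (core K b r)) →
    ∃ A : Finset (ℤ × ℤ), (∀ s, f s ≠ 0 → ∀ v : ℤ × ℤ, (nm (v - s) : ℝ) < dq K r → v ∈ A) ∧
      ∀ (D : Finset (ℤ × ℤ)) (η : Cfg) (pl pr : Bool), Good η → FltQ D η b (2 * r) pl pr →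
        ∀ G : Cfg → ℝ, (∀ ω, 0 ≤ G ω) → Ind (hbox b (2 * r)) G →
        Ex Q D η (fun ω => G ω * Real.exp (s * Sq A f (dq K r) ω)) ≤ C * Ex Q D η G := by
  classical
  have hQ0 : 0 < Q := by linarith
  have hPp : IsProbabilityMeasure P := hP.1
  have hX : CrossP P := crossP hP (FKA.cross_fk hQ f_markov f_good f_dual hR0)
  obtain ⟨C, hC0, hC⟩ := quad_UA hX (R := 3) (κ := 1 / (66 * K)) (s * K ^ 2) (by norm_num)
    (by positivity)
  refine ⟨Real.exp (C * (s * K ^ 2)), Real.exp_pos _, fun r hSc b f hf hfs => ?_⟩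
  have h8 := hSc.r8
  have h5 : (8 : ℝ) ≤ r := by exact_mod_cast h8
  have hd : dq K r = 1 / (66 * K) * r := rfl
  have hd2 := dq_mul hSc
  have hKr : (r : ℝ) / K ≤ r := div_le_self (by linarith) hK
  obtain ⟨A0, hA0⟩ := exists_cball b (3 * (r : ℝ))
  set A : Finset (ℤ × ℤ) := A0.filter (fun v => ∃ s, f s ≠ 0 ∧ (nm (v - s) : ℝ) < dq K r) with hAd
  refine ⟨A, fun s hs v hv => ?_, ?_⟩
  · rw [hAd, mem_filter]
    refine ⟨?_, s, hs, hv⟩
    rw [hA0]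
    have h1 : (nm (s - b) : ℝ) ≤ r := by exact_mod_cast supp_nm hSc (hfs s hs)
    have h3 : (nm (v - b) : ℝ) ≤ nm (v - s) + nm (s - b) := by exact_mod_cast nm_tri v s b
    linarith
  · intro D η pl pr hη hF G0 hG0 hG
    set U : Finset (ℤ × ℤ) := D.filter (fun v => ∃ z, f z ≠ 0 ∧
      (nm (v - z) : ℝ) ≤ 33 * (1 / (66 * K)) * r) with hU
    have hL : Loc (fat A (dq K r)) (fun ω => Real.exp (s * Sq A f (dq K r) ω)) := by
      intro ω ω' hw
      simp only [Sq]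
      rw [smf_loc' A (dq K r) hw]
    refine ex_of_nu hQ hP hη (filter_subset _ _) (U := U) hL (fun ν hν => ?_) hG0
      (fun ω ω' hw => hG ω ω' fun v hv => hw v fun hv' => hv ?_)
    · have hνp := hν.prob
      have h3 := hC r (by linarith) b A (fun v hv => (hA0 v).1 (mem_filter.1 hv).1) U ν
        (fun u hu v hv => ?_) hν (fun ℓ => G f ℓ) K (by linarith)
        (bd_G (by linarith) (by linarith) hf) s hs le_rfl
      · have h4 : Em ν (fun ω => s * Sq A f (dq K r) ω) ≤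
            ENNReal.ofReal (Real.exp (C * (s * K ^ 2))) := h3
        rwa [Em_eq (loc_integrable hL), ENNReal.ofReal_le_ofReal_iff (Real.exp_pos _).le] at h4
      · obtain ⟨-, z, hz, h6⟩ := mem_filter.1 hu
        have h7 : (nm (v - z) : ℝ) ≤ nm (v - u) + nm (u - z) := by exact_mod_cast nm_tri v u z
        have h9 : (nm (v - z) : ℝ) ≤ 33 * (1 / (66 * K)) * r := by
          rw [hd] at h6
          linarith
        rw [hU, mem_filter]
        obtain ⟨k1, k2⟩ := supp_near hSc (hfs z hz) h9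
        exact ⟨(hF.dom v k1.le).2 k2, z, hz, h9⟩
    · obtain ⟨k1, z, hz, k2⟩ := mem_filter.1 hv'
      exact near_hbox hF k1 (supp_near hSc (hfs z hz) k2).1

end Vale.Agent.P167.QB
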