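import Vale.Agent.P167.QB.Uns4

/-!
# P167, general `q`, block Q-BRIDGE: the bridge with one one-point function

`zS θ b r f = zC θ b r (r ^ 2) (r ^ 3) f`. `uns`: the bump at the base point `q 0`, free polygon; `brS`: the
bump at `q m`, Dobrushin polygon. `zS_bds`: the order of `zS`.
-/

namespace Vale.Agent.P167.QB

open Finset Filter Topology MeasureTheory Vale.Agent.P167.BR Vale.Agent.P167.FK
open Vale.Agent.P167.E6 (IsPolygon Encloses dir face)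
open Vale.Agent.P167.FKA (Loc Ind ArmDec)
open Vale.Agent.P167.H519 (IsLim)
open Vale.Agent.P167.H562.QM

variable {Q : ℝ} {P : Measure Cfg} {D : Finset (ℤ × ℤ)} {η ω : Cfg} {b : ℤ × ℤ} {r R : ℤ} {K θ : ℝ}
  {f g : ℤ × ℤ → ℝ} {σ : ℤ}

/-- **The one-point function.** -/
noncomputable def zS (θ : ℝ) (b : ℤ × ℤ) (r : ℤ) (f : ℤ × ℤ → ℝ) : ℝ := zC θ b r (r ^ 2) (r ^ 3) f

/-- The intermediate scales. -/
theorem mid_sc (Λ : ℤ) (hΛ : 1 ≤ Λ) : ∃ K0 : ℤ, 1 ≤ K0 ∧ ∀ r R : ℤ, 1 ≤ r → K0 * r ≤ R →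
    ∃ R₁ R₂ : ℤ, 4 * r + 2 ≤ R₁ ∧ Λ * R₁ ≤ R₂ ∧ R₂ + 6 ≤ R ∧ R₁ ≤ R₂ ∧
      ∀ α : ℝ, 0 < α → ((r : ℝ) / R₁) ^ α + ((R₁ : ℝ) / R₂) ^ α + ((R₂ : ℝ) / R) ^ α ≤
        3 * 2 ^ α * ((r : ℝ) / R) ^ (α / 3) := by
  obtain ⟨K0, hK0, h⟩ := scales (max Λ 12) (le_trans hΛ (le_max_left _ _))
  refine ⟨K0, hK0, fun r R hr hR => ?_⟩
  obtain ⟨h1, h2, h3, g1, g2, g3⟩ := h r R hr hR
  have m1 : Λ ≤ max Λ 12 := le_max_left _ _
  have m2 : 12 ≤ max Λ 12 := le_max_right _ _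
  have a1 : 12 * r ≤ S1 r R := le_trans (mul_le_mul_of_nonneg_right m2 (by omega)) h1
  have a2 : 12 * S1 r R ≤ S2 r R := le_trans (mul_le_mul_of_nonneg_right m2 (by omega)) h2
  have a2' : Λ * S1 r R ≤ S2 r R := le_trans (mul_le_mul_of_nonneg_right m1 (by omega)) h2
  have a3 : 12 * S2 r R ≤ R := le_trans (mul_le_mul_of_nonneg_right m2 (by omega)) h3
  refine ⟨S1 r R, S2 r R, by omega, a2', by omega, by omega, fun α hα => ?_⟩
  have hr0 : (0 : ℝ) < r := by exact_mod_cast (by omega : 0 < r)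
  have hs1 : (0 : ℝ) < S1 r R := by exact_mod_cast (by omega : 0 < S1 r R)
  have hs2 : (0 : ℝ) < S2 r R := by exact_mod_cast (by omega : 0 < S2 r R)
  have hR0 : (0 : ℝ) < R := by exact_mod_cast (by omega : 0 < R)
  have key : ∀ x : ℝ, 0 ≤ x → x ≤ 2 * ((r : ℝ) / R) ^ (1 / 3 : ℝ) →
      x ^ α ≤ 2 ^ α * ((r : ℝ) / R) ^ (α / 3) := by
    intro x hx0 hx
    refine (Real.rpow_le_rpow hx0 hx hα.le).trans (le_of_eq ?_)
    rw [Real.mul_rpow (by norm_num) (Real.rpow_nonneg (by positivity) _),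
      ← Real.rpow_mul (by positivity)]
    congr 2
    ring
  have k1 := key _ (by positivity) g1
  have k2 := key _ (by positivity) g2
  have k3 := key _ (by positivity) g3
  linarith

/-- The final step. -/
theorem fin_asm {V T zc zs e1 e2 N M C₁ C₂ C₃ : ℝ} (h1 : |V - zc * T| ≤ C₁ * e1 * (N / M))
    (h2 : |zc - zs| ≤ C₂ * e2 * N) (h3 : |T| ≤ C₃ / M) (hN : 0 ≤ N) (hC2 : 0 ≤ C₂)
    (he2 : 0 ≤ e2) : |V - zs * T| ≤ (C₁ * e1 + C₂ * C₃ * e2) * (N / M) := by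
  have e : V - zs * T = (V - zc * T) + (zc - zs) * T := by ring
  rw [e]
  refine (abs_add_le _ _).trans ?_
  rw [abs_mul]
  have h4 := mul_le_mul h2 h3 (abs_nonneg _) (by positivity)
  calc _ ≤ C₁ * e1 * (N / M) + C₂ * e2 * N * (C₃ / M) := add_le_add h1 h4
    _ = _ := by ring

/-- **The order of the one-point function.** -/
theorem zS_bds (hθ0 : 0 < θ) (hθ1 : θ ≤ Real.pi / 3) (hR0 : RSW (2 * Real.cos θ))
    (hP : IsLim (2 * Real.cos θ) P) (hK : 1 ≤ K) : ∃ (c C r0 : ℝ), 0 < c ∧ 0 < C ∧ 1 ≤ r0 ∧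
    ∀ r : ℤ, r0 ≤ r → ∀ (b : ℤ × ℤ), ∀ f : ℤ × ℤ → ℝ, Bq' θ K b r f →
      c * Nf θ K P r ≤ zS θ b r f ∧ zS θ b r f ≤ C * Nf θ K P r := by
  obtain ⟨c, C, r0, Λ, hc, hr0, hΛ, h⟩ := zC_bds hθ0 hθ1 hR0 hP hK
  refine ⟨c, max C 1, max r0 (max Λ 2), hc, lt_of_lt_of_le one_pos (le_max_right _ _),
    hr0.trans (le_max_left _ _), fun r hr b f hf => ?_⟩
  have hr1 : (Λ : ℝ) ≤ r := (le_max_left _ _).trans ((le_max_right _ _).trans hr)
  have hr2 : (2 : ℝ) ≤ r := (le_max_right _ _).trans ((le_max_right _ _).trans hr)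
  have hr1' : Λ ≤ r := by exact_mod_cast hr1
  have hr2' : 2 ≤ r := by exact_mod_cast hr2
  have h1 := h r ((le_max_left _ _).trans hr) b (r ^ 2) (r ^ 3) (by nlinarith) (by nlinarith) f hf
  exact ⟨h1.1, h1.2.trans (mul_le_mul_of_nonneg_right (le_max_left _ _) (Nf_pos _ _ _ _).le)⟩

/-- **The bridge at `q l`, the bump at the base point, free polygon** (UNS). -/
theorem uns (hθ0 : 0 < θ) (hθ1 : θ ≤ Real.pi / 3) (hR0 : RSW (2 * Real.cos θ))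
    (hP : IsLim (2 * Real.cos θ) P) (hK : 1 ≤ K) :
    ∃ (r0 : ℝ) (Λ : ℤ) (α C : ℝ), 1 ≤ r0 ∧ 1 ≤ Λ ∧ 0 < α ∧ 0 < C ∧
    ∀ (n : ℕ) (q : ZMod n → ℤ × ℤ) (D : Finset (ℤ × ℤ)), IsPolygon q → Encloses q D →
    ∀ (η : Cfg) (l : ℕ) (rc R rp : ℤ) (fc fp : ℤ × ℤ → ℝ),
      Good η → l ≤ n → r0 ≤ rc → r0 ≤ rp → Λ * rc ≤ R → R ≤ rc ^ 2 →
      FltQ D η (q l) R false false → FltQ D η (q 0) (2 * rp) false false →
      Disjoint (hbox (q 0) (2 * rp)) (hbox (q l) R) →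
      Bq' θ K (q l) rc fc → Bq' θ K (q 0) rp fp →
      |Ex (2 * Real.cos θ) D η (XG θ q D n (fun z => fp z - fc z)) -
        zS θ (q l) rc fc *
          Ex (2 * Real.cos θ) D η (XG θ q D n (fun z => fp z - dlt (q l) θ z))| ≤
        C * ((rc : ℝ) / R) ^ α * (Nf θ K P rc / Nf θ K P rp) := by
  have hQ := two_cos hθ0 hθ1
  have hQ0 : 0 < 2 * Real.cos θ := by linarith
  obtain ⟨r1, Λ1, α1, C1, hr1, hΛ1, hα1, hC1, h1⟩ := brC3 hθ0 hθ1 hR0 hP hK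
  obtain ⟨r2, Λ2, α2, C2, hr2, hΛ2, hα2, hC2, h2⟩ := zC_cmp hθ0 hθ1 hR0 hP hK
  obtain ⟨r3, C3, hr3, hC3, h3⟩ := brB3 hθ0 hθ1 hR0 hP hK
  obtain ⟨K0, hK0, hsc⟩ := mid_sc (max Λ1 Λ2) (le_trans hΛ1 (le_max_left _ _))
  refine ⟨max (max r1 r2) (max r3 2), K0, min α1 α2 / 3,
    C1 * (3 * 2 ^ α1) + C2 * C3 * (3 * 2 ^ α2), hr1.trans ((le_max_left _ _).trans (le_max_left _ _)),
    hK0, by positivity, by positivity,
    fun n q D hq hD η l rc R rp fc fp hη hln hrc hrp hR1 hR2 hFc hFp hdis hfc hfp => ?_⟩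
  have m1 : r1 ≤ rc := ((le_max_left _ _).trans (le_max_left _ _)).trans hrc
  have m2 : r2 ≤ rc := ((le_max_right _ _).trans (le_max_left _ _)).trans hrc
  have m4 : (2 : ℝ) ≤ rc := ((le_max_right _ _).trans (le_max_right _ _)).trans hrc
  have m5 : r1 ≤ rp := ((le_max_left _ _).trans (le_max_left _ _)).trans hrp
  have m6 : r3 ≤ rp := ((le_max_left _ _).trans (le_max_right _ _)).trans hrp
  have m4' : 2 ≤ rc := by exact_mod_cast m4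
  obtain ⟨R₁, R₂, g1, g2, g3, g4, g5⟩ := hsc rc R (by omega) hR1
  have g2a : Λ1 * R₁ ≤ R₂ := le_trans (mul_le_mul_of_nonneg_right (le_max_left _ _) (by omega)) g2
  have g2b : Λ2 * R₁ ≤ R₂ := le_trans (mul_le_mul_of_nonneg_right (le_max_right _ _) (by omega)) g2
  have k1 := h1 n q D hq hD η l rc R₁ R₂ R rp fc fp hη hln m1 m5 g1 g2a g3 hFc hFp hdis hfc hfp
  have k2 := h2 (q l) rc R₁ R₂ (rc ^ 2) (rc ^ 3) fc m2 g1 g2b (by omega) (by nlinarith)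
    (by nlinarith) hfc
  have k3 : |Ex (2 * Real.cos θ) D η (XG θ q D n (fun z => fp z - dlt (q l) θ z))| ≤
      C3 / Nf θ K P rp := (FKA.abs_Ex_le hQ0 _).trans
    (h3 n q D hq hD η l R rp fp hη hln m6 (by omega) hFc hFp hdis hfp)
  have hx : (0 : ℝ) < rc := by linarith
  have hRR : (rc : ℝ) ≤ R := by exact_mod_cast (by nlinarith : rc ≤ R)
  have hR0' : (0 : ℝ) < R := by linarith
  have hxR : (rc : ℝ) / R ≤ 1 := (div_le_one hR0').2 hRR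
  have hxR0 : 0 < (rc : ℝ) / R := div_pos hx hR0'
  have e1 : ∀ α' : ℝ, min α1 α2 ≤ α' → ((rc : ℝ) / R) ^ (α' / 3) ≤
      ((rc : ℝ) / R) ^ (min α1 α2 / 3) := fun α' h =>
    Real.rpow_le_rpow_of_exponent_ge hxR0 hxR (by linarith)
  have p1 : (0 : ℝ) < 2 ^ α1 := by positivity
  have p2 : (0 : ℝ) < 2 ^ α2 := by positivity
  have a1 := (g5 α1 hα1).trans (mul_le_mul_of_nonneg_left (e1 α1 (min_le_left _ _))
    (by positivity : (0 : ℝ) ≤ 3 * 2 ^ α1))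
  have a2 := (g5 α2 hα2).trans (mul_le_mul_of_nonneg_left (e1 α2 (min_le_right _ _))
    (by positivity : (0 : ℝ) ≤ 3 * 2 ^ α2))
  have hN := Nf_pos θ K P rc
  have hM := Nf_pos θ K P rp
  set x : ℝ := ((rc : ℝ) / R) ^ (min α1 α2 / 3) with hxdef
  have hx0 : 0 ≤ x := Real.rpow_nonneg hxR0.le _
  have q3 : (0 : ℝ) ≤ ((R₂ : ℝ) / R) ^ α2 := Real.rpow_nonneg (div_nonneg (by
    exact_mod_cast (by omega : 0 ≤ R₂)) hR0'.le) _
  have b1 := k1.trans (mul_le_mul_of_nonneg_right (mul_le_mul_of_nonneg_left a1 hC1.le)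
    (div_pos hN hM).le)
  have b2 : |zC θ (q l) rc R₁ R₂ fc - zC θ (q l) rc (rc ^ 2) (rc ^ 3) fc| ≤
      C2 * (3 * 2 ^ α2 * x) * Nf θ K P rc := k2.trans (mul_le_mul_of_nonneg_right
      (mul_le_mul_of_nonneg_left (by linarith) hC2.le) hN.le)
  have b3 := fin_asm b1 b2 k3 hN.le hC2.le (by positivity)
  refine b3.trans (le_of_eq ?_)
  ring

/-- **The bridge at `q l`, the bump at `q m`, Dobrushin polygon.** -/
theorem brS (hθ0 : 0 < θ) (hθ1 : θ ≤ Real.pi / 3) (hR0 : RSW (2 * Real.cos θ))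
    (hP : IsLim (2 * Real.cos θ) P) (hK : 1 ≤ K) :
    ∃ (r0 : ℝ) (Λ : ℤ) (α C : ℝ), 1 ≤ r0 ∧ 1 ≤ Λ ∧ 0 < α ∧ 0 < C ∧
    ∀ (n : ℕ) (q : ZMod n → ℤ × ℤ) (D : Finset (ℤ × ℤ)), IsPolygon q → Encloses q D →
    ∀ (η : Cfg) (k l m : ℕ) (rc R rd : ℤ) (fc fd : ℤ × ℤ → ℝ),
      Good η → m < l → k ≤ n → (l : ℤ) + R ≤ k → r0 ≤ rc → r0 ≤ rd →
      Λ * rc ≤ R → R ≤ rc ^ 2 →
      FltQ D η (q l) R false false → FltQ D η (q m) (2 * rd) false false →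
      q 0 ∉ sites (hbox (q l) R) → q 0 ∉ sites (hbox (q m) (2 * rd)) →
      Disjoint (hbox (q m) (2 * rd)) (hbox (q l) R) →
      Bq' θ K (q l) rc fc → Bq' θ K (q m) rd fd →
      |Ex (2 * Real.cos θ) D η (XG θ q D k (fun z => fd z - fc z)) -
        zS θ (q l) rc fc *
          Ex (2 * Real.cos θ) D η (XG θ q D k (fun z => fd z - dlt (q l) θ z))| ≤
        C * ((rc : ℝ) / R) ^ α * (Nf θ K P rc / Nf θ K P rd) := by
  have hQ := two_cos hθ0 hθ1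
  have hQ0 : 0 < 2 * Real.cos θ := by linarith
  obtain ⟨r1, Λ1, α1, C1, hr1, hΛ1, hα1, hC1, h1⟩ := brC hθ0 hθ1 hR0 hP hK
  obtain ⟨r2, Λ2, α2, C2, hr2, hΛ2, hα2, hC2, h2⟩ := zC_cmp hθ0 hθ1 hR0 hP hK
  obtain ⟨r3, C3, hr3, hC3, h3⟩ := brB hθ0 hθ1 hR0 hP hK 1
  obtain ⟨K0, hK0, hsc⟩ := mid_sc (max Λ1 Λ2) (le_trans hΛ1 (le_max_left _ _))
  refine ⟨max (max r1 r2) (max r3 2), K0, min α1 α2 / 3,
    C1 * (3 * 2 ^ α1) + C2 * C3 * (3 * 2 ^ α2), hr1.trans ((le_max_left _ _).trans (le_max_left _ _)),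
    hK0, by positivity, by positivity,
    fun n q D hq hD η k l m rc R rd fc fd hη hml hkn hlk hrc hrd hR1 hR2 hFc hFd h0c h0d hdis
      hfc hfd => ?_⟩
  have m1 : r1 ≤ rc := ((le_max_left _ _).trans (le_max_left _ _)).trans hrc
  have m2 : r2 ≤ rc := ((le_max_right _ _).trans (le_max_left _ _)).trans hrc
  have m4 : (2 : ℝ) ≤ rc := ((le_max_right _ _).trans (le_max_right _ _)).trans hrc
  have m5 : r1 ≤ rd := ((le_max_left _ _).trans (le_max_left _ _)).trans hrd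
  have m6 : r3 ≤ rd := ((le_max_left _ _).trans (le_max_right _ _)).trans hrd
  have m4' : 2 ≤ rc := by exact_mod_cast m4
  obtain ⟨R₁, R₂, g1, g2, g3, g4, g5⟩ := hsc rc R (by omega) hR1
  have g2a : Λ1 * R₁ ≤ R₂ := le_trans (mul_le_mul_of_nonneg_right (le_max_left _ _) (by omega)) g2
  have g2b : Λ2 * R₁ ≤ R₂ := le_trans (mul_le_mul_of_nonneg_right (le_max_right _ _) (by omega)) g2
  have k1 := h1 n q D hq hD η k l m rc R₁ R₂ R rd fc fd hη hml (by omega) hkn hlk m1 m5 g1 g2a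
    (by omega) hFc hFd h0c h0d hdis hfc hfd
  have k2 := h2 (q l) rc R₁ R₂ (rc ^ 2) (rc ^ 3) fc m2 g1 g2b (by omega) (by nlinarith)
    (by nlinarith) hfc
  have k3 : |Ex (2 * Real.cos θ) D η (XG θ q D k (fun z => fd z - dlt (q l) θ z))| ≤
      C3 / Nf θ K P rd := by
    refine (FKA.abs_Ex_le hQ0 _).trans ?_
    have h4 := h3 n q D hq hD η false false k l m rd fd hη hml (by omega) hkn m6 hFd h0d hfd
      (fun _ => 1) (fun _ => zero_le_one) (fun _ _ _ => rfl)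
    simp only [one_mul, pow_one] at h4
    rw [FKA.Ex_const hQ0, mul_one] at h4
    exact h4
  have hx : (0 : ℝ) < rc := by linarith
  have hRR : (rc : ℝ) ≤ R := by exact_mod_cast (by nlinarith : rc ≤ R)
  have hR0' : (0 : ℝ) < R := by linarith
  have hxR : (rc : ℝ) / R ≤ 1 := (div_le_one hR0').2 hRR
  have hxR0 : 0 < (rc : ℝ) / R := div_pos hx hR0'
  have e1 : ∀ α' : ℝ, min α1 α2 ≤ α' → ((rc : ℝ) / R) ^ (α' / 3) ≤
      ((rc : ℝ) / R) ^ (min α1 α2 / 3) := fun α' h =>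
    Real.rpow_le_rpow_of_exponent_ge hxR0 hxR (by linarith)
  have p1 : (0 : ℝ) < 2 ^ α1 := by positivity
  have p2 : (0 : ℝ) < 2 ^ α2 := by positivity
  have a1 := (g5 α1 hα1).trans (mul_le_mul_of_nonneg_left (e1 α1 (min_le_left _ _))
    (by positivity : (0 : ℝ) ≤ 3 * 2 ^ α1))
  have a2 := (g5 α2 hα2).trans (mul_le_mul_of_nonneg_left (e1 α2 (min_le_right _ _))
    (by positivity : (0 : ℝ) ≤ 3 * 2 ^ α2))
  have hN := Nf_pos θ K P rc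
  have hM := Nf_pos θ K P rd
  set x : ℝ := ((rc : ℝ) / R) ^ (min α1 α2 / 3) with hxdef
  have hx0 : 0 ≤ x := Real.rpow_nonneg hxR0.le _
  have q3 : (0 : ℝ) ≤ ((R₂ : ℝ) / R) ^ α2 := Real.rpow_nonneg (div_nonneg (by
    exact_mod_cast (by omega : 0 ≤ R₂)) hR0'.le) _
  have b1 := k1.trans (mul_le_mul_of_nonneg_right (mul_le_mul_of_nonneg_left a1 hC1.le)
    (div_pos hN hM).le)
  have b2 : |zC θ (q l) rc R₁ R₂ fc - zC θ (q l) rc (rc ^ 2) (rc ^ 3) fc| ≤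
      C2 * (3 * 2 ^ α2 * x) * Nf θ K P rc := k2.trans (mul_le_mul_of_nonneg_right
      (mul_le_mul_of_nonneg_left (by linarith) hC2.le) hN.le)
  have b3 := fin_asm b1 b2 k3 hN.le hC2.le (by positivity)
  refine b3.trans (le_of_eq ?_)
  ring

end Vale.Agent.P167.QB
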