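import Vale.Agent.P167.QB.Low

/-!
# P167, general `q`, block Q-BRIDGE: the bridge at `c`

`brC`: for all polygon domains with flat free pieces near `q m` and `q l`, the expectation of the
functional with the bumps `fd` at `q m` and `- fc` at `q l` is `zC` times the expectation of the functional
with the bump `fd` and the point charge `- θ` at `q l`, with a relative error which is a power of the
ratios of the scales at `q l`. `zC_bds`: `zC` is of the order of `Nf = exp (θ tan θ NbP (r / (66 K)))`.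
-/

namespace Vale.Agent.P167.QB

open Finset Filter Topology MeasureTheory Vale.Agent.P167.BR Vale.Agent.P167.FK
open Vale.Agent.P167.E6 (IsPolygon Encloses)
open Vale.Agent.P167.FKA (Loc Ind ArmDec)
open Vale.Agent.P167.H519 (IsLim)
open Vale.Agent.P167.H562.SML
open Vale.Agent.P167.H562.MAJ (bigs Sm Sm_loc core Sc mem_core)
open Vale.Agent.P167.H562.QM

variable {Q : ℝ} {P : Measure Cfg} {D : Finset (ℤ × ℤ)} {η ω : Cfg} {b : ℤ × ℤ} {r R : ℤ} {K θ : ℝ}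
  {f g : ℤ × ℤ → ℝ} {σ : ℤ}

theorem flt_of {pl pr : Bool} (h : FltQ D η b R pl pr) : Flt D b R := by
  intro v h1 h2 h3 h4
  refine h.dom v ?_
  simp only [nm, Prod.fst_sub, Prod.snd_sub, max_le_iff, abs_le]
  omega

theorem fltQ_mn {pl pr : Bool} (h : FltQ D η b R pl pr) (hr : r ≤ R) : FltQ D η b r pl pr :=
  ⟨fun v hv => h.dom v (by omega), fun v hv => h.out v (by omega)⟩

theorem fltQ_hbox (_hR : 0 ≤ R) : FltQ (hbox b (R + 1)) eta0 b R false false := by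
  constructor
  · intro v hv
    rw [mem_hbox]
    simp only [nm, Prod.fst_sub, Prod.snd_sub, max_le_iff, abs_le] at hv
    omega
  · intro v _ _
    simp [eta0]

/-- The majorants of the bumps, with the squares which they read. -/
theorem YQ_reads (h : Sc K r) {M τ : ℝ} {N : Cfg → ℕ}
    (hN : ∀ ω ω' : Cfg, (∀ v, nm (v - b) < 2 * r → ω v = ω' v) → N ω = N ω')
    (hf : ∀ z, f z ≠ 0 → z ∈ sites (core K b r)) {ω ω' : Cfg}
    (hw : ∀ v, nm (v - b) < 2 * r → ω v = ω' v) :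
    YQ M τ N f (dq K r) ω = YQ M τ N f (dq K r) ω' := by
  unfold YQ
  rw [hN ω ω' hw, Sm_loc (F := sites (core K b r)) hf (ω := ω) (ω' := ω') fun v hv => hw v ?_]
  obtain ⟨s, hs, h1⟩ := hv
  have h2 := dq_pos h
  refine (supp_near h (hf s hs) (h1.le.trans ?_)).1
  have h3 : 33 * (1 / (66 * K)) * (r : ℝ) = 33 * dq K r := by unfold dq; ring
  rw [h3]
  linarith

/-- The data of a bump of mass `θ` at the flat point `b`, scale `r`. -/
structure Bq' (θ K : ℝ) (b : ℤ × ℤ) (r : ℤ) (f : ℤ × ℤ → ℝ) : Prop where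
  nonneg : ∀ z, 0 ≤ f z
  le : ∀ z, f z ≤ K / (r : ℝ) ^ 2
  supp : ∀ z, f z ≠ 0 → z ∈ sites (core K b r)
  sum : ∑ᶠ z, f z = θ

theorem Bq'.abs_le (h : Bq' θ K b r f) (z : ℤ × ℤ) : |f z| ≤ K / (r : ℝ) ^ 2 := by
  rw [abs_of_nonneg (h.nonneg z)]
  exact h.le z

theorem Bq'.neg_supp (h : Bq' θ K b r f) (z : ℤ × ℤ) (hz : (-f) z ≠ 0) :
    z ∈ sites (core K b r) := h.supp z (by
  intro h'; apply hz; show -(f z) = 0; rw [h', neg_zero])

theorem Bq'.neg_sum (h : Bq' θ K b r f) : ∑ᶠ z, (-f) z = -θ := by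
  rw [← h.sum, ← finsum_neg_distrib]
  rfl

/-- **The bridge at `c`.** -/
theorem brC (hθ0 : 0 < θ) (hθ1 : θ ≤ Real.pi / 3) (hR0 : RSW (2 * Real.cos θ))
    (hP : IsLim (2 * Real.cos θ) P) (hK : 1 ≤ K) :
    ∃ (r0 : ℝ) (Λ : ℤ) (α C : ℝ), 1 ≤ r0 ∧ 1 ≤ Λ ∧ 0 < α ∧ 0 < C ∧
    ∀ (n : ℕ) (q : ZMod n → ℤ × ℤ) (D : Finset (ℤ × ℤ)), IsPolygon q → Encloses q D →
    ∀ (η : Cfg) (k l m : ℕ) (rc R₁ R₂ R₃ rd : ℤ) (fc fd : ℤ × ℤ → ℝ),
      Good η → m < l → l < n → k ≤ n → (l : ℤ) + R₃ ≤ k → r0 ≤ rc → r0 ≤ rd →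
      4 * rc + 2 ≤ R₁ → Λ * R₁ ≤ R₂ → R₂ + 4 ≤ R₃ →
      FltQ D η (q l) R₃ false false → FltQ D η (q m) (2 * rd) false false →
      q 0 ∉ sites (hbox (q l) R₃) → q 0 ∉ sites (hbox (q m) (2 * rd)) →
      Disjoint (hbox (q m) (2 * rd)) (hbox (q l) R₃) →
      Bq' θ K (q l) rc fc → Bq' θ K (q m) rd fd →
      |Ex (2 * Real.cos θ) D η (XG θ q D k (fun z => fd z - fc z)) -
        zC θ (q l) rc R₁ R₂ fc *
          Ex (2 * Real.cos θ) D η (XG θ q D k (fun z => fd z - dlt (q l) θ z))| ≤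
        C * (((rc : ℝ) / R₁) ^ α + ((R₁ : ℝ) / R₂) ^ α + ((R₂ : ℝ) / R₃) ^ α) *
          (Nf θ K P rc / Nf θ K P rd) := by
  classical
  have hQ := two_cos hθ0 hθ1
  have hQ0 : 0 < 2 * Real.cos θ := by linarith
  obtain ⟨t0, t2⟩ := H562.QM.tan_bd hθ0 hθ1
  have hM2 := two_le_MW hθ0 hθ1
  have hM3 : (1 : ℝ) ≤ MW θ ^ 3 := one_le_pow₀ (by linarith)
  obtain ⟨C1, r1, hC1, hr1, h1⟩ := yb_mom hQ hR0 hP hK (MW θ ^ 3) 1 hM3 zero_le_one
  obtain ⟨Λ, α, C, hΛ, hα, hC, h2⟩ := asmC hθ0 hθ1 hR0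
  refine ⟨r1, Λ, α, C * MW θ ^ 2 * C1 * C1, hr1, hΛ, hα, by positivity,
    fun n q D hq hD η k l m rc R₁ R₂ R₃ rd fc fd hη hml hln hkn hk hrc hrd hR1 hR2 hR3 hFc hFd h0c
      h0d hdis hfc hfd => ?_⟩
  obtain ⟨hSc, h1c⟩ := h1 rc hrc
  obtain ⟨hSd, h1d⟩ := h1 rd hrd
  obtain ⟨Nc, hNc1, hNc2, hNc3⟩ := h1c (q l)
  obtain ⟨Nd, hNd1, hNd2, hNd3⟩ := h1d (q m)
  have hrc8 := hSc.r8
  have hrd8 := hSd.r8
  have hΛR : R₁ ≤ R₂ := by nlinarith
  have hmn : m < n := by omega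
  have hFc' : Flt D (q l) R₃ := flt_of hFc
  have hFc2 : Flt D (q l) (2 * rc) := hFc'.mono (by omega)
  have hFd' : Flt D (q m) (2 * rd) := flt_of hFd
  have h0c2 : q 0 ∉ sites (hbox (q l) (2 * rc)) := fun h => h0c (sites_mono (hbox_mono (by omega)) h)
  set Yc : Cfg → ℝ := YQ (MW θ ^ 3) (Real.tan θ) Nc (-fc) (dq K rc) with hYc
  set Yd : Cfg → ℝ := YQ (MW θ ^ 3) (Real.tan θ) Nd fd (dq K rd) with hYd
  have hYc0 : ∀ ω, 0 ≤ Yc ω := fun ω => (YQ_pos (by positivity) _ _ _ _ _).le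
  have hYd0 : ∀ ω, 0 ≤ Yd ω := fun ω => (YQ_pos (by positivity) _ _ _ _ _).le
  have hnf : ∀ z, |(-fc) z| ≤ K / (rc : ℝ) ^ 2 := fun z => by
    rw [Pi.neg_apply, abs_neg]; exact hfc.abs_le z
  have hqls : q l ∈ sites D := sites_mono (hbox_sub hFc') (by
    rw [mem_sites_hbox (by omega)]; omega)
  have hmain := h2 n q D hq hD η k l rc R₁ R₂ R₃ fc fd Yc Yd (C1 * Nf θ K P rc) (MW θ ^ 2) hη hln
    (by omega) hR1 hR2 hR3 hFc h0c hk hfc.nonneg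
    (fun z hz => sites_mono hSc.core_sub (hfc.supp z hz)) hfc.sum
    (fun ζ A _ hI => (mass_far' hq hD (m := m) (rm := rd) (Rm := 2 * rd) hln hmn hFd' hFc'
      (by omega) (by omega) (by omega) hdis h0c
      (fun z hz => sites_mono hSd.core_sub (hfd.supp z hz)) hI).1)
    (mul_nonneg hC1.le (Nf_pos _ _ _ _).le) (by positivity) hYc0 hYd0 ?_ ?_ ?_ ?_ ?_
  · refine hmain.trans ?_
    -- the expectation of the majorant at `d`
    have h3 := hNd3 D η false false hη hFd fd hfd.abs_le hfd.supp (fun _ => 1)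
      (fun _ => zero_le_one) (fun _ _ _ => rfl) (Real.tan θ) 1 t0 t2 zero_le_one le_rfl
    simp only [one_mul, Real.rpow_one] at h3
    rw [FKA.Ex_const hQ0, hfd.sum, mul_one] at h3
    have h4 : Real.exp (-(Real.tan θ * θ * NbP P (dq K rd))) = 1 / Nf θ K P rd := by
      unfold Nf
      rw [Real.exp_neg, one_div]
    rw [h4] at h3
    have h5 : (0 : ℝ) ≤ ((rc : ℝ) / R₁) ^ α + ((R₁ : ℝ) / R₂) ^ α + ((R₂ : ℝ) / R₃) ^ α := by
      have e1 : (0 : ℝ) ≤ rc := by exact_mod_cast (by omega : (0 : ℤ) ≤ rc)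
      have e2 : (0 : ℝ) ≤ R₁ := by exact_mod_cast (by omega : (0 : ℤ) ≤ R₁)
      have e3 : (0 : ℝ) ≤ R₂ := by exact_mod_cast (by omega : (0 : ℤ) ≤ R₂)
      have e4 : (0 : ℝ) ≤ R₃ := by exact_mod_cast (by omega : (0 : ℤ) ≤ R₃)
      positivity
    have h6 := Nf_pos θ K P rc
    calc C * (((rc : ℝ) / R₁) ^ α + ((R₁ : ℝ) / R₂) ^ α + ((R₂ : ℝ) / R₃) ^ α) * MW θ ^ 2 *
          (C1 * Nf θ K P rc) * Ex (2 * Real.cos θ) D η Yd
        ≤ C * (((rc : ℝ) / R₁) ^ α + ((R₁ : ℝ) / R₂) ^ α + ((R₂ : ℝ) / R₃) ^ α) * MW θ ^ 2 *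
          (C1 * Nf θ K P rc) * (C1 * (1 / Nf θ K P rd)) :=
          mul_le_mul_of_nonneg_left h3 (by positivity)
      _ = _ := by ring
  · intro ω ω' hw
    refine YQ_reads hSd hNd1 hfd.supp fun v hv => hw v fun hv' => ?_
    have hvD : v ∈ D := hbox_sub hFc' hv'
    exact Finset.disjoint_left.1 hdis (near_hbox hFd hvD hv) hv'
  · intro D' η' hF' hη' G hG0 hG
    have h3 := hNc3 D' η' false false hη' (fltQ_mn hF' (by omega)) (-fc) hnf hfc.neg_supp G hG0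
      (fun ω ω' hw => hG ω ω' fun v hv => hw v fun hv' => hv (hbox_mono (by omega) hv'))
      (Real.tan θ) 1 t0 t2 zero_le_one le_rfl
    simp only [Real.rpow_one] at h3
    rw [hfc.neg_sum] at h3
    refine h3.trans (le_of_eq ?_)
    unfold Nf
    congr 3
    ring
  · intro ω
    have h3 := FL_le (θ := θ) (σ := -1) hθ0 hθ1 hSc (R := R₁) (by omega) (Or.inr rfl) hnf
      hfc.neg_supp (hNc2 ω)
    refine (le_abs_self _).trans (h3.trans ?_)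
    rw [hYc, YQ]
    refine mul_le_mul_of_nonneg_left (mul_le_mul_of_nonneg_right ?_ (Real.exp_pos _).le)
      (by norm_num)
    rw [← pow_mul]
    exact pow_le_pow_right₀ (by linarith) (by omega)
  · intro ω
    have h3 := maj1 hq hD hθ0 hθ1 hml hkn hSd hSc hFd' hFc2 h0d h0c2 (by omega)
      (hdis.mono_right (hbox_mono (by omega))) hfd.abs_le hfc.abs_le hfd.supp hfc.supp hfd.sum hfc.sum ω
      (hNd2 ω D) (hNc2 ω D)
    exact h3
  · intro ω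
    exact maj2 hq hD hθ0 hθ1 hml (by omega) hkn hSd hFd' hqls h0d hfd.abs_le hfd.supp hfd.sum ω
      (hNd2 ω D)

/-- **The order of the local factor.** -/
theorem zC_bds (hθ0 : 0 < θ) (hθ1 : θ ≤ Real.pi / 3) (hR0 : RSW (2 * Real.cos θ))
    (hP : IsLim (2 * Real.cos θ) P) (hK : 1 ≤ K) : ∃ (c C r0 : ℝ) (Λ : ℤ), 0 < c ∧ 1 ≤ r0 ∧ 2 ≤ Λ ∧
    ∀ r : ℤ, r0 ≤ r → ∀ (b : ℤ × ℤ) (R₁ R₂ : ℤ), Λ * r ≤ R₁ → R₁ + 1 ≤ R₂ →
      ∀ f : ℤ × ℤ → ℝ, Bq' θ K b r f →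
      c * Nf θ K P r ≤ zC θ b r R₁ R₂ f ∧ zC θ b r R₁ R₂ f ≤ C * Nf θ K P r := by
  have hQ := two_cos hθ0 hθ1
  have hQ0 : 0 < 2 * Real.cos θ := by linarith
  obtain ⟨t0, t2⟩ := H562.QM.tan_bd hθ0 hθ1
  have hM2 := two_le_MW hθ0 hθ1
  obtain ⟨C1, r1, hC1, hr1, h1⟩ := yb_mom hQ hR0 hP hK (MW θ) 1 (by linarith) zero_le_one
  obtain ⟨c, r2, Λ, hc, hr2, hΛ, h2⟩ := FL_low hθ0 hθ1 hR0 hP hK
  refine ⟨c, 2 * C1, max r1 r2, Λ, hc, hr1.trans (le_max_left _ _), hΛ,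
    fun r hr b R₁ R₂ hR1 hR2 f hf => ?_⟩
  obtain ⟨hSc, h1⟩ := h1 r ((le_max_left _ _).trans hr)
  obtain ⟨N, -, hN2, hN3⟩ := h1 b
  have hr8 := hSc.r8
  have hR1' : 2 * r ≤ R₁ := by nlinarith
  have hF : FltQ (hbox b R₂) eta0 b R₁ false false := by
    have := fltQ_hbox (b := b) (R := R₂ - 1) (by omega)
    rw [sub_add_cancel] at this
    exact fltQ_mn this (by omega)
  constructor
  · have h3 := h2 r ((le_max_right _ _).trans hr) b R₁ hR1 (hbox b R₂) eta0 f_good.2.1 hF f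
      hf.nonneg hf.le hf.supp hf.sum (fun _ => 1) (fun _ => zero_le_one) (fun _ _ _ => rfl)
    simp only [one_mul] at h3
    rw [FKA.Ex_const hQ0, mul_one] at h3
    exact h3
  · have hnf : ∀ z, |(-f) z| ≤ K / (r : ℝ) ^ 2 := fun z => by
      rw [Pi.neg_apply, abs_neg]; exact hf.abs_le z
    have h3 := hN3 (hbox b R₂) eta0 false false f_good.2.1 (fltQ_mn hF hR1') (-f) hnf hf.neg_supp
      (fun _ => 1) (fun _ => zero_le_one) (fun _ _ _ => rfl) (Real.tan θ) 1 t0 t2 zero_le_one le_rfl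
    simp only [one_mul, Real.rpow_one] at h3
    rw [FKA.Ex_const hQ0, hf.neg_sum, mul_one] at h3
    have h4 : Real.exp (-(Real.tan θ * -θ * NbP P (dq K r))) = Nf θ K P r := by
      unfold Nf
      congr 1
      ring
    rw [h4] at h3
    have h5 : zC θ b r R₁ R₂ f ≤ Ex (2 * Real.cos θ) (hbox b R₂) eta0
        (fun ω => 2 * YQ (MW θ) (Real.tan θ) N (-f) (dq K r) ω) := by
      refine FKA.Ex_mono hQ0 fun S _ => ?_
      exact (le_abs_self _).trans (FL_le (θ := θ) (σ := -1) hθ0 hθ1 hSc hR1' (Or.inr rfl) hnf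
        hf.neg_supp (hN2 _))
    rw [FKA.Ex_mul_left] at h5
    linarith

end Vale.Agent.P167.QB
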