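import Vale.Agent.P167.QB.Uns
import Vale.Agent.P167.H436.ND.Defs
import Vale.Agent.P167.BR.Intf

/-!
# P167, general `q`, block BRQ: the finite-volume statements

`c = q l`, `d = q m` are flat points of the free side of a Dobrushin polygon, `m < l < k`. The bump at `d`
is `θ / 2 (f 0 + f 1)`, `f i` in the ring of radius `a i`, `a 0` much smaller than `a 1`.
`DAr D W b r`: the half box of radius `r` of `b` is joined to `W` by a dual path of `D` outside the half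
box. `Wa q k l`: the sites of the arc from `c` to `a = q k`.
All constants are uniform in the domain, the exterior and in the ratio `a 1 / a 0`.
-/

namespace Vale.Agent.P167.QB

open Finset MeasureTheory Vale.Agent.P167.BR Vale.Agent.P167.FK
open Vale.Agent.P167.E6 (IsPolygon Encloses)
open Vale.Agent.P167.H562.QM (FltQ NbP)
open Vale.Agent.P167.H436.ND (Bp Ft Ex0)
open Vale.Agent.P167.H192.TA (Xc)

/-- The half box of radius `r` of `b` is joined to `W` by a dual path of `D` outside of the half box. -/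
def DAr (D : Finset (ℤ × ℤ)) (W : Set (ℤ × ℤ)) (b : ℤ × ℤ) (r : ℤ) : Set Cfg :=
  {ω | Jn false (D \ hbox b r) ω (sites (hbox b r)) W}

/-- The sites of the free arc from `q l` to `q k`. -/
def Wa {n : ℕ} (q : ZMod n → ℤ × ℤ) (k l : ℕ) : Set (ℤ × ℤ) := {z | ∃ j : ℕ, l ≤ j ∧ j ≤ k ∧ q j = z}

/-- The geometry: two flat free windows, at `d = q m` (radius `Rd`) and at `c = q l` (radius `Rc`). -/
structure Geo2 {n : ℕ} (q : ZMod n → ℤ × ℤ) (D : Finset (ℤ × ℤ)) (η : Cfg) (k l m : ℕ)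
    (Rc Rd : ℤ) : Prop where
  poly : IsPolygon q
  enc : Encloses q D
  good : Good η
  mR : (m : ℤ) + Rd ≤ l
  lR : (l : ℤ) + Rc ≤ k
  kn : k ≤ n
  pc : 1 ≤ Rc
  pd : 1 ≤ Rd
  fc : FltQ D η (q l) Rc false false
  fd : FltQ D η (q m) Rd false false
  oc : q 0 ∉ sites (hbox (q l) Rc)
  od : q 0 ∉ sites (hbox (q m) Rd)
  dis : Disjoint (hbox (q m) Rd) (hbox (q l) Rc)

/-- No primal arm from the half box of radius `r` to distance `R`, as an indicator. -/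
noncomputable def nH (b : ℤ × ℤ) (r R : ℤ) : Cfg → ℝ := {ω | ¬ HArm b r R ω}.indicator 1

/-- The functional: `θ / 2 (f 0 + f 1)` near `d`, the point charge `- θ` at `c`. -/
noncomputable def Xcd (θ : ℝ) {n : ℕ} (q : ZMod n → ℤ × ℤ) (D : Finset (ℤ × ℤ)) (k l : ℕ)
    (f : Fin 2 → ℤ × ℤ → ℝ) : Cfg → ℝ := XG θ q D k (Ft (fun _ => θ / 2) f (dlt (q l) (-θ)))

/-- The order of the small loop factors. -/
noncomputable def Nn (θ : ℝ) (P : Measure Cfg) (a : Fin 2 → ℤ) : ℝ :=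
  Real.exp (-(Ex0 θ P (fun _ => θ / 2) a))

/-- **(LOW)** Lower bound of the positive part. Owner: helper562. -/
def S_low (θ : ℝ) (P : Measure Cfg) : Prop := ∀ Cm : ℝ, 0 < Cm → Cm ≤ 1000 →
  ∃ (c : ℝ) (Kg a₀ : ℤ), 0 < c ∧ 8 ≤ Kg ∧
  ∀ (n : ℕ) (q : ZMod n → ℤ × ℤ) (D : Finset (ℤ × ℤ)) (η : Cfg) (k l m : ℕ) (Rc Rd : ℤ),
  Geo2 q D η k l m Rc Rd → ∀ a : Fin 2 → ℤ, a₀ ≤ a 0 → Kg * a 0 ≤ a 1 → Kg * a 1 ≤ Rd →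
  ∀ f : Fin 2 → ℤ × ℤ → ℝ, (∀ i, Bp Cm (q m) (a i) (f i)) →
    c * (Nn θ P a * Pr (2 * Real.cos θ) D η (DAr D (Wa q k l) (q m) (4 * a 0))) ≤
      Ex (2 * Real.cos θ) D η (fun ω => max (Xcd θ q D k l f ω) 0 * nH (q m) (4 * a 1) (Kg * a 1) ω)

/-- **(SGN)** Upper bound of the negative part. Owner: helper166. -/
def S_sgn (θ : ℝ) (P : Measure Cfg) : Prop := ∀ Cm : ℝ, 0 < Cm → Cm ≤ 1000 →
  ∃ (α C : ℝ) (Kg a₀ : ℤ), 0 < α ∧ 0 < C ∧ 8 ≤ Kg ∧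
  ∀ (n : ℕ) (q : ZMod n → ℤ × ℤ) (D : Finset (ℤ × ℤ)) (η : Cfg) (k l m : ℕ) (Rc Rd : ℤ),
  Geo2 q D η k l m Rc Rd → ∀ a : Fin 2 → ℤ, a₀ ≤ a 0 → Kg * a 0 ≤ a 1 →
  ∀ f : Fin 2 → ℤ × ℤ → ℝ, (∀ i, Bp Cm (q m) (a i) (f i)) →
  ∀ R₁ : ℤ, Kg * a 1 ≤ R₁ → Kg * R₁ ≤ Rd →
    Ex (2 * Real.cos θ) D η (fun ω => max (-(Xcd θ q D k l f ω)) 0 * nH (q m) (4 * a 1) R₁ ω) ≤
      C * ((a 0 : ℝ) / a 1) ^ α *
        (Nn θ P a * Pr (2 * Real.cos θ) D η (DAr D (Wa q k l) (q m) (4 * a 0)))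

/-- **(BETA)** The primal arm is much less likely than the dual arm. Owners: helper452, helper692. -/
def S_beta (θ : ℝ) : Prop := ∃ (α C : ℝ) (K s₀ : ℤ), 0 < α ∧ 0 < C ∧ 1 ≤ K ∧ 1 ≤ s₀ ∧
  ∀ (b : ℤ × ℤ) (r R N : ℤ), s₀ ≤ r → r ≤ R → K * R ≤ N →
    Pr (2 * Real.cos θ) (hbox b N) eta0 (Xc true b r R) ≤
      C * ((r : ℝ) / R) ^ α * Pr (2 * Real.cos θ) (hbox b N) eta0 (Xc false b r R)

/-- **(GLU)** Gluing of the dual arms of the domain. Owner: helper542. -/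
def S_glu (θ : ℝ) : Prop := ∃ (C : ℝ) (K s₀ : ℤ), 0 < C ∧ 1 ≤ K ∧ 1 ≤ s₀ ∧
  ∀ (n : ℕ) (q : ZMod n → ℤ × ℤ) (D : Finset (ℤ × ℤ)) (η : Cfg) (k l m : ℕ) (Rc Rd N : ℤ),
  Geo2 q D η k l m Rc Rd → ∀ r R : ℤ, s₀ ≤ r → r ≤ R → K * R ≤ Rd → K * R ≤ N →
    Pr (2 * Real.cos θ) (hbox (q m) N) eta0 (Xc false (q m) r R) *
        Pr (2 * Real.cos θ) D η (DAr D (Wa q k l) (q m) R) ≤
      C * Pr (2 * Real.cos θ) D η (DAr D (Wa q k l) (q m) r)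

/-- **(HAR)** The primal arm of the domain relative to the dual arm (from BETA and GLU).
Owner: helper174. -/
def S_har (θ : ℝ) : Prop := ∃ (α C : ℝ) (K s₀ : ℤ), 0 < α ∧ 0 < C ∧ 1 ≤ K ∧ 1 ≤ s₀ ∧
  ∀ (n : ℕ) (q : ZMod n → ℤ × ℤ) (D : Finset (ℤ × ℤ)) (η : Cfg) (k l m : ℕ) (Rc Rd : ℤ),
  Geo2 q D η k l m Rc Rd → ∀ r R : ℤ, s₀ ≤ r → r ≤ R → K * R ≤ Rd →
    Pr (2 * Real.cos θ) D η {ω | HArm (q m) r R ω} *
        Pr (2 * Real.cos θ) D η (DAr D (Wa q k l) (q m) R) ≤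
      C * ((r : ℝ) / R) ^ α * Pr (2 * Real.cos θ) D η (DAr D (Wa q k l) (q m) r)

/-- **(BRF)** The finite-volume form of the bridge. Owner: helper562. `fc` is the bump at `c`, `ε` is the
error, `c₁`, `c₂` are lower bounds of the dual arms from the radii `R₁` and `4 a 0`. -/
def S_brf (θ : ℝ) : Prop := ∀ Cm : ℝ, 0 < Cm → Cm ≤ 1000 → ∀ ε : ℝ, 0 < ε →
  ∃ Kg : ℤ, 8 ≤ Kg ∧ ∀ K₂ : ℤ, Kg ≤ K₂ → ∀ c₁ : ℝ, 0 < c₁ → ∃ t₀ : ℝ, 0 < t₀ ∧ ∀ c₂ : ℝ, 0 < c₂ →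
  ∀ K : ℝ, 1 ≤ K → ∃ (t₁ : ℝ) (a₀ : ℤ), 0 < t₁ ∧
  ∀ (n : ℕ) (q : ZMod n → ℤ × ℤ) (D : Finset (ℤ × ℤ)) (η : Cfg) (k l m : ℕ) (Rc Rd : ℤ),
  Geo2 q D η k l m Rc Rd → ∀ a : Fin 2 → ℤ, a₀ ≤ a 0 → K₂ * a 0 ≤ a 1 → a 1 ≤ 2 * K₂ * a 0 →
  ∀ f : Fin 2 → ℤ × ℤ → ℝ, (∀ i, Bp Cm (q m) (a i) (f i)) →
  ∀ R₁ : ℤ, (a 1 : ℝ) ≤ t₀ * R₁ → Kg * R₁ ≤ Rd →
  ∀ (rc : ℤ) (fc : ℤ × ℤ → ℝ), a₀ ≤ rc → (rc : ℝ) ≤ t₁ * Rc → Rc ≤ rc ^ 2 → Bq' θ K (q l) rc fc →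
    c₁ ≤ Pr (2 * Real.cos θ) D η (DAr D (Wa q k l) (q m) R₁) →
    c₂ ≤ Pr (2 * Real.cos θ) D η (DAr D (Wa q k l) (q m) (4 * a 0)) →
    |Ex (2 * Real.cos θ) D η (XG θ q D k (fun z => Ft (fun _ => θ / 2) f 0 z - fc z)) -
        zS θ (q l) rc fc *
          Ex (2 * Real.cos θ) D η (fun ω => Xcd θ q D k l f ω * nH (q m) (4 * a 1) R₁ ω)| ≤
      ε * |Ex (2 * Real.cos θ) D η (XG θ q D k (fun z => Ft (fun _ => θ / 2) f 0 z - fc z))| ∧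
    0 < zS θ (q l) rc fc ∧
    Ex (2 * Real.cos θ) D η (fun ω => max (-(Xcd θ q D k l f ω)) 0 * nH (q m) (4 * a 1) R₁ ω) ≤
      ε * Ex (2 * Real.cos θ) D η (fun ω => Xcd θ q D k l f ω * nH (q m) (4 * a 1) R₁ ω)

end Vale.Agent.P167.QB
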