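import Vale.Agent.P167.QB.Lw5

/-!
# P167, general `q`, block BRQ: the lower bound of the positive part, end

`s_low : S_low θ P` for `0 < θ < π / 3`, from the gluing of the dual arms `S_glu θ`.
-/

namespace Vale.Agent.P167.QB

open Finset Relation MeasureTheory Vale.Agent.P167 Vale.Agent.P167.BR Vale.Agent.P167.FK
open Vale.Agent.P167.FKA (Loc Ind DecS IncS Ex_mono Ex_congr Pr_nonneg Pr_mono ind_nonneg)
open Vale.Agent.P167.H192.TA (Xc)
open Vale.Agent.P167.H192.Q (SRSW)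
open Vale.Agent.P167.H519 (IsLim)
open Vale.Agent.P167.H562.QM (FltQ MajA NbP)
open Vale.Agent.P167.H436.ND

variable {D : Finset (ℤ × ℤ)} {ω η : Cfg} {n : ℕ} {q : ZMod n → ℤ × ℤ}
  {k l m : ℕ} {θ Cm M : ℝ} {R Rc Rd' s : ℤ} {P : Measure Cfg} {a : Fin 2 → ℤ}
  {f : Fin 2 → ℤ × ℤ → ℝ}

/-- The functional on the good event. -/
theorem ev_pt (hgeo : Geo2 q D η k l m Rc Rd') (hRd : R ≤ Rd') (h0 : 0 < θ) (h1 : θ ≤ Real.pi / 3)
    (hM : McL θ M) (hCm : Cm ≤ 1000) (ha0 : 4000 ≤ a 0) (h01 : 4 * a 0 ≤ a 1) (haR : 8 * a 1 ≤ R)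
    (hf : ∀ i, Bp Cm (q m) (a i) (f i)) {N : Fin 2 → ℕ}
    (hN : ∀ i, MajA (Zr (q m) (a i)) (kp * a i) ω (N i)) (hω : ω ∈ EvS q D k l m R a) :
    0 ≤ Xcd θ q D k l f ω ∧
    1 ≤ 2 * Xcd θ q D k l f ω * ∏ i, Yl θ M (θ / 2) (f i) (q m) (a i) (N i) ω ∧
    nH (q m) (4 * a 1) R ω = 1 := by
  obtain ⟨⟨e1, e2⟩, e3⟩ := hω
  have hw : Win q D m R := hgeo.win hRd
  have hsc : Scl 4000 4 R a := scl_of ha0 h01 haR
  have hml : (m : ℤ) + R ≤ l := by have := hgeo.mR; omega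
  have hlk : l ≤ k := by have := hgeo.lR; have := hgeo.pc; omega
  have hcr : ¬ Crs D (q m) (2 * a 1) R ω := fun h =>
    e2 (harm_of_crs hw.flat (by omega) (by omega) (by omega) (by omega) h)
  obtain ⟨d1, d2⟩ := low_det (M := M) hw hsc hml hlk hgeo.kn hgeo.ls hM h0 h1
    (fun i => (hf i).nonneg) (fun i => (hf i).supp) (fun i => (hf i).sum)
    (fun i ℓ hl hs' => small_G h0 h1 hCm (by have := hsc.pos i; omega) (hf i) hl hs')
    (ω := ω) ⟨e1, hcr, e3⟩ hN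
  refine ⟨d1, d2, ?_⟩
  unfold nH
  rw [Set.indicator_of_mem]
  · rfl
  · intro h
    apply e2
    obtain ⟨u, v, u1, u2, u3, u4⟩ := h
    exact harm_of (F := ha (q m) (4 * a 1) R ω) (fun z hz => ⟨(mem_hbox.1 hz.1).2.2.1, hz.2.2⟩)
      (by omega) u1 u2 (by omega) u4

/-- The decoupled factor. -/
noncomputable def V1f (D : Finset (ℤ × ℤ)) (W : Set (ℤ × ℤ)) (b : ℤ × ℤ) (a : Fin 2 → ℤ) (s : ℤ) :
    Cfg → ℝ := (Xc false b (4 * a 0) s ∩ DAr D W b (3 * a 1)).indicator 1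

theorem V1f_ind {W : Set (ℤ × ℤ)} {b : ℤ × ℤ} (ha0 : 1 ≤ a 0) (h01 : 4 * a 0 ≤ a 1)
    (hs : s ≤ a 1 / 2) (i : Fin 2) : Ind (Zg b (a i / 2) (3 * a i)) (V1f D W b a s) := by
  have e1 : V1f D W b a s = fun ω => (Xc false b (4 * a 0) s).indicator 1 ω *
      (DAr D W b (3 * a 1)).indicator 1 ω := by
    funext ω
    exact FKA.ind_inter _ _ _
  rw [e1]
  refine FKA.Ind.mul (Loc.ind ?_ H192.Q.loc_Xc) (ind_dar ?_)
  · rw [dFz]
    fin_cases i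
    · show Disjoint _ (Zg b (a 0 / 2) (3 * a 0))
      exact (Zg_disj (by omega)).symm
    · show Disjoint _ (Zg b (a 1 / 2) (3 * a 1))
      exact Zg_disj (by omega)
  · refine sdiff_subset.trans (hbox_mono ?_)
    fin_cases i
    · show 3 * a 0 ≤ _
      omega
    · exact le_refl _

theorem V1f_one (hgeo : Geo2 q D η k l m Rc Rd') (hRd : R ≤ Rd') (ha0 : 1 ≤ a 0)
    (h01 : 4 * a 0 ≤ a 1) (haR : 8 * a 1 ≤ R) (hs4 : 4 * a 0 ≤ s) (hs : s ≤ a 1 / 2)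
    (hω : ω ∈ DAr D (Wa q k l) (q m) (a 0)) : V1f D (Wa q k l) (q m) a s ω = 1 := by
  have hw : Win q D m s := (hgeo.win hRd).mono (by omega) (by omega)
  have hml : (m : ℤ) + s ≤ l := by have := hgeo.mR; omega
  have hd4 : ω ∈ DAr D (Wa q k l) (q m) (4 * a 0) := dar_mono ha0 (by omega) hω
  unfold V1f
  rw [Set.indicator_of_mem]
  · rfl
  · exact ⟨dar_xc hw.flat (by omega) hs4 (wa_far hw (by omega) hml hgeo.kn) hd4,
      dar_mono (by omega) (by omega) hd4⟩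

/-- The last step. -/
theorem low_end {Q : ℝ} (hQ0 : 0 < Q) {X V Y : Cfg → ℝ} {Ev : Set Cfg} {A B c : ℝ}
    (hA : 0 < A) (hB : 0 < B) (hX0 : ∀ ω, 0 ≤ X ω) (hV0 : ∀ ω, 0 ≤ V ω) (hY0 : ∀ ω, 0 ≤ Y ω)
    (hpt : ∀ S ⊆ D, cf D η S ∈ Ev → V (cf D η S) = 1 ∧ 1 ≤ 2 * X (cf D η S) * Y (cf D η S))
    (hEv : A ≤ Pr Q D η Ev) (hm : Ex Q D η (fun ω => V ω * Y ω) ≤ B) (hc : c = A / (2 * (B / A))) :
    c ≤ Ex Q D η X := by
  have hsc0 : 0 < B / A := by positivity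
  have h1 : Ex Q D η (fun ω => 2 * Ev.indicator 1 ω) ≤
      Ex Q D η (fun ω => (2 * (B / A)) * X ω + (B / A)⁻¹ * (V ω * Y ω)) := by
    refine Ex_mono hQ0 fun S hS => ?_
    have hr0 : 0 ≤ (2 * (B / A)) * X (cf D η S) + (B / A)⁻¹ * (V (cf D η S) * Y (cf D η S)) := by
      have := hX0 (cf D η S)
      have := hY0 (cf D η S)
      have := hV0 (cf D η S)
      positivity
    by_cases hω : cf D η S ∈ Ev
    · obtain ⟨h2, h3⟩ := hpt S hS hω
      rw [Set.indicator_of_mem hω, Pi.one_apply, mul_one, h2, one_mul]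
      have hx := hX0 (cf D η S)
      have hy := hY0 (cf D η S)
      refine two_le_of_mul (by positivity) (by positivity) ?_
      have e4 : 2 * (B / A) * X (cf D η S) * ((B / A)⁻¹ * Y (cf D η S)) =
          2 * X (cf D η S) * Y (cf D η S) := by
        field_simp
      rw [e4]
      exact h3
    · rw [Set.indicator_of_notMem hω, mul_zero]
      exact hr0
  rw [FKA.Ex_add, FKA.Ex_mul_left, FKA.Ex_mul_left, FKA.Ex_mul_left] at h1
  have h6 : (B / A)⁻¹ * Ex Q D η (fun ω => V ω * Y ω) ≤ A := by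
    refine (mul_le_mul_of_nonneg_left hm (by positivity)).trans (le_of_eq ?_)
    field_simp
  have h7 : A ≤ 2 * (B / A) * Ex Q D η X := by
    have : Pr Q D η Ev = Ex Q D η (fun ω => Ev.indicator 1 ω) := rfl
    linarith
  rw [hc, div_le_iff₀ (by positivity)]
  linarith

/-- **(LOW)** -/
theorem s_low (h0 : 0 < θ) (h1 : θ < Real.pi / 3) (hR : RSW (2 * Real.cos θ))
    (hS : SRSW (2 * Real.cos θ)) (hP : IsLim (2 * Real.cos θ) P) (hG : S_glu θ) : S_low θ P := by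
  classical
  intro Cm hCm0 hCm
  have hQ := two_cos h0 h1.le
  have hQ0 : 0 < 2 * Real.cos θ := by linarith
  obtain ⟨M, hM⟩ := exists_mcL h0 h1
  obtain ⟨CY, aY, hCY, hY⟩ := H662.ND.s_Y h0 h1.le hR hP Cm M hCm0 hM.h1
  obtain ⟨C1, L, K1, s1, hC1, hL8, hK1, hs1, hv1⟩ := v1_bd hQ hR hS hG
  obtain ⟨c2, K2, s2, hc2, hK2, hs2, hext⟩ := dar_ext hQ hR hS hG 4
  obtain ⟨K3, hK3, hev⟩ := ev_prob hQ hR hS
  refine ⟨(c2 / 4) ^ 2 / (2 * CY * C1), 32 + K3 + 2 * L + 3 * K1 + 4 * K2, 4000 + aY.natAbs + s1 + s2,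
    by positivity, by omega, fun n q D η k l m Rc Rd hgeo a ha0 ha1 haR f hf => ?_⟩
  set Kg : ℤ := 32 + K3 + 2 * L + 3 * K1 + 4 * K2 with hKg
  have b1 : 4000 ≤ a 0 := by omega
  have b2 : aY ≤ a 0 := by omega
  have b3 : s1 ≤ 4 * a 0 := by omega
  have b4 : s2 ≤ a 0 := by omega
  have b5 : 32 * a 0 ≤ a 1 := by nlinarith
  have b6 : 32 * a 1 ≤ Kg * a 1 := by nlinarith
  have b7 : K3 * a 0 ≤ a 1 := by nlinarith
  have b8 : K3 * a 1 ≤ Kg * a 1 := by nlinarith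
  have b9 : K1 * (3 * a 1) ≤ Rd := by nlinarith
  have b10 : K2 * (4 * a 0) ≤ Rd := by nlinarith
  have b11 : L * (4 * a 0) ≤ 3 * a 1 := by nlinarith
  obtain ⟨R, hRdef⟩ : ∃ R, R = Kg * a 1 := ⟨_, rfl⟩
  rw [← hRdef] at haR b6 b8 ⊢
  clear ha1 hKg hRdef ha0
  have hw : Win q D m R := hgeo.win haR
  have hsc : Scl 4000 4 R a := scl_of b1 (by omega) (by omega)
  have hpi := Real.pi_lt_d2
  -- the majorants
  have hYi : ∀ i : Fin 2, ∃ N : Cfg → ℕ, (∀ ω, MajA (Zr (q m) (a i)) (kp * a i) ω (N ω)) ∧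
      H436.ND.Rd D (Zg (q m) (a i / 2) (3 * a i))
        (fun ω => Yl θ M (θ / 2) (f i) (q m) (a i) (N ω) ω) ∧
      ∀ g : Cfg → ℝ, (∀ ω, 0 ≤ g ω) → Ind (Zg (q m) (a i / 2) (3 * a i)) g →
      Ex (2 * Real.cos θ) D η (fun ω => g ω * Yl θ M (θ / 2) (f i) (q m) (a i) (N ω) ω ^ 2) ≤
        CY * Real.exp (2 * (Real.tan θ * (θ / 2 * NbP P (kp * a i)))) *
          Ex (2 * Real.cos θ) D η g := by
    intro i
    have h2 : a 0 ≤ a i := by
      fin_cases i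
      · exact le_rfl
      · show a 0 ≤ a 1
        omega
    have h3 := hsc.top i
    obtain ⟨N, hN1, hN2⟩ := hY (q m) (a i) (b2.trans h2)
    have h4 := hN2 D η Rd false false (fltQ_flt hgeo.fd) hgeo.fltO (h3.trans haR) (f i) (hf i)
      (θ / 2) (by rw [abs_of_pos (by linarith)]; linarith)
    exact ⟨N, hN1, h4.2.1, fun g hg0 hg => (h4.2.2 g hg0 hg).2⟩
  choose N hN1 hN2 hN3 using hYi
  have hsub : ∀ i, Zg (q m) (a i / 2) (3 * a i) ⊆ D := by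
    intro i
    have h3 := hsc.top i
    have h4 := hsc.pos i
    exact Zg_sub hw.flat (by omega)
  -- the factor
  obtain ⟨s, hs⟩ : ∃ s, s = 3 * a 1 / L := ⟨_, rfl⟩
  have hsa : s ≤ a 1 / 2 := by
    have h3 : s * L ≤ 3 * a 1 := by rw [hs]; exact Int.ediv_mul_le _ (by omega)
    have h4 : 0 ≤ s := by rw [hs]; exact Int.ediv_nonneg (by omega) (by omega)
    have h5 : s * 8 ≤ 3 * a 1 := le_trans (mul_le_mul_of_nonneg_left hL8 h4) h3
    omega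
  have hs4 : 4 * a 0 ≤ s := by
    rw [hs, Int.le_ediv_iff_mul_le (by omega)]
    linarith
  have hV10 : ∀ ω, 0 ≤ V1f D (Wa q k l) (q m) a s ω := fun ω => ind_nonneg _ _
  obtain ⟨p, hp⟩ : ∃ p, p = Pr (2 * Real.cos θ) D η (DAr D (Wa q k l) (q m) (4 * a 0)) := ⟨_, rfl⟩
  have hp0 : 0 ≤ p := by rw [hp]; exact Pr_nonneg hQ0 _
  have hEV : Ex (2 * Real.cos θ) D η (V1f D (Wa q k l) (q m) a s) ≤ C1 * p := by
    rw [hp, hs]
    exact hv1 n q D η k l m Rc Rd hgeo (4 * a 0) (3 * a 1) b3 b11 b9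
  have hmom := y_mom (P := P) (D := D) (η := η) hQ0 hCY hM.h1 (N := N) (b := q m) (f := f) hsub
    (by omega) (by omega) (fun i => ⟨hN2 i, hN3 i⟩) hV10
    (fun i => V1f_ind (by omega) (by omega) hsa i)
  have hA1 : c2 / 4 * p ≤ Pr (2 * Real.cos θ) D η (EvS q D k l m R a) := by
    have k3 := hext n q D η k l m Rc Rd hgeo (a 0) (4 * a 0) b4 (by omega) le_rfl b10
    have k4 := hev n q D η k l m Rc Rd R hgeo haR a (by omega) b7 b8
    rw [hp]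
    linarith
  have hX0 : ∀ ω, 0 ≤ max (Xcd θ q D k l f ω) 0 * nH (q m) (4 * a 1) R ω := fun ω =>
    mul_nonneg (le_max_right _ _) (ind_nonneg _ _)
  have hY0 : ∀ ω, 0 ≤ ∏ i, Yl θ M (θ / 2) (f i) (q m) (a i) (N i ω) ω := fun ω =>
    Finset.prod_nonneg fun i _ => by
      have := hM.h1
      unfold Yl; positivity
  rw [← hp]
  rcases hp0.eq_or_lt with hpz | hpp
  · rw [← hpz, mul_zero, mul_zero]
    exact FKA.Ex_nonneg hQ0 fun S _ => hX0 _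
  have hN0 : 0 < Nn θ P a := Real.exp_pos _
  have hm2 : Ex (2 * Real.cos θ) D η (fun ω => V1f D (Wa q k l) (q m) a s ω *
      ∏ i, Yl θ M (θ / 2) (f i) (q m) (a i) (N i ω) ω) ≤ CY * (Nn θ P a)⁻¹ * (C1 * p) :=
    hmom.trans (mul_le_mul_of_nonneg_left hEV (by positivity))
  refine low_end (Q := 2 * Real.cos θ) (D := D) (η := η) (A := c2 / 4 * p)
    (B := CY * (Nn θ P a)⁻¹ * (C1 * p)) (Ev := EvS q D k l m R a)
    (V := V1f D (Wa q k l) (q m) a s)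
    (Y := fun ω => ∏ i, Yl θ M (θ / 2) (f i) (q m) (a i) (N i ω) ω)
    hQ0 (by positivity) (by positivity) hX0 hV10 hY0 (fun S hS hω => ?_) hA1 hm2 ?_
  · obtain ⟨d1, d2, d3⟩ := ev_pt hgeo haR h0 h1.le hM hCm b1 (by omega) (by omega) hf
      (N := fun i => N i (cf D η S)) (fun i => hN1 i _) hω
    refine ⟨V1f_one hgeo haR (by omega) (by omega) (by omega) hs4 hsa hω.2, ?_⟩
    rw [d3, mul_one, max_eq_left d1]
    exact d2
  · field_simp

end Vale.Agent.P167.QB
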