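import Vale.Agent.P167.QB.Brf3
import Vale.Agent.P167.QB.Lw6

/-!
# P167, general `q`, block BRQ: `S_brf` (4): from `S_beta`
-/

namespace Vale.Agent.P167.QB.Brf

open MeasureTheory Vale.Agent.P167 Vale.Agent.P167.FK
open Vale.Agent.P167.H519 (IsLim)
open Vale.Agent.P167.H192.Q (SRSW)

/-- **(BRF) from (BETA).** -/
theorem brf {θ : ℝ} {P : Measure Cfg} (h0 : 0 < θ) (h1 : θ < Real.pi / 3)
    (hR : RSW (2 * Real.cos θ)) (hS : SRSW (2 * Real.cos θ)) (hP : IsLim (2 * Real.cos θ) P)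
    (hB : S_beta θ) : S_brf θ := by
  have hQ : 1 ≤ 2 * Real.cos θ := two_cos h0 h1.le
  have hG := H542.Q.Glu.s_glu hQ hR hS
  have hH := H542.Q.Glu.s_har hQ hR hS hB hG
  exact s_brf h0 h1.le hR hS hP (s_low h0 h1 hR hS hP hG) (Sg.s_sgn h0 h1.le hR hS hP hH hG) hG hH

end Vale.Agent.P167.QB.Brf
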