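import Vale.Agent.P167.QB.Uns
import Vale.Agent.P167.H760.Q.Tr
import Vale.Agent.P167.H760.Fr

/-!
# P167, general `q`, block Q-BRIDGE: translations of the one-point function

`zC_tr`, `zS_tr`: invariance under even translations.
-/

namespace Vale.Agent.P167.QB

open Finset Vale.Agent.P167.BR Vale.Agent.P167.FK
open Vale.Agent.P167.H760 (Tr)

variable {D : Finset (ℤ × ℤ)} {η ω : Cfg} {b a : ℤ × ℤ} {r R R₁ R₂ : ℤ} {K θ : ℝ}
  {f g : ℤ × ℤ → ℝ} {σ : ℤ} {A : Finset Ed}

/-- Translation by `a`. -/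
def tra (a : ℤ × ℤ) : Tr := Tr.tr a

theorem tra_o (ha : Even (a.1 + a.2)) : (tra a).o = false := by
  show (!decide (Even (a.1 + a.2))) = false
  simp [ha]

theorem tra_S (z : ℤ × ℤ) : (tra a).S z = z + a := rfl

theorem tra_Q (z : ℤ × ℤ) : (tra a).Q z = z + a := rfl

theorem tra_hd (ha : Even (a.1 + a.2)) (e : Ed) : hdv ((tra a).E e) = hdv e + a := by
  rw [(tra a).hd, tra_o ha]; rfl

theorem tra_tl (ha : Even (a.1 + a.2)) (e : Ed) : tlv ((tra a).E e) = tlv e + a := by
  rw [(tra a).tl, tra_o ha]; rfl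

theorem tra_im (b : ℤ × ℤ) (R : ℤ) : (tra a).im (hbox b R) = hbox (b + a) R := by
  ext v
  rw [Tr.mem_im', mem_hbox, mem_hbox]
  have h : (tra a).Q ((tra a).Q.symm v) = v := Equiv.apply_symm_apply _ _
  rw [tra_Q] at h
  have h1 : ((tra a).Q.symm v).1 + a.1 = v.1 := congrArg Prod.fst h
  have h2 : ((tra a).Q.symm v).2 + a.2 = v.2 := congrArg Prod.snd h
  simp only [Prod.fst_add, Prod.snd_add]
  omega

theorem tra_eds (b : ℤ × ℤ) (R : ℤ) (e : Ed) :
    (tra a).E e ∈ eds (hbox (b + a) R) ↔ e ∈ eds (hbox b R) := by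
  rw [← tra_im, Tr.mem_edsT]

theorem tra_vz : Vz (hbox (b + a) r) ((tra a).imE A) ↔ Vz (hbox b r) A := by
  constructor
  · rintro ⟨e, he, h⟩
    obtain ⟨e, rfl⟩ := (tra a).E.surjective e
    exact ⟨e, (tra a).mem_imE.1 he, (tra_eds b r e).1 h⟩
  · rintro ⟨e, he, h⟩
    exact ⟨_, (tra a).mem_imE.2 he, (tra_eds b r e).2 h⟩

theorem tra_left (ha : Even (a.1 + a.2)) : LeftIn (b + a) ((tra a).imE A) ↔ LeftIn b A := by
  constructor
  · rintro ⟨e, he, e', he', h1, h2, h3⟩
    obtain ⟨e, rfl⟩ := (tra a).E.surjective e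
    obtain ⟨e', rfl⟩ := (tra a).E.surjective e'
    rw [tra_tl ha, Prod.snd_add, Prod.snd_add] at h1
    rw [tra_hd ha, Prod.snd_add, Prod.snd_add] at h2
    rw [tra_tl ha, tra_hd ha, Prod.fst_add, Prod.fst_add] at h3
    exact ⟨e, (tra a).mem_imE.1 he, e', (tra a).mem_imE.1 he', by omega, by omega, by omega⟩
  · rintro ⟨e, he, e', he', h1, h2, h3⟩
    refine ⟨_, (tra a).mem_imE.2 he, _, (tra a).mem_imE.2 he', ?_, ?_, ?_⟩
    · rw [tra_tl ha, Prod.snd_add, Prod.snd_add]; omega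
    · rw [tra_hd ha, Prod.snd_add, Prod.snd_add]; omega
    · rw [tra_tl ha, tra_hd ha, Prod.fst_add, Prod.fst_add]; omega

theorem hb_iff (v : ℤ × ℤ) : v + a ∈ hbox (b + a) R ∨ (v + a).2 < (b + a).2 ↔
    v ∈ hbox b R ∨ v.2 < b.2 := by
  rw [mem_hbox, mem_hbox]
  simp only [Prod.fst_add, Prod.snd_add]
  omega

theorem tra_iso (ha : Even (a.1 + a.2)) : Iso (b + a) r R ((tra a).C ω) ↔ Iso b r R ω := by
  unfold Iso
  rw [← tra_im b R, Tr.pcsT, tra_im]
  constructor
  · intro h A hA hV e he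
    have h1 := h _ (mem_image_of_mem _ hA) (tra_vz.2 hV) _ ((tra a).mem_imE.2 he)
    rw [tra_hd ha, tra_tl ha, hb_iff, hb_iff] at h1
    exact h1
  · intro h B hB hV e he
    obtain ⟨A, hA, rfl⟩ := mem_image.1 hB
    obtain ⟨e, rfl⟩ := (tra a).E.surjective e
    rw [tra_hd ha, tra_tl ha, hb_iff, hb_iff]
    exact h A hA (tra_vz.1 hV) e ((tra a).mem_imE.1 he)

theorem top_add : top (b + a) R = top b R + a := by
  ext
  · rfl
  · simp only [top, Prod.snd_add]; ring

theorem FL_tr (ha : Even (a.1 + a.2)) : FL θ (b + a) r R σ f ((tra a).C ω) =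
    FL θ b r R σ (fun z => f (z + a)) ω := by
  classical
  unfold FL
  by_cases hI : Iso b r R ω
  · rw [if_pos hI, if_pos ((tra_iso ha).2 hI)]
    have e : (pcs ((tra a).C ω) (hbox (b + a) R)).filter (Vz (hbox (b + a) r)) =
        ((pcs ω (hbox b R)).filter (Vz (hbox b r))).image (tra a).imE := by
      rw [← tra_im b R, Tr.pcsT]
      ext B
      simp only [mem_filter, mem_image]
      constructor
      · rintro ⟨⟨A, hA, rfl⟩, hV⟩
        exact ⟨A, ⟨hA, tra_vz.1 hV⟩, rfl⟩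
      · rintro ⟨A, ⟨hA, hV⟩, rfl⟩
        exact ⟨⟨A, hA, rfl⟩, tra_vz.2 hV⟩
    rw [e, prod_image fun x _ y _ h => (tra a).imE_inj h]
    refine prod_congr rfl fun A hA => ?_
    rw [mem_filter] at hA
    have h1 : mass (hbox (b + a) R) (top (b + a) R) f ((tra a).imE A) =
        mass (hbox b R) (top b R) (fun z => f (z + a)) A := by
      have := (tra a).massT (D := hbox b R) (A := A) (top b R) f
      rw [tra_im, tra_S, ← top_add] at this
      exact this
    have h2 : Sep (hbox (b + a) R) ((tra a).imE A) (b + a) (top (b + a) R) ↔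
        Sep (hbox b R) A b (top b R) := by
      have := (tra a).sepT (D := hbox b R) (A := A) (z := b) (z' := top b R)
      rw [tra_im, tra_S, tra_S, ← top_add] at this
      exact this
    have h3 : IsLp (hbox (b + a) R) ((tra a).imE A) ↔ IsLp (hbox b R) A := by
      have := (tra a).isLpT hA.1
      rw [tra_im] at this
      exact this
    unfold wL slc
    simp only [h1, h2, h3, tra_left ha]
  · rw [if_neg hI, if_neg (fun h => hI ((tra_iso ha).1 h))]

theorem tra_eta0 (ha : Even (a.1 + a.2)) : (tra a).C eta0 = eta0 := by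
  funext v
  rw [Tr.C_apply', tra_o ha]
  rfl

/-- **Even translations of the one-point function.** -/
theorem zC_tr (ha : Even (a.1 + a.2)) :
    zC θ (b + a) r R₁ R₂ f = zC θ b r R₁ R₂ (fun z => f (z + a)) := by
  unfold zC
  rw [← tra_im b R₂]
  nth_rewrite 1 [← tra_eta0 ha]
  rw [Tr.Ex_T]
  congr 1
  funext ω
  exact FL_tr ha

theorem zS_tr (ha : Even (a.1 + a.2)) : zS θ (b + a) r f = zS θ b r (fun z => f (z + a)) :=
  zC_tr ha

/-- The translated bump. -/
theorem Bq'.tr (h : Bq' θ K (b + a) r f) : Bq' θ K b r (fun z => f (z + a)) where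
  nonneg z := h.nonneg _
  le z := h.le _
  supp z hz := by
    have h1 := h.supp _ hz
    rw [mem_sites] at h1 ⊢
    obtain ⟨v, hv, h2, h3⟩ := h1
    refine ⟨v - a, ?_, ?_, ?_⟩
    · rw [H562.MAJ.mem_core] at hv ⊢
      simp only [Prod.fst_sub, Prod.snd_sub, Prod.fst_add, Prod.snd_add] at hv ⊢
      obtain ⟨k1, k2, k3, k4⟩ := hv
      refine ⟨by omega, by omega, ?_, by omega⟩
      linarith
    · simp only [Prod.fst_add, Prod.fst_sub] at h2 ⊢
      omega
    · simp only [Prod.snd_add, Prod.snd_sub] at h3 ⊢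
      omega
  sum := by
    rw [← h.sum]
    exact finsum_comp_equiv (Equiv.addRight a)

end Vale.Agent.P167.QB
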