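import Vale.Agent.P167.H562.Q.CB3
import Vale.Agent.P167.QM.Rel
import Vale.Agent.P167.BR.TwoArm
import Vale.Agent.P167.BR.Gdl

/-!
# P167, general `q`, block Q-BRIDGE: arms at a flat free side

`HArm b r R ω`: an open path of squares of the half box of radius `R` outside of the half box of radius
`r` from distance `r` to distance `R` of `b`. It follows from the failure of `Iso` and from a crossing by
a piece, and has probability at most `C (r / R) ^ α` for all domains with a flat free side near `b`, with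
a factor which does not depend on the squares of the half annulus.
-/

namespace Vale.Agent.P167.QB

open Finset Relation Vale.Agent.P167.FK Vale.Agent.P167.FKA
open Vale.Agent.P145.FB (PStep PConn)
open Vale.Agent.P167.BR (hbox mem_hbox Flt Iso Crs Vz fbx)
open Vale.Agent.P167.H562.QM (FltQ)
open Vale.Agent.P167.H632 (HX hp an)
open Vale.Agent.P167.H259 (f_markov f_fkg f_comp f_comp2)

variable {Q : ℝ} {b : ℤ × ℤ} {r R : ℤ} {ω ω' : Cfg}

/-- The open squares of the half annulus. -/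
def ha (b : ℤ × ℤ) (r R : ℤ) (ω : Cfg) : Set (ℤ × ℤ) :=
  {w | w ∈ hbox b R ∧ w ∉ hbox b r ∧ ω w = true}

/-- An open path of squares of the half annulus from distance `r` to distance `R` of `b`. -/
def HArm (b : ℤ × ℤ) (r R : ℤ) (ω : Cfg) : Prop :=
  ∃ u v : ℤ × ℤ, Even (u.1 + u.2) ∧ nm (u - b) ≤ r ∧ R ≤ nm (v - b) ∧
    ReflTransGen (PStep (ha b r R ω)) u v

theorem harm_congr (h : ∀ v ∈ hbox b R, v ∉ hbox b r → ω v = ω' v) :
    HArm b r R ω ↔ HArm b r R ω' := by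
  have e : ha b r R ω = ha b r R ω' := by
    ext v
    simp only [ha, Set.mem_ofPred_eq]
    constructor
    · rintro ⟨h1, h2, h3⟩
      exact ⟨h1, h2, by rw [← h v h1 h2]; exact h3⟩
    · rintro ⟨h1, h2, h3⟩
      exact ⟨h1, h2, by rw [h v h1 h2]; exact h3⟩
  unfold HArm
  rw [e]

theorem loc_harm (b : ℤ × ℤ) (r R : ℤ) :
    Loc (hbox b R \ hbox b r) ({ω | HArm b r R ω}.indicator 1) := by
  intro ω ω' h
  have h1 : HArm b r R ω ↔ HArm b r R ω' := harm_congr fun v hv hv' =>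
    h v (mem_sdiff.2 ⟨hv, hv'⟩)
  by_cases h2 : HArm b r R ω
  · rw [Set.indicator_of_mem (show ω ∈ {ω | HArm b r R ω} from h2),
      Set.indicator_of_mem (show ω' ∈ {ω | HArm b r R ω} from h1.1 h2)]
    rfl
  · rw [Set.indicator_of_notMem (show ω ∉ {ω | HArm b r R ω} from h2),
      Set.indicator_of_notMem (show ω' ∉ {ω | HArm b r R ω} from fun h3 => h2 (h1.2 h3))]

/-- The arm event does not depend on the squares of the small half box. -/
theorem ind_harm (b : ℤ × ℤ) (r R : ℤ) : Ind (hbox b r) ({ω | HArm b r R ω}.indicator 1) :=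
  Loc.ind (A := hbox b R \ hbox b r) sdiff_disjoint (loc_harm b r R)

theorem inc_harm (b : ℤ × ℤ) (r R : ℤ) : IncS {ω | HArm b r R ω} := by
  rintro ω ω' h ⟨u, v, h1, h2, h3, h4⟩
  exact ⟨u, v, h1, h2, h3, QM.rtg_mono' (F := ha b r R ω) (F' := ha b r R ω')
    (fun w hw => ⟨hw.1, hw.2.1, h w hw.2.2⟩) h4⟩

theorem arm_of_harm (hrR : r ≤ R) (h : HArm b r R ω) : ArmPx b r R ω := by
  obtain ⟨u, v, h1, h2, h3, h4⟩ := h
  rw [armPx_iff hrR]
  exact ⟨u, v, h1, h2, h3, QM.rtg_mono' (fun w hw => hw.2.2) h4⟩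

/-- The last visit to the small box. -/
theorem last {F : Set (ℤ × ℤ)} {c : ℤ × ℤ} {u v : ℤ × ℤ}
    (h : ReflTransGen (PStep F) u v) (hu : nm (u - c) ≤ r) :
    ∃ u', nm (u' - c) ≤ r ∧ ReflTransGen (PStep F) u u' ∧
      ReflTransGen (fun x y => PStep F x y ∧ r < nm (y - c)) u' v := by
  induction h with
  | refl => exact ⟨u, hu, ReflTransGen.refl, ReflTransGen.refl⟩
  | @tail x y hx hxy ih =>
    obtain ⟨u', h1, h2, h3⟩ := ih
    by_cases hy : r < nm (y - c)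
    · exact ⟨u', h1, h2, h3.tail ⟨hxy, hy⟩⟩
    · exact ⟨y, not_lt.1 hy, hx.tail hxy, ReflTransGen.refl⟩

/-- A path of open squares above the line from distance `r` to distance `R`. -/
theorem harm_of {F : Set (ℤ × ℤ)} (hF : ∀ v ∈ F, b.2 ≤ v.2 ∧ ω v = true) {u v : ℤ × ℤ}
    (hrR : r ≤ R) (he : Even (u.1 + u.2)) (hu : nm (u - b) ≤ r) (hv : R ≤ nm (v - b))
    (h : ReflTransGen (PStep F) u v) : HArm b r R ω := by
  obtain ⟨v', h1, h2⟩ := exit h (hu.trans hrR) hv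
  -- restrict to the large box
  have h3 : ReflTransGen (PStep {w | w ∈ hbox b R ∧ ω w = true}) u v' := by
    obtain ⟨h0, h2⟩ := h2
    have key : ReflTransGen (PStep {w | w ∈ hbox b R ∧ ω w = true}) u v' ∧ nm (v' - b) ≤ R := by
      clear h1
      induction h2 with
      | refl => exact ⟨ReflTransGen.refl, h0⟩
      | @tail x y _ hxy ih =>
        obtain ⟨⟨s1, s2, s3⟩, s4⟩ := hxy
        refine ⟨ih.1.tail ⟨s1, s2, ?_, (hF _ s3).2⟩, s4⟩
        have h5 := (hF _ s3).1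
        have h6 := step_mem (F := F) ⟨s1, s2, s3⟩ ih.2 s4
        simp only [Bq, Finset.mem_product, Finset.mem_Ico] at h6
        rw [mem_hbox]
        simp only at h5 h6 ⊢
        omega
    exact key.1
  obtain ⟨u', h4, h5, h6⟩ := last h3 hu
  refine ⟨u', v', even_of_rtg he h5, h4, h1.ge, ?_⟩
  clear h5
  have key : ∀ x y : ℤ × ℤ, (PStep {w | w ∈ hbox b R ∧ ω w = true} x y ∧ r < nm (y - b)) →
      PStep (ha b r R ω) x y := by
    rintro x y ⟨⟨s1, s2, s3, s4⟩, s5⟩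
    refine ⟨s1, s2, s3, fun s6 => ?_, s4⟩
    rw [mem_hbox] at s6
    rw [← not_le] at s5
    apply s5
    rw [nm_le_iff]
    simp only [Prod.fst_sub, Prod.snd_sub] at s6 ⊢
    omega
  exact ReflTransGen.mono key _ _ h6

theorem harm_of_hx {s t r' R' : ℤ} (h : ω ∈ HX true b s t) (h1 : s ≤ r') (h2 : r' ≤ R')
    (h3 : R' ≤ t) : HArm b r' R' ω := by
  obtain ⟨y, y', k1, k2, k3, k4⟩ := h
  have hy : Even (y.1 + y.2) := by
    rw [Int.even_iff, k1]
    rfl
  have k5 : ReflTransGen (PStep {v : ℤ × ℤ | b.2 ≤ v.2 ∧ ω v = true}) y y' := by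
    obtain ⟨h0, k4⟩ := k4
    have key : ReflTransGen (PStep {v : ℤ × ℤ | b.2 ≤ v.2 ∧ ω v = true}) y y' ∧ y' ∈ hp b := by
      clear k3
      induction k4 with
      | refl => exact ⟨ReflTransGen.refl, h0.1⟩
      | @tail x z _ hxy ih =>
        obtain ⟨⟨s1, s2, s3⟩, s4⟩ := hxy
        refine ⟨ih.1.tail ⟨s1, s2, ?_, s3⟩, s4.1⟩
        have h5 := ih.2
        have h6 := s4.1
        simp only [hp, Set.mem_ofPred_eq] at h5 h6
        simp only
        omega
    exact key.1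
  exact harm_of (F := {v : ℤ × ℤ | b.2 ≤ v.2 ∧ ω v = true}) (fun v hv => hv) h2 hy
    (by rw [show nm (y - b) = s from k2]; exact h1) (by rw [show nm (y' - b) = t from k3]; exact h3) k5

/-- **The failure of `Iso` implies an arm.** -/
theorem harm_of_not_iso {r' R' : ℤ} (hr : 0 ≤ r) (h1 : r + 2 ≤ r') (h2 : r' ≤ R')
    (h3 : R' + 2 ≤ R) (h : ¬ Iso b r R ω) : HArm b r' R' ω :=
  harm_of_hx (BR.hx_of_not_iso hr (by omega) h).1 h1 h2 (by omega)

/-- **A crossing by a piece implies an arm.** -/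
theorem harm_of_crs {D : Finset (ℤ × ℤ)} {r' R' : ℤ} (hF : Flt D b R) (hr : 0 ≤ r)
    (h1 : r + 2 ≤ r') (h2 : r' ≤ R') (h3 : R' + 2 ≤ R) (h : Crs D b r R ω) : HArm b r' R' ω := by
  obtain ⟨A, hA, ⟨e, heA, he⟩, e', he'A, he'⟩ := h
  obtain ⟨k, hk⟩ := BR.run_of_mem hA heA he'A
  exact harm_of_hx (BR.hx_of_run hF hr (by omega) hk he he').1 h1 h2 (by omega)

theorem hbox_sub_Bq : hbox b R ⊆ Bq b R := by
  intro v hv
  rw [mem_hbox] at hv
  simp only [Bq, Finset.mem_product, Finset.mem_Ico]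
  omega

theorem nm_of_Bq {v : ℤ × ℤ} (hv : v ∈ Bq b R) : nm (v - b) ≤ R := by
  simp only [Bq, Finset.mem_product, Finset.mem_Ico] at hv
  rw [nm_le_iff]
  simp only [Prod.fst_sub, Prod.snd_sub]
  omega

theorem mem_hbox_iff {v : ℤ × ℤ} : v ∈ hbox b R ↔ v ∈ Bq b R ∧ b.2 ≤ v.2 := by
  rw [mem_hbox]
  simp only [Bq, Finset.mem_product, Finset.mem_Ico]
  omega

theorem fltQ_sub {D : Finset (ℤ × ℤ)} {η : Cfg} {pl pr : Bool} (h : FltQ D η b R pl pr) :
    hbox b R ⊆ D := by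
  intro v hv
  exact (h.dom v (nm_of_Bq (hbox_sub_Bq hv))).2 (mem_hbox.1 hv).2.2.1

/-- **Arms at a flat free side.** -/
theorem arm_flat (hQ : 1 ≤ Q) (hR : RSW Q) : ∃ α C : ℝ, 0 < α ∧ 0 < C ∧
    ∀ (D : Finset (ℤ × ℤ)) (η : Cfg) (b : ℤ × ℤ) (r R : ℤ) (G : Cfg → ℝ), 1 ≤ r → r ≤ R →
      FltQ D η b R false false → Good η → (∀ ω, 0 ≤ G ω) → Ind (hbox b R \ hbox b r) G →
      Ex Q D η (fun ω => G ω * {ω | HArm b r R ω}.indicator 1 ω) ≤
        C * ((r : ℝ) / R) ^ α * Ex Q D η G := by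
  have hQ0 : 0 < Q := by linarith
  obtain ⟨α, C, hα, hC, hdec, -⟩ := arm_fk hQ hR
  refine ⟨α, C, hα, hC, fun D η b r R G hr hrR hF hη hG0 hG => ?_⟩
  set U := hbox b R \ hbox b r with hU
  have hUD : U ⊆ D := sdiff_subset.trans (fltQ_sub hF)
  rw [FKA.markov f_markov hQ0 hUD hη hG, ← Ex_mul_left]
  refine Ex_mono hQ0 fun S hS => ?_
  set ζ := cf D η S with hζ
  have hζg : Good ζ := f_good.1 D η S hη
  rw [mul_comm]
  refine mul_le_mul_of_nonneg_right ?_ (hG0 _)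
  have h1 : Ex Q U ζ ({ω | HArm b r R ω}.indicator 1) ≤
      Ex Q (Bq b R \ Bq b r) eta1 ({ω | HArm b r R ω}.indicator 1) := by
    refine QM.Ex_up hQ ?_ (inc_harm b r R).incF hζg f_good.2.2 fun v hv hvt => ⟨fun hv' => ?_, rfl⟩
    · intro v hv
      rw [hU, mem_sdiff, mem_hbox_iff, mem_hbox_iff] at hv
      rw [mem_sdiff]
      exact ⟨hv.1.1, fun h => hv.2 ⟨h, hv.1.2⟩⟩
    · rw [mem_sdiff] at hv'
      rw [hU, mem_sdiff, mem_hbox_iff, mem_hbox_iff] at hv
      have h2 : ¬ b.2 ≤ v.2 := fun h => hv ⟨⟨hv'.1, h⟩, fun h' => hv'.2 h'.1⟩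
      have h3 := nm_of_Bq hv'.1
      have h4 : v ∉ D := fun h => h2 ((hF.dom v h3).1 h)
      have h5 := hF.out v h3 (by omega)
      rw [hζ, cf_out h4, h5] at hvt
      split_ifs at hvt
  refine h1.trans ?_
  have h2 : Ex Q (Bq b R \ Bq b r) eta1 ({ω | HArm b r R ω}.indicator 1) ≤
      Ex Q (Bq b R \ Bq b r) eta1 (fun ω => (fun _ => (1 : ℝ)) ω *
        {ω | ArmPx b r R ω}.indicator 1 ω) := by
    refine Ex_mono hQ0 fun S _ => ?_
    rw [one_mul]
    exact Set.indicator_le_indicator_of_subset (fun ω h => arm_of_harm hrR h)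
      (fun _ => zero_le_one) _
  refine h2.trans ?_
  have h3 := hdec b r R (Bq b R \ Bq b r) eta1 (fun _ => 1) hr hrR f_good.2.2
    (Finset.Subset.refl _) (fun _ => zero_le_one) (fun _ _ _ => rfl)
  rw [Ex_const hQ0, mul_one] at h3
  exact h3

end Vale.Agent.P167.QB
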