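import Vale.Agent.P167.QX.Stag
import Vale.Agent.P167.H718.Dob
import Vale.Agent.P167.BR.Split

/-!
# P167, general `q`, block Q-BRIDGE: the strands around a boundary site

`Ard q w A`: the strand `A` surrounds the boundary site number `w` (with respect to the base `q 0`).
`sg q A = 1` if the strand enters at its lower side, `- 1` otherwise. `sum_alt`: the sum of the signs of all
strands around a boundary site is `sgm q w`, which is `0` or `± 1`, for every configuration. `sum_one`,
`sum_two`: the strands which surround exactly one of two boundary sites. `non_cross`: two strands do not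
cross.
-/

namespace Vale.Agent.P167.QB

open Finset Relation Vale.Agent.P167.BR
open Vale.Agent.P167.E6 (IsPolygon Encloses)
open Vale.Agent.P167.H718 (IsXY lft pot_lft side_const par_succ)
open Vale.Agent.P167.QX (lo hi exists_xy lo_xy hi_xy)

variable {D : Finset (ℤ × ℤ)} {ω : Cfg} {n : ℕ} {q : ZMod n → ℤ × ℤ} {A B : Finset Ed} {x y w : ℕ}

/-- The strand `A` surrounds the boundary site number `w`. -/
def Ard (q : ZMod n → ℤ × ℤ) (w : ℕ) (A : Finset Ed) : Prop := lo q A < w ∧ w ≤ hi q A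

open Classical in
/-- The sign of the side `j`: `1` for the entering sides. -/
noncomputable def ep (q : ZMod n → ℤ × ℤ) (j : ℕ) : ℤ :=
  if Even ((q j).1 + (q j).2) then 1 else -1

/-- The sign of a strand. -/
noncomputable def sg (q : ZMod n → ℤ × ℤ) (A : Finset Ed) : ℤ := ep q (lo q A)

/-- The sum of the signs of the first sides. -/
noncomputable def sgm (q : ZMod n → ℤ × ℤ) (w : ℕ) : ℤ := ∑ j ∈ range w, ep q j

/-! ### signs of the sides -/

theorem ep_succ (hq : IsPolygon q) (j : ℕ) : ep q (j + 1) = - ep q j := by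
  have h := par_succ hq (j : ZMod n)
  unfold ep
  push_cast
  by_cases h1 : Even ((q (j : ZMod n)).1 + (q (j : ZMod n)).2)
  · rw [if_pos h1, if_neg (fun h2 => (h.1 h2) h1)]
  · rw [if_neg h1, if_pos (h.2 h1)]
    norm_num

theorem ep_cases (j : ℕ) : ep q j = 1 ∨ ep q j = -1 := by
  unfold ep
  split_ifs
  · exact Or.inl rfl
  · exact Or.inr rfl

theorem sgm_succ (j : ℕ) : sgm q (j + 1) = sgm q j + ep q j := sum_range_succ _ _

/-- `sgm q j` is `0` or the sign of the side `0`, the sum with the next sign is `0` or that sign. -/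
theorem sgm_cases (hq : IsPolygon q) (j : ℕ) : (sgm q j = 0 ∧ ep q j = ep q 0) ∨
    (sgm q j = ep q 0 ∧ ep q j = - ep q 0) := by
  induction j with
  | zero => left; simp [sgm]
  | succ j ih =>
    rw [sgm_succ, ep_succ hq]
    rcases ih with ⟨h1, h2⟩ | ⟨h1, h2⟩
    · right; rw [h1, h2]; simp
    · left; rw [h1, h2]; simp

theorem sgm_bd (hq : IsPolygon q) (j : ℕ) : |sgm q j| ≤ 1 := by
  rcases ep_cases (q := q) 0 with h | h <;> rcases sgm_cases hq j with ⟨h1, -⟩ | ⟨h1, -⟩ <;>
    rw [h1] <;> simp [h]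

theorem sgm_sub_bd (hq : IsPolygon q) (i j : ℕ) : |sgm q i - sgm q j| ≤ 1 := by
  rcases ep_cases (q := q) 0 with h | h <;> rcases sgm_cases hq i with ⟨h1, -⟩ | ⟨h1, -⟩ <;>
    rcases sgm_cases hq j with ⟨h2, -⟩ | ⟨h2, -⟩ <;> rw [h1, h2] <;> simp [h]

/-! ### strands -/

section

variable (hq : IsPolygon q) (hD : Encloses q D)
include hq hD

/-- Loops cross no side. -/
theorem lp_side (hA : A ∈ pcs ω D) (hl : IsLp D A) (j : ℕ) : be q j ∉ A := by
  intro h
  rcases be_bd hq hD (j : ZMod n) with ⟨-, h1⟩ | ⟨-, h1⟩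
  · exact h1 (hl.tl hA h)
  · exact h1 (hl _ h)

theorem lo_lp (hA : A ∈ pcs ω D) (hl : IsLp D A) : lo q A = 0 ∧ hi q A = 0 := by
  have h : {k | k < n ∧ be q (k : ZMod n) ∈ A} = ∅ := by
    ext k
    simp only [Set.mem_ofPred_eq, Set.mem_empty_iff_false, iff_false, not_and]
    exact fun _ => lp_side hq hD hA hl k
  unfold lo hi
  rw [h]
  simp

theorem ard_lp (hA : A ∈ pcs ω D) (hl : IsLp D A) : ¬ Ard q w A := by
  obtain ⟨h1, h2⟩ := lo_lp hq hD hA hl
  unfold Ard
  omega

/-- The sign of a strand. -/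
theorem sg_xy (hA : A ∈ pcs ω D) (h : IsXY q A x y) : sg q A = if x < y then 1 else -1 := by
  unfold sg
  rw [lo_xy hq hD hA h]
  have hxy := h.ne
  obtain ⟨-, -, -, -, h3, h4⟩ := h
  unfold ep
  rcases lt_or_gt_of_ne hxy with h1 | h1
  · rw [if_pos h1, min_eq_left h1.le, if_pos h3]
  · rw [min_eq_right h1.le, if_neg h4, if_neg (by omega)]

theorem ard_xy (hA : A ∈ pcs ω D) (h : IsXY q A x y) :
    Ard q w A ↔ min x y < w ∧ w ≤ max x y := by
  unfold Ard
  rw [lo_xy hq hD hA h, hi_xy hq hD hA h]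

/-- A piece separates a boundary site from the base if and only if it surrounds it. -/
theorem sep_ard (hA : A ∈ pcs ω D) (hw : w ≤ n) : Sep D A (q w) (q 0) ↔ Ard q w A := by
  by_cases hl : IsLp D A
  · refine iff_of_false ?_ (ard_lp hq hD hA hl)
    rintro ⟨u, hu, h⟩
    exact h (lp_bd hq hD hA hu hl w)
  · obtain ⟨x, y, h⟩ := exists_xy hq hD hA hl
    rw [ard_xy hq hD hA h]
    have hne := h.ne
    have key : ∀ u, PotD D A u → (u (q w) ≠ u (q 0) ↔ min x y < w ∧ w ≤ max x y) := by
      intro u hu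
      have h1 := pot_lft hq hD hA hu h hw
      have h2 := pot_lft hq hD hA hu h (Nat.zero_le n)
      rw [Nat.cast_zero] at h2
      rw [h1, h2]
      have e1 : lft x y w ↔ (x < y ∧ (w ≤ x ∨ y < w)) ∨ (y < x ∧ y < w ∧ w ≤ x) := Iff.rfl
      have e2 : lft x y 0 ↔ (x < y ∧ (0 ≤ x ∨ y < 0)) ∨ (y < x ∧ y < 0 ∧ 0 ≤ x) := Iff.rfl
      by_cases a1 : lft x y w <;> by_cases a2 : lft x y 0 <;> simp only [a1, a2, if_true, if_false] <;>
        rw [e1] at a1 <;> rw [e2] at a2 <;> omega
    constructor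
    · rintro ⟨u, hu, h1⟩
      exact (key u hu).1 h1
    · intro h1
      obtain ⟨u, hu⟩ := exists_pot hq hD hA
      exact ⟨u, hu, (key u hu).2 h1⟩

omit hq hD in
theorem nc_arith {x1 y1 x2 y2 : ℕ} (hn1 : x1 ≠ y1) (hn2 : x2 ≠ y2) (a1 : x1 ≠ x2) (a2 : y1 ≠ y2)
    (a3 : x1 ≠ y2) (a4 : x2 ≠ y1) (h : lft x1 y1 x2 ↔ lft x1 y1 y2) :
    (min x1 y1 < min x2 y2 ∧ min x2 y2 < max x1 y1 ↔
      min x1 y1 < max x2 y2 ∧ max x2 y2 < max x1 y1) ∧
      min x1 y1 ≠ min x2 y2 ∧ min x1 y1 ≠ max x2 y2 ∧ max x1 y1 ≠ min x2 y2 ∧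
      max x1 y1 ≠ max x2 y2 ∧ min x2 y2 < max x2 y2 := by
  unfold lft at h
  rcases lt_or_gt_of_ne hn1 with b1 | b1 <;> rcases lt_or_gt_of_ne hn2 with b2 | b2
  · rw [min_eq_left b1.le, max_eq_right b1.le, min_eq_left b2.le, max_eq_right b2.le]
    refine ⟨?_, by omega, by omega, by omega, by omega, by omega⟩
    constructor <;> intro h5 <;> by_contra h6 <;> omega
  · rw [min_eq_left b1.le, max_eq_right b1.le, min_eq_right b2.le, max_eq_left b2.le]
    refine ⟨?_, by omega, by omega, by omega, by omega, by omega⟩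
    constructor <;> intro h5 <;> by_contra h6 <;> omega
  · rw [min_eq_right b1.le, max_eq_left b1.le, min_eq_left b2.le, max_eq_right b2.le]
    refine ⟨?_, by omega, by omega, by omega, by omega, by omega⟩
    constructor <;> intro h5 <;> by_contra h6 <;> omega
  · rw [min_eq_right b1.le, max_eq_left b1.le, min_eq_right b2.le, max_eq_left b2.le]
    refine ⟨?_, by omega, by omega, by omega, by omega, by omega⟩
    constructor <;> intro h5 <;> by_contra h6 <;> omega

/-- **Two strands do not cross.** -/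
theorem non_cross (hA : A ∈ pcs ω D) (hB : B ∈ pcs ω D) (hAl : ¬ IsLp D A) (hBl : ¬ IsLp D B)
    (hAB : A ≠ B) : (lo q A < lo q B ∧ lo q B < hi q A ↔ lo q A < hi q B ∧ hi q B < hi q A) ∧
      lo q A ≠ lo q B ∧ lo q A ≠ hi q B ∧ hi q A ≠ lo q B ∧ hi q A ≠ hi q B ∧
      lo q B < hi q B := by
  obtain ⟨x1, y1, h1⟩ := exists_xy hq hD hA hAl
  obtain ⟨x2, y2, h2⟩ := exists_xy hq hD hB hBl
  obtain ⟨u, hu⟩ := exists_pot hq hD hA
  have hn1 := h1.ne
  have hn2 := h2.ne
  have hdis : ∀ e, e ∈ A → e ∈ B → False := fun e he he' => hAB (eq_of_mem_pcs hA hB he he')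
  have a1 : x1 ≠ x2 := by rintro rfl; exact hdis _ h1.2.2.1 h2.2.2.1
  have a2 : y1 ≠ y2 := by rintro rfl; exact hdis _ h1.2.2.2.1 h2.2.2.2.1
  have a3 : x1 ≠ y2 := by rintro rfl; exact hdis _ h1.2.2.1 h2.2.2.2.1
  have a4 : x2 ≠ y1 := by rintro rfl; exact hdis _ h1.2.2.2.1 h2.2.2.1
  have e1 := (side_const hA hu hB h2.2.2.1 h2.2.2.2.1).1
  have e2 : u (ls (be q x2)) = u (rs (be q x2)) :=
    hu.eq (subset_eds hB h2.2.2.1) fun h => hdis _ h h2.2.2.1
  have e3 : u (ls (be q y2)) = u (rs (be q y2)) :=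
    hu.eq (subset_eds hB h2.2.2.2.1) fun h => hdis _ h h2.2.2.2.1
  have e4 : ls (be q x2) = q x2 := (be_even hq hD h2.2.2.2.2.1).1
  have e5 : rs (be q y2) = q y2 := (be_odd hq hD h2.2.2.2.2.2).1
  have p1 := pot_lft hq hD hA hu h1 h2.1.le
  have p2 := pot_lft hq hD hA hu h1 h2.2.1.le
  have e6 : u (q x2) = u (q y2) := by rw [← e4, ← e1, e3, e5]
  rw [p1, p2] at e6
  rw [lo_xy hq hD hA h1, lo_xy hq hD hB h2, hi_xy hq hD hA h1, hi_xy hq hD hB h2]
  refine nc_arith hn1 hn2 a1 a2 a3 a4 ?_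
  by_cases b1 : lft x1 y1 x2 <;> by_cases b2 : lft x1 y1 y2
  · exact iff_of_true b1 b2
  · rw [if_pos b1, if_neg b2] at e6; omega
  · rw [if_neg b1, if_pos b2] at e6; omega
  · exact iff_of_false b1 b2

/-! ### the sums of the signs -/

open Classical in
/-- The contribution of one piece. -/
theorem piece_alt (hA : A ∈ pcs ω D) (hw : w ≤ n) :
    ∑ j ∈ range w, (if be q (j : ZMod n) ∈ A then ep q j else 0) =
      if Ard q w A then sg q A else 0 := by
  by_cases hl : IsLp D A
  · rw [if_neg (ard_lp hq hD hA hl)]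
    exact sum_eq_zero fun j _ => if_neg (lp_side hq hD hA hl j)
  · obtain ⟨x, y, h⟩ := exists_xy hq hD hA hl
    have hne := h.ne
    have h1 : ∀ j ∈ range w, (if be q (j : ZMod n) ∈ A then ep q j else 0) =
        (if j = x then 1 else 0) - (if j = y then 1 else 0) := by
      intro j hj
      rw [mem_range] at hj
      have h2 := h.iff hq hD hA (z := j) (by omega)
      obtain ⟨-, -, -, -, h3, h4⟩ := h
      by_cases hx : j = x
      · subst hx
        rw [if_pos (h2.2 (Or.inl rfl)), if_pos rfl, if_neg hne, ep, if_pos h3]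
        norm_num
      · by_cases hy : j = y
        · subst hy
          rw [if_pos (h2.2 (Or.inr rfl)), if_neg hx, if_pos rfl, ep, if_neg h4]
          norm_num
        · rw [if_neg (fun h5 => (h2.1 h5).elim hx hy), if_neg hx, if_neg hy]
          norm_num
    rw [sum_congr rfl h1, sum_sub_distrib, sum_ite_eq', sum_ite_eq']
    have h5 := ard_xy hq hD hA h (w := w)
    have h6 := sg_xy hq hD hA h
    simp only [mem_range]
    by_cases ha : Ard q w A
    · rw [if_pos ha, h6]
      rw [h5] at ha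
      by_cases h7 : x < y
      · rw [if_pos h7, if_pos (by omega), if_neg (by omega)]
        norm_num
      · rw [if_neg h7, if_neg (by omega), if_pos (by omega)]
        norm_num
    · rw [if_neg ha]
      rw [h5] at ha
      by_cases h7 : x < w
      · rw [if_pos h7, if_pos (by omega)]
        norm_num
      · rw [if_neg h7, if_neg (by omega)]
        norm_num

open Classical in
/-- **The sum of the signs of the strands around a boundary site.** -/
theorem sum_alt (ω : Cfg) (hw : w ≤ n) :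
    ∑ A ∈ (pcs ω D).filter (Ard q w), sg q A = sgm q w := by
  rw [sum_filter, ← sum_congr rfl fun A hA => piece_alt hq hD (ω := ω) hA hw, sum_comm, sgm]
  refine sum_congr rfl fun j hj => ?_
  have h1 := be_mem hq hD (j : ZMod n)
  rw [sum_eq_single (piece ω D (be q (j : ZMod n)))]
  · rw [if_pos (self_mem_piece h1)]
  · intro B hB hne
    rw [if_neg]
    intro h2
    exact hne (eq_piece_of_mem hB h2)
  · intro h2
    exact absurd (piece_mem_pcs h1) h2

open Classical in
/-- The strands which surround the first one of two boundary sites only. -/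
theorem sum_one (ω : Cfg) {w' : ℕ} (hww : w ≤ w') (hw : w' ≤ n) :
    ∃ a ≤ n, ∑ A ∈ (pcs ω D).filter (fun A => Ard q w A ∧ ¬ Ard q w' A), sg q A =
      sgm q w - sgm q a := by
  rcases ((pcs ω D).filter (fun A => Ard q w A ∧ ¬ Ard q w' A)).eq_empty_or_nonempty with h0 | h0
  · exact ⟨w, by omega, by rw [h0, sum_empty, sub_self]⟩
  obtain ⟨A0, hA0, hmin⟩ := exists_min_image _ (fun A => lo q A) h0
  rw [mem_filter] at hA0
  obtain ⟨hA0, ha, hb⟩ := hA0
  have hl0 : ¬ IsLp D A0 := fun h => ard_lp hq hD hA0 h ha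
  have hlo : lo q A0 < n := by
    obtain ⟨x, y, h⟩ := exists_xy hq hD hA0 hl0
    rw [lo_xy hq hD hA0 h]
    have := h.1
    omega
  refine ⟨lo q A0, by omega, ?_⟩
  rw [← sum_alt hq hD ω (w := w) (by omega), ← sum_alt hq hD ω (w := lo q A0) (by omega)]
  have hsp : (pcs ω D).filter (Ard q w) =
      (pcs ω D).filter (fun A => Ard q w A ∧ ¬ Ard q w' A) ∪
        (pcs ω D).filter (Ard q (lo q A0)) := by
    ext B
    simp only [mem_filter, mem_union]
    constructor
    · rintro ⟨hB, h1⟩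
      by_cases h2 : Ard q w' B
      · right
        refine ⟨hB, ?_⟩
        have hne : A0 ≠ B := by rintro rfl; exact hb h2
        have hBl : ¬ IsLp D B := fun h => ard_lp hq hD hB h h1
        obtain ⟨h3, h4, h5, h6, h7, h8⟩ := non_cross hq hD hA0 hB hl0 hBl hne
        unfold Ard at *
        omega
      · exact Or.inl ⟨hB, h1, h2⟩
    · rintro (⟨hB, h1, -⟩ | ⟨hB, h1⟩)
      · exact ⟨hB, h1⟩
      · refine ⟨hB, ?_⟩
        have hne : A0 ≠ B := by
          rintro rfl
          exact absurd h1.1 (lt_irrefl _)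
        have hBl : ¬ IsLp D B := fun h => ard_lp hq hD hB h h1
        obtain ⟨h3, h4, h5, h6, h7, h8⟩ := non_cross hq hD hA0 hB hl0 hBl hne
        unfold Ard at *
        omega
  have hdis : Disjoint ((pcs ω D).filter (fun A => Ard q w A ∧ ¬ Ard q w' A))
      ((pcs ω D).filter (Ard q (lo q A0))) := by
    rw [disjoint_left]
    intro B hB hB'
    have h1 := hmin B hB
    rw [mem_filter] at hB'
    have := hB'.2.1
    omega
  rw [hsp, sum_union hdis]
  ring

open Classical in
/-- The strands which surround the second one of two boundary sites only. -/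
theorem sum_two (ω : Cfg) {w' : ℕ} (_hww : w ≤ w') (hw : w' ≤ n) :
    ∃ a ≤ n, ∑ A ∈ (pcs ω D).filter (fun A => Ard q w' A ∧ ¬ Ard q w A), sg q A =
      sgm q w' - sgm q a := by
  rcases ((pcs ω D).filter (fun A => Ard q w' A ∧ ¬ Ard q w A)).eq_empty_or_nonempty with h0 | h0
  · exact ⟨w', by omega, by rw [h0, sum_empty, sub_self]⟩
  obtain ⟨A0, hA0, hmin⟩ := exists_min_image _ (fun A => lo q A) h0
  rw [mem_filter] at hA0
  obtain ⟨hA0, ha, hb⟩ := hA0
  have hl0 : ¬ IsLp D A0 := fun h => ard_lp hq hD hA0 h ha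
  have hlo : lo q A0 < n := by
    obtain ⟨x, y, h⟩ := exists_xy hq hD hA0 hl0
    rw [lo_xy hq hD hA0 h]
    have := h.1
    omega
  refine ⟨lo q A0, by omega, ?_⟩
  rw [← sum_alt hq hD ω (w := w') (by omega), ← sum_alt hq hD ω (w := lo q A0) (by omega)]
  have hsp : (pcs ω D).filter (Ard q w') =
      (pcs ω D).filter (fun A => Ard q w' A ∧ ¬ Ard q w A) ∪
        (pcs ω D).filter (Ard q (lo q A0)) := by
    ext B
    simp only [mem_filter, mem_union]
    constructor
    · rintro ⟨hB, h1⟩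
      by_cases h2 : Ard q w B
      · right
        refine ⟨hB, ?_⟩
        have hne : A0 ≠ B := by rintro rfl; exact hb h2
        have hBl : ¬ IsLp D B := fun h => ard_lp hq hD hB h h1
        obtain ⟨h3, h4, h5, h6, h7, h8⟩ := non_cross hq hD hA0 hB hl0 hBl hne
        unfold Ard at *
        omega
      · exact Or.inl ⟨hB, h1, h2⟩
    · rintro (⟨hB, h1, -⟩ | ⟨hB, h1⟩)
      · exact ⟨hB, h1⟩
      · refine ⟨hB, ?_⟩
        have hne : A0 ≠ B := by
          rintro rfl
          exact absurd h1.1 (lt_irrefl _)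
        have hBl : ¬ IsLp D B := fun h => ard_lp hq hD hB h h1
        obtain ⟨h3, h4, h5, h6, h7, h8⟩ := non_cross hq hD hA0 hB hl0 hBl hne
        unfold Ard at *
        omega
  have hdis : Disjoint ((pcs ω D).filter (fun A => Ard q w' A ∧ ¬ Ard q w A))
      ((pcs ω D).filter (Ard q (lo q A0))) := by
    rw [disjoint_left]
    intro B hB hB'
    have h1 := hmin B hB
    rw [mem_filter] at hB'
    have := hB'.2.1
    omega
  rw [hsp, sum_union hdis]
  ring

end

end Vale.Agent.P167.QB
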