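import Vale.Agent.P167.QB.Brc

/-!
# P167, general `q`, block Q-BRIDGE: absolute moments

`brB`: all moments of the functional with the bump `fd` at `q m` and the point charge `- θ` at `q l`, with a
factor which does not read the half box of radius `2 rd`.
-/

namespace Vale.Agent.P167.QB

open Finset Filter Topology MeasureTheory Vale.Agent.P167.BR Vale.Agent.P167.FK
open Vale.Agent.P167.E6 (IsPolygon Encloses)
open Vale.Agent.P167.FKA (Loc Ind ArmDec)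
open Vale.Agent.P167.H519 (IsLim)
open Vale.Agent.P167.H166 (bxx mem_bxx)
open Vale.Agent.P167.H562.SML
open Vale.Agent.P167.H562.MAJ (bigs Sm Sm_loc core Sc mem_core)
open Vale.Agent.P167.H562.QM

variable {Q : ℝ} {P : Measure Cfg} {D : Finset (ℤ × ℤ)} {η ω : Cfg} {b : ℤ × ℤ} {r R : ℤ} {K θ : ℝ}
  {f g : ℤ × ℤ → ℝ} {σ : ℤ}

/-- The boundary sites are sites of the domain. -/
theorem poly_site {n : ℕ} {q : ZMod n → ℤ × ℤ} (hq : IsPolygon q) (hD : Encloses q D) (i : ZMod n) :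
    q i ∈ sites D := by
  have h1 := be_mem hq hD i
  rcases be_sides hq i with h | h
  · rw [← h.1]; exact ls_mem_sites h1
  · rw [← h.1]; exact rs_mem_sites h1

/-- **Moments with a factor.** -/
theorem brB (hθ0 : 0 < θ) (hθ1 : θ ≤ Real.pi / 3) (hR0 : RSW (2 * Real.cos θ))
    (hP : IsLim (2 * Real.cos θ) P) (hK : 1 ≤ K) (p : ℕ) :
    ∃ (r0 C : ℝ), 1 ≤ r0 ∧ 0 < C ∧
    ∀ (n : ℕ) (q : ZMod n → ℤ × ℤ) (D : Finset (ℤ × ℤ)), IsPolygon q → Encloses q D →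
    ∀ (η : Cfg) (pl pr : Bool) (k l m : ℕ) (rd : ℤ) (fd : ℤ × ℤ → ℝ),
      Good η → m < l → l < k → k ≤ n → r0 ≤ rd → FltQ D η (q m) (2 * rd) pl pr →
      q 0 ∉ sites (hbox (q m) (2 * rd)) → Bq' θ K (q m) rd fd →
      ∀ G : Cfg → ℝ, (∀ ω, 0 ≤ G ω) → Ind (hbox (q m) (2 * rd)) G →
      Ex (2 * Real.cos θ) D η (fun ω => G ω * |XG θ q D k (fun z => fd z - dlt (q l) θ z) ω| ^ p) ≤
        C / Nf θ K P rd ^ p * Ex (2 * Real.cos θ) D η G := by
  classical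
  have hQ := two_cos hθ0 hθ1
  have hQ0 : 0 < 2 * Real.cos θ := by linarith
  obtain ⟨t0, t2⟩ := H562.QM.tan_bd hθ0 hθ1
  have hM2 := two_le_MW hθ0 hθ1
  have hM3 : (1 : ℝ) ≤ MW θ ^ 3 := one_le_pow₀ (by linarith)
  obtain ⟨C1, r1, hC1, hr1, h1⟩ := yb_mom hQ hR0 hP hK (MW θ ^ 3) p hM3 (Nat.cast_nonneg p)
  refine ⟨r1, (MW θ ^ 2) ^ p * C1, hr1, by positivity,
    fun n q D hq hD η pl pr k l m rd fd hη hml hlk hkn hrd hFd h0d hfd G hG0 hG => ?_⟩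
  obtain ⟨hSd, h1d⟩ := h1 rd hrd
  obtain ⟨Nd, hNd1, hNd2, hNd3⟩ := h1d (q m)
  have h3 := hNd3 D η pl pr hη hFd fd hfd.abs_le hfd.supp G hG0 hG (Real.tan θ) p t0 t2
    (Nat.cast_nonneg p) le_rfl
  simp only [Real.rpow_natCast] at h3
  rw [hfd.sum] at h3
  have h4 : Real.exp (-(p * Real.tan θ * θ * NbP P (dq K rd))) = 1 / Nf θ K P rd ^ p := by
    unfold Nf
    rw [← Real.exp_nat_mul, Real.exp_neg, one_div]
    congr 2
    ring
  rw [h4] at h3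
  have h5 : Ex (2 * Real.cos θ) D η
      (fun ω => G ω * |XG θ q D k (fun z => fd z - dlt (q l) θ z) ω| ^ p) ≤
      Ex (2 * Real.cos θ) D η (fun ω => (MW θ ^ 2) ^ p *
        (G ω * YQ (MW θ ^ 3) (Real.tan θ) Nd fd (dq K rd) ω ^ p)) := by
    refine FKA.Ex_mono hQ0 fun S _ => ?_
    set w := cf D η S
    have h6 := maj2 hq hD hθ0 hθ1 hml hlk hkn hSd (flt_of hFd) (poly_site hq hD _) h0d
      hfd.abs_le hfd.supp hfd.sum w (hNd2 w D)
    have h7 : |XG θ q D k (fun z => fd z - dlt (q l) θ z) w| ^ p ≤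
        (MW θ ^ 2 * YQ (MW θ ^ 3) (Real.tan θ) Nd fd (dq K rd) w) ^ p :=
      pow_le_pow_left₀ (abs_nonneg _) h6 p
    rw [mul_pow] at h7
    calc _ ≤ G w * ((MW θ ^ 2) ^ p * YQ (MW θ ^ 3) (Real.tan θ) Nd fd (dq K rd) w ^ p) :=
          mul_le_mul_of_nonneg_left h7 (hG0 w)
      _ = _ := by ring
  rw [FKA.Ex_mul_left] at h5
  refine h5.trans ((mul_le_mul_of_nonneg_left h3 (by positivity)).trans (le_of_eq ?_))
  ring

end Vale.Agent.P167.QB
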