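import Vale.Agent.P167.QB.Sg6
import Vale.Agent.P167.H640.Pev

/-!
# P167, general `q`, block BRQ, negative part (7): `S_sgn` from `S_har` and `S_glu`
-/

namespace Vale.Agent.P167.QB.Sg

open MeasureTheory Vale.Agent.P167 Vale.Agent.P167.FK
open Vale.Agent.P167.H519 (IsLim)
open Vale.Agent.P167.H192.Q (SRSW)

/-- **(SGN).** -/
theorem s_sgn {θ : ℝ} {P : Measure Cfg} (h0 : 0 < θ) (h1 : θ ≤ Real.pi / 3)
    (hR : RSW (2 * Real.cos θ)) (hS : SRSW (2 * Real.cos θ)) (hP : IsLim (2 * Real.cos θ) P)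
    (hH : S_har θ) (hG : S_glu θ) : S_sgn θ P :=
  sgn_of_pev h0 h1 hR hP (H640.Pev.s_pev h0 h1 hR hS hH hG)

end Vale.Agent.P167.QB.Sg
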