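import Vale.Agent.P167.QB.Uns
import Vale.Agent.P167.QB.Sg7
import Vale.Agent.P167.H542.Q.Glu
import Vale.Agent.P167.H208.SH.PS0

/-!
# P167, general `q`, block BRQ: `S_brf` (1): the two-ring bump as one bump
-/

namespace Vale.Agent.P167.QB.Brf

open Finset Relation MeasureTheory Vale.Agent.P167 Vale.Agent.P167.BR Vale.Agent.P167.FK
open Vale.Agent.P167.QB
open Vale.Agent.P167.H436.ND (Bp Kr kp Ft Ex0)
open Vale.Agent.P167.H562.MAJ (core Sc mem_core)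
open Vale.Agent.P167.H562.QM (NbP)
open Vale.Agent.P167.H519 (IsLim)

variable {θ K K' Cm : ℝ} {b : ℤ × ℤ} {r : ℤ} {g : ℤ × ℤ → ℝ} {a : Fin 2 → ℤ}
  {f : Fin 2 → ℤ × ℤ → ℝ} {P : Measure Cfg}

/-- The classes of bumps increase with `K`. -/
theorem mono_K (hK : 0 < K) (h : K ≤ K') (hr : 1 ≤ r) (hf : Bq' θ K b r g) :
    Bq' θ K' b r g := by
  have hr0 : (0 : ℝ) ≤ r := by exact_mod_cast (by omega : 0 ≤ r)
  refine ⟨hf.nonneg, fun z => (hf.le z).trans (div_le_div_of_nonneg_right h (by positivity)),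
    fun z hz => sites_mono ?_ (hf.supp z hz), hf.sum⟩
  intro v hv
  rw [mem_core] at hv ⊢
  have h1 : ⌈(r : ℝ) / K'⌉ ≤ ⌈(r : ℝ) / K⌉ :=
    Int.ceil_le_ceil (div_le_div_of_nonneg_left hr0 hK h)
  omega

/-- The bump. -/
noncomputable def F2 (θ : ℝ) (f : Fin 2 → ℤ × ℤ → ℝ) (z : ℤ × ℤ) : ℝ := θ / 2 * f 0 z + θ / 2 * f 1 z

/-- The class of the two-ring bump. -/
noncomputable def Kb (K₂ : ℤ) : ℝ := 20000 * (K₂ : ℝ) ^ 2

/-- **The two-ring bump.** -/
theorem two_bump (h0 : 0 < θ) (h1 : θ ≤ Real.pi / 3) {K₂ : ℤ} (hK2 : 1 ≤ K₂)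
    (ha0 : 80000 * K₂ ^ 2 ≤ a 0) (h01 : a 0 ≤ a 1) (h10 : a 1 ≤ 2 * K₂ * a 0)
    (hCm : Cm ≤ 1000) (hf : ∀ i, Bp Cm b (a i) (f i)) : Bq' θ (Kb K₂) b (2 * a 1) (F2 θ f) := by
  have hpi := Real.pi_lt_d2
  have hK2r : (1 : ℝ) ≤ K₂ := by exact_mod_cast hK2
  have hK2s : (1 : ℝ) ≤ (K₂ : ℝ) ^ 2 := one_le_pow₀ hK2r
  have hK2i : (1 : ℤ) ≤ K₂ ^ 2 := one_le_pow₀ hK2
  have a0p : 1 ≤ a 0 := by omega
  have ha0r : 80000 * (K₂ : ℝ) ^ 2 ≤ a 0 := by exact_mod_cast ha0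
  have h01r : (a 0 : ℝ) ≤ a 1 := by exact_mod_cast h01
  have h10r : (a 1 : ℝ) ≤ 2 * K₂ * a 0 := by exact_mod_cast h10
  have a0r : (0 : ℝ) < a 0 := by linarith
  have a1r : (0 : ℝ) < a 1 := by linarith
  have hai : ∀ i : Fin 2, a 0 ≤ a i ∧ a i ≤ a 1 := by
    intro i
    have hi : i = 0 ∨ i = 1 := by omega
    rcases hi with rfl | rfl
    · exact ⟨le_rfl, h01⟩
    · exact ⟨h01, le_rfl⟩
  have hSc : Sc (Kb K₂) (2 * a 1) := by
    refine ⟨by unfold Kb; linarith, ?_⟩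
    unfold Kb
    push_cast
    linarith
  have hfin : ∀ i : Fin 2, (Function.support (f i)).Finite := fun i =>
    (sites (hbox b (2 * a 1))).finite_toSet.subset fun z hz => by
      have h5 := (hf i).supp z hz
      simp only [Kr, Set.mem_ofPred_eq] at h5
      have h6 := hai i
      rw [mem_coe, mem_sites_hbox (by omega)]
      omega
  refine ⟨fun z => ?_, fun z => ?_, fun z hz => ?_, ?_⟩
  · have := (hf 0).nonneg z
    have := (hf 1).nonneg z
    unfold F2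
    positivity
  · have k0 := (hf 0).le z
    have k1 := (hf 1).le z
    have k2 : Cm / (a 0 : ℝ) ^ 2 ≤ 1000 / (a 0 : ℝ) ^ 2 := div_le_div_of_nonneg_right hCm (by positivity)
    have k3 : Cm / (a 1 : ℝ) ^ 2 ≤ 1000 / (a 0 : ℝ) ^ 2 := by
      refine (div_le_div_of_nonneg_right hCm (by positivity)).trans ?_
      exact div_le_div_of_nonneg_left (by norm_num) (by positivity) (pow_le_pow_left₀ a0r.le h01r 2)
    have k4 : F2 θ f z ≤ θ * (1000 / (a 0 : ℝ) ^ 2) := by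
      unfold F2
      have e1 := mul_le_mul_of_nonneg_left (k0.trans k2) (by positivity : 0 ≤ θ / 2)
      have e2 := mul_le_mul_of_nonneg_left (k1.trans k3) (by positivity : 0 ≤ θ / 2)
      linarith
    refine k4.trans ?_
    unfold Kb
    push_cast
    have k5 : (a 1 : ℝ) ^ 2 ≤ 4 * K₂ ^ 2 * a 0 ^ 2 := by
      have := pow_le_pow_left₀ a1r.le h10r 2
      linarith [this, (by ring : (2 * (K₂ : ℝ) * a 0) ^ 2 = 4 * K₂ ^ 2 * a 0 ^ 2)]
    rw [← mul_div_assoc, div_le_div_iff₀ (by positivity) (by positivity)]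
    have k6 : θ * 1000 * (2 * (a 1 : ℝ)) ^ 2 ≤ θ * 1000 * (4 * (4 * K₂ ^ 2 * a 0 ^ 2)) := by
      refine mul_le_mul_of_nonneg_left ?_ (by positivity)
      linarith [k5, (by ring : (2 * (a 1 : ℝ)) ^ 2 = 4 * a 1 ^ 2)]
    refine k6.trans ?_
    have k7 : (0 : ℝ) ≤ K₂ ^ 2 * a 0 ^ 2 := by positivity
    nlinarith
  · have hz' : ∃ i : Fin 2, f i z ≠ 0 := by
      by_contra hcon
      push Not at hcon
      apply hz
      unfold F2
      rw [hcon 0, hcon 1]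
      ring
    obtain ⟨i, hi⟩ := hz'
    have h5 := (hf i).supp z hi
    simp only [Kr, Set.mem_ofPred_eq] at h5
    have h6 := hai i
    refine hSc.supp (by omega) (by omega) ?_ (by omega)
    have k5 : ((2 * a 1 : ℤ) : ℝ) / Kb K₂ ≤ a 0 := by
      unfold Kb
      push_cast
      rw [div_le_iff₀ (by positivity)]
      have k8 : 2 * (a 1 : ℝ) ≤ 4 * K₂ * a 0 := by linarith
      have k9 : 4 * (K₂ : ℝ) * a 0 ≤ 4 * K₂ ^ 2 * a 0 := by
        refine mul_le_mul_of_nonneg_right ?_ a0r.le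
        nlinarith
      nlinarith
    have k6 : ((a 0 : ℤ) : ℝ) ≤ ((z.2 - b.2 : ℤ) : ℝ) := by
      exact_mod_cast (by omega : a 0 ≤ z.2 - b.2)
    push_cast at k6
    linarith
  · unfold F2
    have e0 : (Function.support fun z => θ / 2 * f 0 z).Finite :=
      (hfin 0).subset fun z hz => right_ne_zero_of_mul hz
    have e1 : (Function.support fun z => θ / 2 * f 1 z).Finite :=
      (hfin 1).subset fun z hz => right_ne_zero_of_mul hz
    rw [finsum_add_distrib e0 e1, ← mul_finsum', ← mul_finsum', (hf 0).sum, (hf 1).sum]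
    · ring
    · exact hfin 1
    · exact hfin 0

/-- **The orders of the small loop factors.** -/
theorem nn_cmp (h0 : 0 < θ) (h1 : θ ≤ Real.pi / 3) (hR : RSW (2 * Real.cos θ))
    (hP : IsLim (2 * Real.cos θ) P) {K₂ : ℤ} (hK2 : 1 ≤ K₂) {K : ℝ} (hK : 1 ≤ K) :
    ∃ (C : ℝ) (a₀ : ℤ), 0 < C ∧ 1 ≤ a₀ ∧ ∀ a : Fin 2 → ℤ, a₀ ≤ a 0 → a 0 ≤ a 1 →
      a 1 ≤ 2 * K₂ * a 0 → 1 / Nf θ K P (2 * a 1) ≤ C * Nn θ P a := by
  have hpi := Real.pi_pos
  have ht : 0 ≤ Real.tan θ := Real.tan_nonneg_of_nonneg_of_le_pi_div_two h0.le (by linarith)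
  have hK2r : (1 : ℝ) ≤ K₂ := by exact_mod_cast hK2
  obtain ⟨C, d0, hC, hd0, h⟩ := H208.SH.nb_near h0 h1 hR hP (Λ := K + 100 * K₂) (by linarith)
  refine ⟨Real.exp (Real.tan θ * θ * C), ⌈66 * K * d0 + 400 * d0⌉ + 1, Real.exp_pos _, ?_,
    fun a ha0 h01 h10 => ?_⟩
  · have : 0 ≤ ⌈66 * K * d0 + 400 * d0⌉ := Int.ceil_nonneg (by positivity)
    omega
  have c1 := Int.le_ceil (66 * K * d0 + 400 * d0)
  have ha0r : ((⌈66 * K * d0 + 400 * d0⌉ + 1 : ℤ) : ℝ) ≤ a 0 := by exact_mod_cast ha0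
  push_cast at ha0r
  have h01r : (a 0 : ℝ) ≤ a 1 := by exact_mod_cast h01
  have h10r : (a 1 : ℝ) ≤ 2 * K₂ * a 0 := by exact_mod_cast h10
  have p1 : 0 < 66 * K * d0 := by positivity
  have p2 : 0 < 400 * d0 := by positivity
  have a0r : (0 : ℝ) < a 0 := by linarith
  have a1r : (0 : ℝ) < a 1 := by linarith
  have key : ∀ x : ℝ, (a 0 : ℝ) ≤ x → x ≤ a 1 →
      |NbP P (dq K (2 * a 1)) - NbP P (kp * x)| ≤ C := by
    intro x hx0 hx1
    have e1 : dq K (2 * a 1) = 1 / (66 * K) * (2 * a 1) := by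
      unfold QB.dq
      push_cast
      rfl
    refine h _ _ ?_ ?_ ?_ ?_
    · rw [e1, div_mul_eq_mul_div, one_mul, le_div_iff₀ (by positivity)]
      linarith
    · unfold kp
      linarith
    · rw [e1, div_mul_eq_mul_div, one_mul, div_le_iff₀ (by positivity)]
      unfold kp
      have h8 : 2 * (a 1 : ℝ) ≤ 4 * K₂ * x := by
        have := mul_le_mul_of_nonneg_left hx0 (by positivity : (0 : ℝ) ≤ 4 * K₂)
        linarith
      have h9 : 0 ≤ (K₂ : ℝ) * x := by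
        have : 0 ≤ x := by linarith
        positivity
      have h10' : (K₂ : ℝ) * x ≤ K₂ * x * K := le_mul_of_one_le_right h9 hK
      have h11 : 0 ≤ K * x * K := by
        have : 0 ≤ x := by linarith
        positivity
      nlinarith
    · rw [e1]
      unfold kp
      have h7 : (1 : ℝ) / 400 * x ≤ a 1 / 400 := by linarith
      have h9 : (a 1 : ℝ) / 400 ≤ K * (1 / (66 * K) * (2 * a 1)) := by
        have : K * (1 / (66 * K) * (2 * (a 1 : ℝ))) = a 1 / 33 := by field_simp; ring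
        rw [this]
        linarith
      have h10' : 0 ≤ 1 / (66 * K) * (2 * (a 1 : ℝ)) := by positivity
      have h11 : K * (1 / (66 * K) * (2 * (a 1 : ℝ))) ≤
          (K + 100 * K₂) * (1 / (66 * K) * (2 * a 1)) :=
        mul_le_mul_of_nonneg_right (by linarith) h10'
      linarith
  have k0 := (abs_le.1 (key (a 0) le_rfl h01r)).1
  have k1 := (abs_le.1 (key (a 1) h01r le_rfl)).1
  unfold Nf Nn Ex0
  rw [Fin.sum_univ_two, one_div, ← Real.exp_neg, ← Real.exp_add]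
  refine Real.exp_le_exp.2 ?_
  have hx : 0 ≤ Real.tan θ * θ := by positivity
  have e0 := mul_le_mul_of_nonneg_left k0 (by positivity : 0 ≤ Real.tan θ * (θ / 2))
  have e1 := mul_le_mul_of_nonneg_left k1 (by positivity : 0 ≤ Real.tan θ * (θ / 2))
  nlinarith

end Vale.Agent.P167.QB.Brf
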