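import Vale.Agent.P167.QB.Brf1

/-!
# P167, general `q`, block BRQ: `S_brf` (2): the arms, the final inequality
-/

namespace Vale.Agent.P167.QB.Brf

open Finset Relation MeasureTheory Vale.Agent.P167 Vale.Agent.P167.BR Vale.Agent.P167.FK
open Vale.Agent.P167.FKA (Ind Loc Ex_mono Ex_sub Ex_congr ind_nonneg Pr_nonneg)
open Vale.Agent.P167.QB
open Vale.Agent.P167.H436.ND (Bp Kr kp Ft Ex0)
open Vale.Agent.P167.H562.MAJ (core Sc mem_core)
open Vale.Agent.P167.H562.QM (NbP FltQ)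
open Vale.Agent.P167.H519 (IsLim)
open Vale.Agent.P167.H192.Q (SRSW)
open Vale.Agent.P167.H192.TA (Xc)

variable {θ K K' Cm : ℝ} {r : ℤ} {g : ℤ × ℤ → ℝ} {a : Fin 2 → ℤ}
  {f : Fin 2 → ℤ × ℤ → ℝ} {P : Measure Cfg} {n : ℕ} {q : ZMod n → ℤ × ℤ} {D : Finset (ℤ × ℤ)} {η : Cfg}
  {k l m : ℕ} {Rc Rd R₁ : ℤ}

/-- The final inequality. -/
theorem fin_real {V z T Tn Ep En B ε c κ δ : ℝ} (hz : 0 < z) (hB : 0 ≤ B) (hε : 0 < ε)
    (hlow : c * B ≤ Ep) (hsgn : En ≤ κ * B) (hT : Tn = Ep - En) (h1 : |T - Tn| ≤ δ * B)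
    (h2 : |V - z * T| ≤ δ * (z * B)) (k1 : κ ≤ c / 2) (k2 : κ ≤ ε * c / 2) (d1 : δ ≤ c / 16)
    (d2 : δ ≤ ε * c / 16) : |V - z * Tn| ≤ ε * |V| ∧ En ≤ ε * Tn := by
  have hTn : c / 2 * B ≤ Tn := by
    have := mul_le_mul_of_nonneg_right k1 hB
    linarith
  have hzB : 0 ≤ z * B := by positivity
  have hzT : c / 2 * (z * B) ≤ z * Tn := by
    have := mul_le_mul_of_nonneg_left hTn hz.le
    linarith
  have h3 : |V - z * Tn| ≤ 2 * δ * (z * B) := by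
    have e : V - z * Tn = (V - z * T) + z * (T - Tn) := by ring
    rw [e]
    refine (abs_add_le _ _).trans ?_
    rw [abs_mul, abs_of_pos hz]
    have := mul_le_mul_of_nonneg_left h1 hz.le
    linarith
  have h4 : z * Tn - 2 * δ * (z * B) ≤ |V| := by
    have h5 : z * Tn ≤ |z * Tn - V| + |V| := by
      have := abs_add_le (z * Tn - V) V
      rw [sub_add_cancel] at this
      exact (le_abs_self _).trans this
    rw [abs_sub_comm] at h5
    linarith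
  have d3 := mul_le_mul_of_nonneg_right d1 hzB
  have d4 := mul_le_mul_of_nonneg_right d2 hzB
  have h6 : 3 * c / 8 * (z * B) ≤ |V| := by linarith
  constructor
  · have h7 := mul_le_mul_of_nonneg_left h6 hε.le
    have h8 : 0 ≤ ε * (c * (z * B)) := by
      have h9 : 0 ≤ c * (z * B) ∨ c * (z * B) < 0 := le_or_gt _ _
      rcases h9 with h9 | h9
      · positivity
      · exfalso
        -- then `δ < 0`
        have h10 : |V - z * Tn| < 0 := by nlinarith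
        exact absurd (abs_nonneg _) (not_le.2 h10)
    nlinarith
  · have h7 := mul_le_mul_of_nonneg_left hTn hε.le
    have h8 := mul_le_mul_of_nonneg_right k2 hB
    linarith

/-- The geometry of the window at `q m`. -/
theorem geo_d (hG : Geo2 q D η k l m Rc Rd) {R : ℤ} (hR : R ≤ Rd) :
    q 0 ∉ sites (hbox (q m) R) ∧ Disjoint (hbox (q m) R) (hbox (q l) Rc) ∧
      FltQ D η (q m) R false false :=
  ⟨fun h => hG.od (sites_mono (hbox_mono hR) h), disjoint_of_subset_left (hbox_mono hR) hG.dis,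
    fltQ_mn hG.fd hR⟩

/-- The functional with the two-ring bump. -/
theorem xcd_eq (θ : ℝ) (q : ZMod n → ℤ × ℤ) (D : Finset (ℤ × ℤ)) (k l : ℕ)
    (f : Fin 2 → ℤ × ℤ → ℝ) (ω : Cfg) :
    Xcd θ q D k l f ω = XG θ q D k (fun z => F2 θ f z - dlt (q l) θ z) ω := by
  unfold Xcd
  congr 1
  funext z
  simp only [F2, Ft, Fin.sum_univ_two, dlt]
  split_ifs <;> ring

/-- **The part with a primal arm.** -/
theorem harm_part (h0 : 0 < θ) (h1 : θ ≤ Real.pi / 3) (hR0 : RSW (2 * Real.cos θ))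
    (hP : IsLim (2 * Real.cos θ) P) (hK : 1 ≤ K) :
    ∃ (r0 C : ℝ), 0 < C ∧ ∀ (n : ℕ) (q : ZMod n → ℤ × ℤ) (D : Finset (ℤ × ℤ)) (η : Cfg)
      (k l m : ℕ) (Rc Rd : ℤ), Geo2 q D η k l m Rc Rd → ∀ (a : Fin 2 → ℤ)
      (f : Fin 2 → ℤ × ℤ → ℝ) (R₁ : ℤ), r0 ≤ a 1 → 0 ≤ a 1 → 4 * a 1 ≤ Rd →
      Bq' θ K (q m) (2 * a 1) (F2 θ f) →
      |Ex (2 * Real.cos θ) D η (Xcd θ q D k l f) -
        Ex (2 * Real.cos θ) D η (fun ω => Xcd θ q D k l f ω * nH (q m) (4 * a 1) R₁ ω)| ≤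
      C / Nf θ K P (2 * a 1) * Pr (2 * Real.cos θ) D η {ω | HArm (q m) (4 * a 1) R₁ ω} := by
  have hcos := cos_half h0 h1
  have hQ : 0 < 2 * Real.cos θ := by linarith
  obtain ⟨r0, C, hr0, hC, h⟩ := brB h0 h1 hR0 hP hK 1
  refine ⟨r0, C, hC, fun n q D η k l m Rc Rd hG a f R₁ ha1 ha1' hRd hF => ?_⟩
  have g1 := hG.mR
  have g2 := hG.lR
  have g3 := hG.pc
  have g4 := hG.pd
  obtain ⟨w1, -, w3⟩ := geo_d hG (R := 2 * (2 * a 1)) (by omega)
  have ha1r : (0 : ℝ) ≤ a 1 := by exact_mod_cast ha1'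
  have hG1 : Ind (hbox (q m) (2 * (2 * a 1)))
      (({ω | HArm (q m) (4 * a 1) R₁ ω} : Set Cfg).indicator (1 : Cfg → ℝ)) := by
    intro ω ω' hw
    have h2 : HArm (q m) (4 * a 1) R₁ ω ↔ HArm (q m) (4 * a 1) R₁ ω' :=
      harm_congr fun v _ hv' => hw v fun h3 => hv' (by
        rwa [show 4 * a 1 = 2 * (2 * a 1) by ring])
    by_cases h3 : HArm (q m) (4 * a 1) R₁ ω
    · rw [Set.indicator_of_mem (show ω ∈ {ω | HArm (q m) (4 * a 1) R₁ ω} from h3),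
        Set.indicator_of_mem (show ω' ∈ {ω | HArm (q m) (4 * a 1) R₁ ω} from h2.1 h3)]
      rfl
    · rw [Set.indicator_of_notMem (show ω ∉ {ω | HArm (q m) (4 * a 1) R₁ ω} from h3),
        Set.indicator_of_notMem (show ω' ∉ {ω | HArm (q m) (4 * a 1) R₁ ω} from
          fun h4 => h3 (h2.2 h4))]
  have hb := h n q D hG.poly hG.enc η false false k l m (2 * a 1) (F2 θ f) hG.good (by omega)
    (by omega) hG.kn (by push_cast; linarith) w3 w1 hF _ (fun ω => ind_nonneg _ ω) hG1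
  simp only [pow_one] at hb
  rw [← Ex_sub]
  refine (FKA.abs_Ex_le hQ _).trans (le_trans (Ex_mono hQ fun S _ => ?_) hb)
  rw [xcd_eq]
  unfold nH
  by_cases h3 : HArm (q m) (4 * a 1) R₁ (cf D η S)
  · rw [Set.indicator_of_notMem (show cf D η S ∉ {ω | ¬ HArm (q m) (4 * a 1) R₁ ω} from
      fun h4 => h4 h3), Set.indicator_of_mem
      (show cf D η S ∈ {ω | HArm (q m) (4 * a 1) R₁ ω} from h3), mul_zero, sub_zero,
      Pi.one_apply, one_mul]
  · rw [Set.indicator_of_mem (show cf D η S ∈ {ω | ¬ HArm (q m) (4 * a 1) R₁ ω} from h3),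
      Set.indicator_of_notMem (show cf D η S ∉ {ω | HArm (q m) (4 * a 1) R₁ ω} from h3),
      Pi.one_apply, mul_one, sub_self, abs_zero, zero_mul]

/-- **The dual arms from comparable radii.** -/
theorem dar_step (h0 : 0 < θ) (h1 : θ ≤ Real.pi / 3) (hR0 : RSW (2 * Real.cos θ))
    (hS : SRSW (2 * Real.cos θ)) (hg : S_glu θ) (M : ℤ) : ∃ (C : ℝ) (K s0 : ℤ), 0 < C ∧ 1 ≤ K ∧
    ∀ (n : ℕ) (q : ZMod n → ℤ × ℤ) (D : Finset (ℤ × ℤ)) (η : Cfg) (k l m : ℕ) (Rc Rd : ℤ),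
    Geo2 q D η k l m Rc Rd → ∀ r R : ℤ, s0 ≤ r → r ≤ R → R ≤ M * r → K * R ≤ Rd →
      Pr (2 * Real.cos θ) D η (DAr D (Wa q k l) (q m) R) ≤
        C * Pr (2 * Real.cos θ) D η (DAr D (Wa q k l) (q m) r) := by
  have hcos := cos_half h0 h1
  have hQ : 1 ≤ 2 * Real.cos θ := by linarith
  have hQ0 : 0 < 2 * Real.cos θ := by linarith
  obtain ⟨c, K8, s8, hc, hK8, hs8, h8⟩ := H469.a8 hQ hR0 hS M
  obtain ⟨C, Kg, sg, hC, hKg, hsg, hg⟩ := hg
  refine ⟨C / c, Kg, max s8 sg, by positivity, hKg,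
    fun n q D η k l m Rc Rd hG r R hr hrR hM hRd => ?_⟩
  have r1 : s8 ≤ r := (le_max_left _ _).trans hr
  have r2 : sg ≤ r := (le_max_right _ _).trans hr
  have hN1 : K8 * R ≤ (K8 + Kg) * R := mul_le_mul_of_nonneg_right (by omega) (by omega)
  have hN2 : Kg * R ≤ (K8 + Kg) * R := mul_le_mul_of_nonneg_right (by omega) (by omega)
  have k1 := h8 false (q m) r R ((K8 + Kg) * R) r1 hrR hM hN1
  have k2 := hg n q D η k l m Rc Rd ((K8 + Kg) * R) hG r R r2 hrR hRd hN2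
  unfold H469.hx at k1
  rw [H542.Q.Glu.HB_eq] at k1
  have k3 : 0 ≤ Pr (2 * Real.cos θ) D η (DAr D (Wa q k l) (q m) R) := Pr_nonneg hQ0 _
  have k4 := (mul_le_mul_of_nonneg_right k1 k3).trans k2
  rw [div_mul_eq_mul_div, le_div_iff₀ hc]
  linarith

end Vale.Agent.P167.QB.Brf
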