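import Vale.Agent.P167.QB.Brf2

/-!
# P167, general `q`, block BRQ: `S_brf` (3)
-/

namespace Vale.Agent.P167.QB.Brf

open Finset Relation MeasureTheory Vale.Agent.P167 Vale.Agent.P167.BR Vale.Agent.P167.FK
open Vale.Agent.P167.FKA (Ind Loc Ex_mono Ex_sub Ex_congr ind_nonneg Pr_nonneg)
open Vale.Agent.P167.QB
open Vale.Agent.P167.H436.ND (Bp Kr kp Ft Ex0)
open Vale.Agent.P167.H562.MAJ (core Sc mem_core)
open Vale.Agent.P167.H562.QM (NbP FltQ)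
open Vale.Agent.P167.H519 (IsLim)
open Vale.Agent.P167.H192.Q (SRSW)

variable {θ : ℝ} {P : Measure Cfg} {b : ℤ × ℤ} {r R R' : ℤ} {ω : Cfg}

theorem small_pow {C α κ : ℝ} (hC : 0 < C) (hα : 0 < α) (hκ : 0 < κ) :
    ∃ x0 : ℝ, 0 < x0 ∧ ∀ x : ℝ, 0 ≤ x → x ≤ x0 → C * x ^ α ≤ κ := by
  refine ⟨(κ / C) ^ (1 / α), Real.rpow_pos_of_pos (by positivity) _, fun x hx hx0 => ?_⟩
  have h1 := Real.rpow_le_rpow hx hx0 hα.le
  rw [← Real.rpow_mul (by positivity), one_div, inv_mul_cancel₀ hα.ne', Real.rpow_one,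
    le_div_iff₀ hC] at h1
  linarith

theorem harm_sub (h1 : r ≤ R') (h2 : R' ≤ R) (h : HArm b r R ω) : HArm b r R' ω := by
  obtain ⟨u, v, he, hu, hv, huv⟩ := h
  exact harm_of (F := ha b r R ω) (fun w hw => ⟨by
    have := hw.1
    rw [mem_hbox] at this
    omega, hw.2.2⟩) h1 he hu (h2.trans hv) huv

theorem nH_mono (h1 : r ≤ R') (h2 : R' ≤ R) : nH b r R' ω ≤ nH b r R ω := by
  unfold nH
  by_cases h : HArm b r R' ω
  · rw [Set.indicator_of_notMem (show ω ∉ {ω | ¬ HArm b r R' ω} from fun h3 => h3 h)]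
    exact ind_nonneg _ _
  · rw [Set.indicator_of_mem (show ω ∈ {ω | ¬ HArm b r R' ω} from h),
      Set.indicator_of_mem (show ω ∈ {ω | ¬ HArm b r R ω} from fun h3 => h (harm_sub h1 h2 h3))]

/-- `K x ≤ y` from `x ≤ t y`. -/
theorem mul_of_t {K x y : ℤ} {t : ℝ} (hK : 1 ≤ K) (ht : 0 < t) (ht1 : t ≤ 1 / (K : ℝ))
    (hx : 0 < x) (h : (x : ℝ) ≤ t * y) : K * x ≤ y := by
  have hKr : (1 : ℝ) ≤ K := by exact_mod_cast hK
  have hxr : (0 : ℝ) < x := by exact_mod_cast hx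
  have hy : (0 : ℝ) < y := by
    by_contra hcon
    push Not at hcon
    nlinarith
  have h1 : (x : ℝ) ≤ 1 / K * y := h.trans (mul_le_mul_of_nonneg_right ht1 hy.le)
  rw [one_div, ← div_eq_inv_mul, le_div_iff₀ (by linarith)] at h1
  have h2 : ((K * x : ℤ) : ℝ) ≤ y := by
    push_cast
    linarith
  exact_mod_cast h2

/-- The negative and the positive part. -/
theorem tn_eq {Q : ℝ} {D : Finset (ℤ × ℤ)} {η : Cfg} (X Y : Cfg → ℝ) :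
    Ex Q D η (fun ω => X ω * Y ω) = Ex Q D η (fun ω => max (X ω) 0 * Y ω) -
      Ex Q D η (fun ω => max (-(X ω)) 0 * Y ω) := by
  rw [← Ex_sub]
  refine Ex_congr fun S _ => ?_
  rw [← sub_mul]
  congr 1
  rcases le_total 0 (X (cf D η S)) with h | h
  · rw [max_eq_left h, max_eq_right (by linarith), sub_zero]
  · rw [max_eq_right h, max_eq_left (by linarith)]
    ring

theorem d1_real {t Ch N1 PH PR Cn Nν CH c₁ Cd y P1 P0 δ : ℝ} (h1 : t ≤ Ch / N1 * PH)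
    (h2 : 1 / N1 ≤ Cn * Nν) (h3 : c₁ ≤ PR) (h4 : PH * PR ≤ CH * y * P1) (h5 : P1 ≤ Cd * P0)
    (h6 : Ch * Cn * (CH / c₁) * Cd * y ≤ δ) (p1 : 0 < c₁) (p2 : 0 ≤ PH) (p3 : 0 < CH) (p4 : 0 ≤ y)
    (p5 : 0 < Ch) (p6 : 0 < Cn) (p7 : 0 < Nν) (p8 : 0 ≤ P0) : t ≤ δ * (Nν * P0) := by
  have q0 : PH ≤ CH / c₁ * Cd * y * P0 := by
    have q1 : PH * c₁ ≤ CH * y * (Cd * P0) :=
      (mul_le_mul_of_nonneg_left h3 p2).trans (h4.trans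
        (mul_le_mul_of_nonneg_left h5 (by positivity)))
    have q2 : CH / c₁ * Cd * y * P0 = CH * y * (Cd * P0) / c₁ := by ring
    rw [q2, le_div_iff₀ p1]
    exact q1
  have q1 : Ch / N1 ≤ Ch * (Cn * Nν) := by
    have := mul_le_mul_of_nonneg_left h2 p5.le
    rwa [mul_one_div] at this
  calc t ≤ Ch / N1 * PH := h1
    _ ≤ Ch * (Cn * Nν) * (CH / c₁ * Cd * y * P0) := mul_le_mul q1 q0 p2 (by positivity)
    _ = Ch * Cn * (CH / c₁) * Cd * y * (Nν * P0) := by ring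
    _ ≤ δ * (Nν * P0) := mul_le_mul_of_nonneg_right h6 (by positivity)

theorem d2_real {t Cs x' Nrc Nrd z Nν P0 c₂ cz Cn2 δ : ℝ} (h1 : t ≤ Cs * x' * (Nrc / Nrd))
    (h2 : 1 / Nrd ≤ Cn2 * Nν) (h3 : cz * Nrc ≤ z) (h4 : Cs * (1 / cz) * Cn2 / c₂ * x' ≤ δ)
    (h5 : c₂ ≤ P0) (p1 : 0 < Cs) (p2 : 0 ≤ x') (p3 : 0 < Nrd) (p4 : 0 < z) (p5 : 0 < Nν)
    (p6 : 0 < c₂) (p7 : 0 < cz) (p8 : 0 < Cn2) (p9 : 0 ≤ δ) : t ≤ δ * (z * (Nν * P0)) := by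
  have q3 : Nrc ≤ 1 / cz * z := by
    rw [one_div, ← div_eq_inv_mul, le_div_iff₀ p7]
    linarith
  have q4 : Nrc / Nrd ≤ 1 / cz * z * (Cn2 * Nν) := by
    rw [div_eq_mul_one_div]
    exact mul_le_mul q3 h2 (by positivity) (by positivity)
  calc t ≤ Cs * x' * (Nrc / Nrd) := h1
    _ ≤ Cs * x' * (1 / cz * z * (Cn2 * Nν)) := mul_le_mul_of_nonneg_left q4 (by positivity)
    _ = Cs * (1 / cz) * Cn2 / c₂ * x' * (z * (Nν * c₂)) := by field_simp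
    _ ≤ δ * (z * (Nν * P0)) := by
        refine mul_le_mul h4 ?_ (by positivity) p9
        exact mul_le_mul_of_nonneg_left (mul_le_mul_of_nonneg_left h5 p5.le) p4.le

/-- The integers. -/
theorem arith {K₂ KL KS KH Kd Kg a0 a1 R₁ Rd : ℤ} (hL : 8 ≤ KL) (hS : 8 ≤ KS) (h2 : 1 ≤ K₂) (ha : 80000 * K₂ ^ 2 ≤ a0) (h01 : K₂ * a0 ≤ a1)
    (h10 : a1 ≤ 2 * K₂ * a0) (f1 : KL * a1 ≤ R₁) (f3 : 4 * Kd * a1 ≤ R₁) (g2 : KS ≤ Kg) (g3 : KH ≤ Kg) (hR : Kg * R₁ ≤ Rd) (l1 : KL ≤ K₂) (l2 : KS ≤ K₂) :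
    (0 < a0 ∧ a0 ≤ a1 ∧ 0 < a1 ∧ 0 < R₁ ∧ 4 * a1 ≤ R₁) ∧ (KS * R₁ ≤ Rd ∧ KH * R₁ ≤ Rd ∧ R₁ ≤ Rd) ∧
    (KL * a0 ≤ a1 ∧ KS * a0 ≤ a1 ∧ KL * a1 ≤ Rd ∧ 4 * a1 ≤ Rd ∧ 2 * (2 * a1) ≤ Rd) ∧
    (Kd * (4 * a1) ≤ Rd ∧ 4 * a1 ≤ 2 * K₂ * (4 * a0) ∧ 4 * a0 ≤ 4 * a1 ∧ 4 * a1 ≤ KL * a1) := by
  have k2 : (1 : ℤ) ≤ K₂ ^ 2 := one_le_pow₀ h2
  have a0p : 0 < a0 := by omega
  have h01' : a0 ≤ a1 := le_trans (by nlinarith) h01
  have a1p : 0 < a1 := by omega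
  have q1 : 8 * a1 ≤ KL * a1 := mul_le_mul_of_nonneg_right hL a1p.le
  have R1p : 0 < R₁ := by omega
  have q2 : KS * R₁ ≤ Rd := (mul_le_mul_of_nonneg_right g2 R1p.le).trans hR
  have q3 : KH * R₁ ≤ Rd := (mul_le_mul_of_nonneg_right g3 R1p.le).trans hR
  have q4 : 8 * R₁ ≤ KS * R₁ := mul_le_mul_of_nonneg_right hS R1p.le
  have q5 : KL * a0 ≤ a1 := (mul_le_mul_of_nonneg_right l1 a0p.le).trans h01
  have q6 : KS * a0 ≤ a1 := (mul_le_mul_of_nonneg_right l2 a0p.le).trans h01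
  have q7 : 4 * a1 ≤ 2 * K₂ * (4 * a0) := by linarith
  have q8 : Kd * (4 * a1) = 4 * Kd * a1 := by ring
  exact ⟨⟨a0p, h01', a1p, R1p, by omega⟩, ⟨q2, q3, by omega⟩, ⟨q5, q6, by omega, by omega, by omega⟩,
    ⟨by omega, q7, by omega, by omega⟩⟩

theorem a1_pos {K₂ a0 a1 : ℤ} (h2 : 1 ≤ K₂) (ha : 80000 * K₂ ^ 2 ≤ a0) (h01 : K₂ * a0 ≤ a1) :
    0 < a1 := by
  have k2 : (1 : ℤ) ≤ K₂ ^ 2 := one_le_pow₀ h2
  nlinarith

/-- **The inequalities for one set of data.** -/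
theorem brf_data (h0 : 0 < θ) (h1 : θ ≤ Real.pi / 3) {n : ℕ} {q : ZMod n → ℤ × ℤ}
    {D : Finset (ℤ × ℤ)} {η : Cfg} {k l m : ℕ} {a : Fin 2 → ℤ} {f : Fin 2 → ℤ × ℤ → ℝ}
    {R₁ R₂ : ℤ} {cL κ ε δ z V P0 : ℝ} (hε : 0 < ε) (hz : 0 < z) (hP0 : 0 ≤ P0)
    (hlow : cL * (Nn θ P a * P0) ≤ Ex (2 * Real.cos θ) D η
      (fun ω => max (Xcd θ q D k l f ω) 0 * nH (q m) (4 * a 1) R₂ ω))
    (hsgn : Ex (2 * Real.cos θ) D η (fun ω => max (-(Xcd θ q D k l f ω)) 0 *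
      nH (q m) (4 * a 1) R₁ ω) ≤ κ * (Nn θ P a * P0)) (hR : R₂ ≤ R₁) (hR' : 4 * a 1 ≤ R₂)
    (hd1 : |Ex (2 * Real.cos θ) D η (Xcd θ q D k l f) -
      Ex (2 * Real.cos θ) D η (fun ω => Xcd θ q D k l f ω * nH (q m) (4 * a 1) R₁ ω)| ≤
      δ * (Nn θ P a * P0))
    (hd2 : |V - z * Ex (2 * Real.cos θ) D η (Xcd θ q D k l f)| ≤ δ * (z * (Nn θ P a * P0)))
    (k1 : κ ≤ cL / 2) (k2 : κ ≤ ε * cL / 2) (d1 : δ ≤ cL / 16) (d2 : δ ≤ ε * cL / 16) :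
    |V - z * Ex (2 * Real.cos θ) D η (fun ω => Xcd θ q D k l f ω *
      nH (q m) (4 * a 1) R₁ ω)| ≤ ε * |V| ∧
    Ex (2 * Real.cos θ) D η (fun ω => max (-(Xcd θ q D k l f ω)) 0 * nH (q m) (4 * a 1) R₁ ω) ≤
      ε * Ex (2 * Real.cos θ) D η (fun ω => Xcd θ q D k l f ω * nH (q m) (4 * a 1) R₁ ω) := by
  have hcos := cos_half h0 h1
  have hQ : 0 < 2 * Real.cos θ := by linarith
  have hNp : 0 < Nn θ P a := Real.exp_pos _
  have hEp : cL * (Nn θ P a * P0) ≤ Ex (2 * Real.cos θ) D η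
      (fun ω => max (Xcd θ q D k l f ω) 0 * nH (q m) (4 * a 1) R₁ ω) := by
    refine hlow.trans (Ex_mono hQ fun S _ => ?_)
    exact mul_le_mul_of_nonneg_left (nH_mono hR' hR) (le_max_right _ _)
  have hTn := tn_eq (Q := 2 * Real.cos θ) (D := D) (η := η) (Xcd θ q D k l f)
    (nH (q m) (4 * a 1) R₁)
  exact fin_real hz (mul_nonneg hNp.le hP0) hε hEp hsgn hTn hd1 hd2 k1 k2 d1 d2

/-- The functionals. -/
theorem ft_eq (θ : ℝ) (f : Fin 2 → ℤ × ℤ → ℝ) (fc : ℤ × ℤ → ℝ) :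
    (fun z => Ft (fun _ => θ / 2) f 0 z - fc z) = fun z => F2 θ f z - fc z := by
  funext z
  simp only [Ft, F2, Fin.sum_univ_two, Pi.zero_apply, add_zero]

theorem ceil_le' {x : ℝ} {N : ℤ} (h : ⌈x⌉ ≤ N) : x ≤ N := (Int.le_ceil _).trans (by exact_mod_cast h)

/-- **(BRF).** -/
theorem s_brf (h0 : 0 < θ) (h1 : θ ≤ Real.pi / 3) (hR0 : RSW (2 * Real.cos θ))
    (hS : SRSW (2 * Real.cos θ)) (hP : IsLim (2 * Real.cos θ) P) (hlow : S_low θ P)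
    (hsgn : S_sgn θ P) (hglu : S_glu θ) (hhar : S_har θ) : S_brf θ := by
  intro Cm hCm hCm1 ε hε
  have hcos := cos_half h0 h1
  have hQ : 0 < 2 * Real.cos θ := by linarith
  obtain ⟨cL, KL, aL, hcL, hKL, hlow⟩ := hlow Cm hCm hCm1
  obtain ⟨αS, CS, KS, aS, hαS, hCS, hKS, hsgn⟩ := hsgn Cm hCm hCm1
  obtain ⟨αH, CH, KH, sH, hαH, hCH, hKH, hsH, hhar⟩ := hhar
  obtain ⟨x0, hx0, hx0'⟩ := small_pow (C := CS) (α := αS) (κ := min (cL / 2) (ε * cL / 2)) hCS hαS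
    (lt_min (by positivity) (by positivity))
  refine ⟨max (max KL KS) (max KH ⌈1 / x0⌉), hKL.trans ((le_max_left _ _).trans (le_max_left _ _)),
    fun K₂ hK2 c₁ hc₁ => ?_⟩
  have m1 : KL ≤ K₂ := ((le_max_left _ _).trans (le_max_left _ _)).trans hK2
  have m2 : KS ≤ K₂ := ((le_max_right _ _).trans (le_max_left _ _)).trans hK2
  have m4 : ⌈1 / x0⌉ ≤ K₂ := ((le_max_right _ _).trans (le_max_right _ _)).trans hK2
  have hK21 : 1 ≤ K₂ := by omega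
  have hK2r : (1 : ℝ) ≤ K₂ := by exact_mod_cast hK21
  have hx2 : 1 / (K₂ : ℝ) ≤ x0 := by
    have h2 := ceil_le' m4
    rw [div_le_iff₀ hx0] at h2
    rw [div_le_iff₀ (by linarith)]
    linarith
  have hKb : 1 ≤ Kb K₂ := by
    unfold Kb
    nlinarith
  obtain ⟨r0h, Ch, hCh, hharm⟩ := harm_part (P := P) h0 h1 hR0 hP hKb
  obtain ⟨Cn, an, hCn, han, hnn⟩ := nn_cmp (P := P) h0 h1 hR0 hP hK21 hKb
  obtain ⟨Cd, Kd, sd, hCd, hKd, hdar⟩ := dar_step h0 h1 hR0 hS hglu (2 * K₂)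
  obtain ⟨δ, hδe⟩ : ∃ δ, δ = min (cL / 16) (ε * cL / 16) := ⟨_, rfl⟩
  have hδ : 0 < δ := by
    rw [hδe]
    exact lt_min (by positivity) (by positivity)
  obtain ⟨x1, hx1, hx1'⟩ := small_pow (C := Ch * Cn * (CH / c₁) * Cd) (α := αH) (κ := δ)
    (by positivity) hαH hδ
  obtain ⟨t₀, ht0, t1, t2, t3, t4⟩ : ∃ t₀ : ℝ, 0 < t₀ ∧ t₀ ≤ x1 / 4 ∧ t₀ ≤ 1 / (KL : ℝ) ∧
      t₀ ≤ 1 / (KS : ℝ) ∧ t₀ ≤ 1 / ((4 * Kd : ℤ) : ℝ) := by
    have p1 : (0 : ℝ) < KL := by exact_mod_cast (by omega : 0 < KL)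
    have p2 : (0 : ℝ) < KS := by exact_mod_cast (by omega : 0 < KS)
    have p3 : (0 : ℝ) < ((4 * Kd : ℤ) : ℝ) := by exact_mod_cast (by omega : 0 < 4 * Kd)
    refine ⟨min (x1 / 4) (min (1 / (KL : ℝ)) (min (1 / (KS : ℝ)) (1 / ((4 * Kd : ℤ) : ℝ)))),
      lt_min (by positivity) (lt_min (by positivity) (lt_min (by positivity) (by positivity))),
      min_le_left _ _, (min_le_right _ _).trans (min_le_left _ _),
      (min_le_right _ _).trans ((min_le_right _ _).trans (min_le_left _ _)),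
      (min_le_right _ _).trans ((min_le_right _ _).trans (min_le_right _ _))⟩
  refine ⟨t₀, ht0, fun c₂ hc₂ K hK => ?_⟩
  have hK'' : 1 ≤ max K (Kb K₂) := hK.trans (le_max_left _ _)
  obtain ⟨r0s, Λ, αs, Cs, hr0s, hΛ, hαs, hCs, hbrS⟩ := brS (P := P) h0 h1 hR0 hP hK''
  obtain ⟨Cn2, an2, hCn2, han2, hnn2⟩ := nn_cmp (P := P) h0 h1 hR0 hP hK21 hK''
  obtain ⟨cz, Cz, rz, hcz, hCz, hrz, hzS⟩ := zS_bds (P := P) h0 h1 hR0 hP hK''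
  obtain ⟨x2, hx2p, hx2'⟩ := small_pow (C := Cs * (1 / cz) * Cn2 / c₂) (α := αs) (κ := δ)
    (by positivity) hαs hδ
  obtain ⟨t₁, ht1, t5, t6⟩ : ∃ t₁ : ℝ, 0 < t₁ ∧ t₁ ≤ x2 ∧ t₁ ≤ 1 / (Λ : ℝ) := by
    have p1 : (0 : ℝ) < Λ := by exact_mod_cast (by omega : 0 < Λ)
    exact ⟨min x2 (1 / (Λ : ℝ)), lt_min hx2p (by positivity), min_le_left _ _, min_le_right _ _⟩
  obtain ⟨A, b1, b2, b3, b4, b5, b6, b7, b8, b9, b10⟩ : ∃ A : ℤ, aL ≤ A ∧ aS ≤ A ∧ sH ≤ A ∧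
      an ≤ A ∧ an2 ≤ A ∧ sd ≤ A ∧ 80000 * K₂ ^ 2 ≤ A ∧ ⌈r0h⌉ ≤ A ∧ ⌈r0s⌉ ≤ A ∧ ⌈rz⌉ ≤ A := by
    refine ⟨|aL| + |aS| + |sH| + |an| + |an2| + |sd| + |80000 * K₂ ^ 2| + |⌈r0h⌉| + |⌈r0s⌉| +
      |⌈rz⌉|, ?_⟩
    have := le_abs_self aL
    have := le_abs_self aS
    have := le_abs_self sH
    have := le_abs_self an
    have := le_abs_self an2
    have := le_abs_self sd
    have := le_abs_self (80000 * K₂ ^ 2)
    have := le_abs_self ⌈r0h⌉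
    have := le_abs_self ⌈r0s⌉
    have := le_abs_self ⌈rz⌉
    have := abs_nonneg aL
    have := abs_nonneg aS
    have := abs_nonneg sH
    have := abs_nonneg an
    have := abs_nonneg an2
    have := abs_nonneg sd
    have := abs_nonneg (80000 * K₂ ^ 2)
    have := abs_nonneg ⌈r0h⌉
    have := abs_nonneg ⌈r0s⌉
    have := abs_nonneg ⌈rz⌉
    refine ⟨?_, ?_, ?_, ?_, ?_, ?_, ?_, ?_, ?_, ?_⟩ <;> linarith
  refine ⟨t₁, A, ht1, ?_⟩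
  intro n q D η k l m Rc Rd hG a ha0 h01 h10 f hf R₁ hR1 hR2 rc fc hrc hrc1 hrc2 hfc hc1 hc2
  have a1p := a1_pos hK21 (b7.trans ha0) h01
  have f1 : KL * a 1 ≤ R₁ := mul_of_t (by omega) ht0 t2 a1p hR1
  have f2 : KS * a 1 ≤ R₁ := mul_of_t (by omega) ht0 t3 a1p hR1
  have f3 : 4 * Kd * a 1 ≤ R₁ := mul_of_t (by omega) ht0 t4 a1p hR1
  obtain ⟨⟨i1, i2, i3, i4, i5⟩, ⟨i6, i7, i8⟩, ⟨i9, i10, i11, i12, i13⟩, i14, i15, i16, i17⟩ :=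
    arith hKL hKS hK21 (b7.trans ha0) h01 h10 f1 f3 ((le_max_right _ _).trans (le_max_left _ _))
      ((le_max_left _ _).trans (le_max_right _ _)) hR2 m1 m2
  have a0r : (0 : ℝ) < a 0 := by exact_mod_cast i1
  have a1r : (0 : ℝ) < a 1 := by exact_mod_cast i3
  have hR1r : (0 : ℝ) < R₁ := by exact_mod_cast i4
  have hRcr : (0 : ℝ) < Rc := by exact_mod_cast (lt_of_lt_of_le one_pos hG.pc : 0 < Rc)
  have hNp : 0 < Nn θ P a := Real.exp_pos _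
  have hlow' := hlow n q D η k l m Rc Rd hG a (b1.trans ha0) i9 i11 f hf
  have hsgn' := hsgn n q D η k l m Rc Rd hG a (b2.trans ha0) i10 f hf R₁ f2 i6
  have hPP := hc₂.le.trans hc2
  have hB := mul_nonneg hNp.le hPP
  have hκ : CS * ((a 0 : ℝ) / a 1) ^ αS ≤ min (cL / 2) (ε * cL / 2) := by
    refine hx0' _ (by positivity) (le_trans ?_ hx2)
    rw [div_le_div_iff₀ a1r (by linarith), one_mul, mul_comm]
    exact_mod_cast h01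
  -- the part with a primal arm
  have hbump := two_bump h0 h1 hK21 (b7.trans ha0) i2 h10 hCm1 hf
  have hdiff := hharm n q D η k l m Rc Rd hG a f R₁ (ceil_le' (b8.trans (ha0.trans i2))) i3.le i12
    hbump
  have hhar' := hhar n q D η k l m Rc Rd hG (4 * a 1) R₁ (by linarith) i5 i7
  have hdar' := hdar n q D η k l m Rc Rd hG (4 * a 0) (4 * a 1) (by linarith) i16 i15 i14
  have hnn' := hnn a (b4.trans ha0) i2 h10
  have hyx : Ch * Cn * (CH / c₁) * Cd * (((4 * a 1 : ℤ) : ℝ) / R₁) ^ αH ≤ δ := by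
    refine hx1' _ (by push_cast; positivity) ?_
    push_cast
    rw [div_le_iff₀ hR1r]
    have q3 : (a 1 : ℝ) ≤ x1 / 4 * R₁ := hR1.trans (mul_le_mul_of_nonneg_right t1 hR1r.le)
    linarith
  have hd1 := d1_real hdiff hnn' hc1 hhar' hdar' hyx hc₁ (Pr_nonneg hQ _) hCH
    (Real.rpow_nonneg (by push_cast; positivity) _) hCh hCn hNp hPP
  -- the bridge
  have hrcr : r0s ≤ rc := ceil_le' (b9.trans hrc)
  have hrc0 : (1 : ℝ) ≤ rc := hr0s.trans hrcr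
  have hrci : 1 ≤ rc := by exact_mod_cast hrc0
  have hfc' := mono_K (by linarith) (le_max_left K (Kb K₂)) hrci hfc
  have hbump' := mono_K (by linarith) (le_max_right K (Kb K₂)) (by omega : 1 ≤ 2 * a 1) hbump
  obtain ⟨w1, w2, w3⟩ := geo_d hG i13
  have hrdr : r0s ≤ ((2 * a 1 : ℤ) : ℝ) := ceil_le' (by omega)
  have hΛc : Λ * rc ≤ Rc := mul_of_t hΛ ht1 t6 (by omega) hrc1
  have hml : m < l := by
    have g1 := hG.mR
    have g4 := hG.pd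
    omega
  have hV := hbrS n q D hG.poly hG.enc η k l m rc Rc (2 * a 1) fc (F2 θ f) hG.good hml
    hG.kn hG.lR hrcr hrdr hΛc hrc2 hG.fc w3 hG.oc w1 w2 hfc' hbump'
  obtain ⟨z1, z2⟩ := hzS rc (ceil_le' (b10.trans hrc)) (q l) fc hfc'
  have hz0 : 0 < zS θ (q l) rc fc := lt_of_lt_of_le (mul_pos hcz (Nf_pos _ _ _ _)) z1
  have q1 : (fun ω => Xcd θ q D k l f ω) =
      XG θ q D k (fun z => F2 θ f z - dlt (q l) θ z) := funext fun ω => xcd_eq θ q D k l f ω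
  rw [← q1, ← ft_eq] at hV
  have q5 : Cs * (1 / cz) * Cn2 / c₂ * ((rc : ℝ) / Rc) ^ αs ≤ δ := by
    refine hx2' _ (by positivity) ?_
    rw [div_le_iff₀ hRcr]
    exact hrc1.trans (mul_le_mul_of_nonneg_right t5 hRcr.le)
  have hd2 := d2_real hV (hnn2 a (b5.trans ha0) i2 h10) z1 q5 hc2 hCs
    (Real.rpow_nonneg (by positivity) _) (Nf_pos _ _ _ _) hz0 hNp hc₂ hcz hCn2 hδ.le
  have hfin := brf_data h0 h1 hε hz0 hPP hlow'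
    (hsgn'.trans (mul_le_mul_of_nonneg_right hκ hB)) f1 i17 hd1 hd2 (min_le_left _ _)
    (min_le_right _ _) (hδe.le.trans (min_le_left _ _)) (hδe.le.trans (min_le_right _ _))
  exact ⟨hfin.1, hz0, hfin.2⟩

end Vale.Agent.P167.QB.Brf
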