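import Vale.Agent.P167.QB.Defs

/-!
# P167, general `q`, block Q-BRIDGE: factorisation at `c`

`factC`: on `Iso`, the functional with a bump of mass `- θ` near the flat free boundary point `q l` is the
local functional `FL` times the functional with the point charge `- θ` at `q l`.
-/

namespace Vale.Agent.P167.QB

open Finset Relation Vale.Agent.P167.BR
open Vale.Agent.P167.E6 (IsPolygon Encloses dir face)
open Vale.Agent.P167.H718 (IsXY IsCl Cl isCl_strand)
open Vale.Agent.P167.QX (lo hi exists_xy lo_xy hi_xy wB XB wB_zero gauge_two)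
open Vale.Agent.P167.E2 (dir0 face0 face3 f4_0m ro ro_spec)

variable {D : Finset (ℤ × ℤ)} {ω : Cfg} {n : ℕ} {q : ZMod n → ℤ × ℤ} {A B : Finset Ed} {x y w : ℕ}
  {θ : ℝ} {k l : ℕ} {r R : ℤ}

/-! ### the weights of the strands at full charge -/

theorem gB_cos (θ : ℝ) : Real.cos (θ / 2 + gB θ) = Real.sin θ := gauge_two

theorem wB_hx (hx : 0 < Real.sin θ) (hc : 0 < Real.cos θ) (A : Finset Ed) :
    wB θ (gB θ) q D k A 0 = 1 :=
  wB_zero hx.ne' hc.ne' (gB_cos θ) q D k A

section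

variable (hq : IsPolygon q) (hD : Encloses q D)
include hq hD

/-- A strand with both ends on the free side, with the full charge. -/
theorem wB_full (hx : 0 < Real.sin θ) (hc : 0 < Real.cos θ) (hA : A ∈ pcs ω D)
    (hl : ¬ IsLp D A) (hk : hi q A < k) : wB θ (gB θ) q D k A (-θ) = (2 * Real.cos θ) ^ sg q A := by
  obtain ⟨x, y, h⟩ := exists_xy hq hD hA hl
  have hne := h.ne
  have hsg := sg_xy hq hD hA h
  rw [hi_xy hq hD hA h] at hk
  have hcl := isCl_strand (k := k) hq hD hA hl h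
  have hx2 : x < k := lt_of_le_of_lt (le_max_left _ _) hk
  have hy2 : y < k := lt_of_le_of_lt (le_max_right _ _) hk
  unfold wB
  rw [if_neg hl, if_neg (fun h' => by rw [hi_xy hq hD hA h] at h'; omega), hsg]
  rcases lt_or_gt_of_ne hne with h1 | h1
  · rw [if_neg (fun h' => by have := hcl.1 h'; unfold Cl at this; omega), if_pos h1, zpow_one,
      sub_neg_eq_add, ← two_mul, Real.sin_two_mul]
    field_simp
  · rw [if_pos (hcl.2 (Or.inl ⟨hx2, hy2, h1⟩)), if_neg (by omega), zpow_neg_one, Real.sin_two_mul,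
      two_mul, add_neg_cancel_right]
    field_simp

omit hq hD in
/-- A strand from the free to the wired side, with the full charge. -/
theorem wB_fw (hl : ¬ IsLp D A) (h1 : lo q A < k) (h2 : k ≤ hi q A) :
    wB θ (gB θ) q D k A (-θ) = 0 := by
  unfold wB gB
  rw [if_neg hl, if_pos ⟨h1, h2⟩, show θ / 2 + (θ - Real.pi) / 2 + -θ = -(Real.pi / 2) by ring,
    Real.cos_neg, Real.cos_pi_div_two, zero_div]

/-! ### inner strands -/

section

variable (hF : Flt D (q l) R) (hR : 1 ≤ R) (hl : l < n) (h0 : q 0 ∉ sites (hbox (q l) R))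
include hF hR hl h0

/-- The sides of the flat piece. -/
theorem flat_side {i : ℕ} (h1 : (l : ℤ) - R ≤ i) (h2 : (i : ℤ) < l + R) :
    q i = ((q l).1 + ((i : ℤ) - l), (q l).2) ∧ be q i = ce (q i) 0 := by
  have hr := flat_range hq hD hF hR hl h0
  have key : ∀ i : ℕ, (l : ℤ) - R ≤ i → (i : ℤ) ≤ l + R →
      q i = ((q l).1 + ((i : ℤ) - l), (q l).2) := by
    intro i h1 h2
    rcases le_total l i with h | h
    · have h3 := (walk hq hD hF (i - l) (by omega)).1
      rw [← Nat.cast_add, Nat.add_sub_cancel' h] at h3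
      rw [h3]
      ext
      · simp only [Prod.fst_add]; push_cast [Nat.cast_sub h]; ring
      · simp
    · have h3 := (walk hq hD hF (l - i) (by omega)).2
      rw [← Nat.cast_sub (by omega), Nat.sub_sub_self h] at h3
      rw [h3]
      ext
      · simp only [Prod.fst_sub]; push_cast [Nat.cast_sub h]; ring
      · simp
  refine ⟨key i h1 h2.le, ?_⟩
  have h3 := key (i + 1) (by push_cast; omega) (by push_cast; omega)
  have h4 := ro_spec hq (i : ZMod n)
  have h5 : (((i + 1 : ℕ)) : ZMod n) = (i : ZMod n) + 1 := by push_cast; rfl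
  rw [h5, h4, key i h1 h2.le] at h3
  have h6 : dir (ro q (i : ZMod n)) = (1, 0) := by
    have e1 := congrArg Prod.fst h3
    have e2 := congrArg Prod.snd h3
    simp only [Prod.fst_add, Prod.snd_add] at e1 e2
    push_cast at e1
    ext
    · simp only; omega
    · simp only; omega
  have h7 : ro q (i : ZMod n) = 0 := by
    rw [← dir0] at h6
    exact H718.dirInj h6
  unfold be
  rw [h7]

/-- The inner strands: positions and orientation. -/
theorem inn_xy (hA : A ∈ pcs ω D) (hE : ∀ e ∈ A, e ∈ eds (hbox (q l) R))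
    (hI : ∀ e ∈ A, Inn (q l) R e) (hl' : ¬ IsLp D A) : ∃ x y, IsXY q A x y ∧ (l : ℤ) - R ≤ x ∧
      (x : ℤ) < l + R ∧ (l : ℤ) - R ≤ y ∧ (y : ℤ) < l + R ∧ (LeftIn (q l) A ↔ x < y) := by
  obtain ⟨x, y, h⟩ := exists_xy hq hD hA hl'
  obtain ⟨hxn, hyn, hxA, hyA, hx, hy⟩ := h
  have h : IsXY q A x y := ⟨hxn, hyn, hxA, hyA, hx, hy⟩
  have bx := bd_inn hq hD hF hR hl h0 hxn (hE _ hxA) (hI _ hxA)
  have by' := bd_inn hq hD hF hR hl h0 hyn (hE _ hyA) (hI _ hyA)
  refine ⟨x, y, h, bx.1, bx.2, by'.1, by'.2, ?_⟩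
  obtain ⟨fx1, fx2⟩ := flat_side hq hD hF hR hl h0 bx.1 bx.2
  obtain ⟨fy1, fy2⟩ := flat_side hq hD hF hR hl h0 by'.1 by'.2
  have cx := ce_even hx 0
  have cy := ce_odd hy 0
  rw [← fx2, f4_0m, face0, face3] at cx
  rw [← fy2, f4_0m, face0, face3] at cy
  have ex : (hdv (be q (x : ZMod n))).1 = (q l).1 + ((x : ℤ) - l) := by rw [cx.2.2.1, fx1]
  have ey : (tlv (be q (y : ZMod n))).1 = (q l).1 + ((y : ℤ) - l) := by rw [cy.2.2.1, fy1]
  constructor
  · rintro ⟨e, he, e', he', h1, h2, h3⟩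
    have t1 : tlv e ∉ D := by
      intro h4
      have := (hI e he).mem_tl hF (hE e he) h4
      rw [mem_hbox] at this
      omega
    have t2 : hdv e' ∉ D := by
      intro h4
      have := (hI e' he').mem_hd hF (hE e' he') h4
      rw [mem_hbox] at this
      omega
    have e1 := entry_unique hA he hxA t1 (be_even hq hD hx).2.2.2
    have e2 := exit_unique hA he' hyA t2 (be_odd hq hD hy).2.2.2
    rw [e1, e2, ex, ey] at h3
    omega
  · intro h1
    refine ⟨_, hxA, _, hyA, ?_, ?_, ?_⟩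
    · rw [cx.2.2.2, fx1]; simp
    · rw [cy.2.2.2, fy1]; simp
    · rw [ex, ey]; omega

/-- The weight of an inner piece. -/
theorem wB_inn (hk : (l : ℤ) + R ≤ k) (hA : A ∈ pcs ω D) (hE : ∀ e ∈ A, e ∈ eds (hbox (q l) R))
    (hI : ∀ e ∈ A, Inn (q l) R e) (t : ℝ) :
    wB θ (gB θ) q D k A t = wL θ (q l) (hbox (q l) R) A t := by
  unfold wB wL
  have hlp := isLp_inn hq hD hF hR hl h0 hE hI
  by_cases hl' : IsLp D A
  · rw [if_pos hl', if_pos (hlp.1 hl')]
  · obtain ⟨x, y, h, h1, h2, h3, h4, h5⟩ := inn_xy hq hD hF hR hl h0 hA hE hI hl'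
    have hcl := isCl_strand (k := k) hq hD hA hl' h
    have hne := h.ne
    rw [if_neg hl', if_neg (fun h' => hl' (hlp.2 h')),
      if_neg (fun h' => by rw [lo_xy hq hD hA h, hi_xy hq hD hA h] at h'; omega)]
    by_cases hL : LeftIn (q l) A
    · have h6 := h5.1 hL
      rw [if_pos hL, if_neg (fun h' => by have := hcl.1 h'; unfold Cl at this; omega)]
    · have h6 : ¬ x < y := fun h' => hL (h5.2 h')
      rw [if_neg hL, if_pos (hcl.2 (by unfold Cl; omega))]

/-- The sign of an inner strand. -/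
theorem slc_inn (hA : A ∈ pcs ω D) (hE : ∀ e ∈ A, e ∈ eds (hbox (q l) R))
    (hI : ∀ e ∈ A, Inn (q l) R e) (hl' : ¬ IsLp D A) : slc (q l) A = sg q A := by
  obtain ⟨x, y, h, -, -, -, -, h5⟩ := inn_xy hq hD hF hR hl h0 hA hE hI hl'
  rw [sg_xy hq hD hA h]
  unfold slc
  by_cases hL : LeftIn (q l) A
  · rw [if_pos hL, if_pos (h5.1 hL)]
  · rw [if_neg hL, if_neg (fun h' => hL (h5.2 h'))]

open Classical in
/-- The exponent of an inner piece. -/
theorem exp_inn (hA : A ∈ pcs ω D) (hE : ∀ e ∈ A, e ∈ eds (hbox (q l) R))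
    (hI : ∀ e ∈ A, Inn (q l) R e) :
    (if Sep (hbox (q l) R) A (q l) (top (q l) R) then slc (q l) A else 0) =
      if Ard q l A then sg q A else 0 := by
  have hs : q l ∈ sites (hbox (q l) R) := by
    rw [mem_sites_hbox hR]
    omega
  have h1 := sep_inn hq hD hF hR hl h0 hA hE hI hs
  have h2 := sep_ard hq hD hA hl.le
  by_cases h : Ard q l A
  · have hl' : ¬ IsLp D A := fun h' => ard_lp hq hD hA h' h
    rw [if_pos h, if_pos (h1.1 (h2.2 h)), slc_inn hq hD hF hR hl h0 hA hE hI hl']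
  · rw [if_neg h, if_neg (fun h' => h (h2.1 (h1.2 h')))]

end

/-! ### masses -/

omit hq hD in
theorem mass_congr {p : ℤ × ℤ} {f g : ℤ × ℤ → ℝ} (h : ∀ z, f z = g z) :
    mass D p f A = mass D p g A := by
  rw [funext h]

omit hq hD in
theorem mass_sub' {p : ℤ × ℤ} (f g : ℤ × ℤ → ℝ) :
    mass D p (fun z => f z - g z) A = mass D p f A - mass D p g A := mass_sub (f := f) (g := g)

open Classical in
/-- The mass of the point charge. -/
theorem mass_dlt (hl : l ≤ n) (hA : A ∈ pcs ω D) (hs : q l ∈ sites D) (t : ℝ) :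
    mass D (q 0) (dlt (q l) t) A = if Ard q l A then t else 0 := by
  have h1 := sep_ard hq hD hA hl
  unfold mass dlt
  rw [sum_eq_single (q l)]
  · by_cases h : Ard q l A
    · rw [if_pos (h1.2 h), if_pos rfl, if_pos h]
    · rw [if_neg (fun h' => h (h1.1 h')), if_neg h]
  · intro z _ hz
    rw [if_neg hz, ite_self]
  · intro h
    exact absurd hs h

open Classical in
/-- The mass of a bump, for the pieces which do not visit the half box. -/
theorem mass_off {t : ℝ} {f : ℤ × ℤ → ℝ} (hF : Flt D (q l) R) (hr : 1 ≤ r) (hrR : r ≤ R)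
    (hl : l ≤ n) (hf : ∀ z, f z ≠ 0 → z ∈ sites (hbox (q l) r)) (hs : ∑ᶠ z, f z = t)
    (hA : A ∈ pcs ω D) (hV : ¬ Vz (hbox (q l) r) A) :
    mass D (q 0) f A = if Ard q l A then t else 0 := by
  have hZD : hbox (q l) r ⊆ D := (hbox_mono hrR).trans (hbox_sub hF)
  have hqs : q l ∈ sites (hbox (q l) r) := by
    rw [mem_sites_hbox hr]
    omega
  rw [mass_zone hZD hf (P := Sep D A (q l) (q 0))
    (fun z hz => sep_zone hZD (econ_hbox hr) hV hz hqs), hs]
  have h1 := sep_ard hq hD hA hl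
  by_cases h : Ard q l A
  · rw [if_pos (h1.2 h), if_pos h]
  · rw [if_neg (fun h' => h (h1.1 h')), if_neg h]

/-- **Factorisation at `c = q l`.** `F` is any charge which has no mass for the inner pieces. -/
theorem factC (hx : 0 < Real.sin θ) (hc : 0 < Real.cos θ) (hF : Flt D (q l) R) (hr : 1 ≤ r)
    (hrR : r ≤ R) (hl : l < n) (h0 : q 0 ∉ sites (hbox (q l) R)) (hk : (l : ℤ) + R ≤ k)
    {f F : ℤ × ℤ → ℝ} (hf : ∀ z, f z ≠ 0 → z ∈ sites (hbox (q l) r)) (hs : ∑ᶠ z, f z = θ)
    (hI : Iso (q l) r R ω)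
    (hFm : ∀ A ∈ pcs ω D, Vz (hbox (q l) r) A → mass D (q 0) F A = 0) :
    XG θ q D k (fun z => F z - f z) ω =
      FL θ (q l) r R (-1) (-f) ω * XG θ q D k (fun z => F z - dlt (q l) θ z) ω := by
  classical
  have hR : 1 ≤ R := by omega
  have hf' : ∀ z, f z ≠ 0 → z ∈ sites (hbox (q l) R) := fun z hz =>
    sites_mono (hbox_mono hrR) (hf z hz)
  have hfn : ∀ z, (-f) z ≠ 0 → z ∈ sites (hbox (q l) R) := fun z hz =>
    hf' z (by simpa using hz)
  have hqD : q l ∈ sites D := sites_mono (hbox_sub hF) (by rw [mem_sites_hbox hR]; omega)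
  have h2c : (0 : ℝ) < 2 * Real.cos θ := by linarith
  unfold XG QX.XB
  rw [← prod_filter_mul_prod_filter_not (pcs ω D) (Vz (hbox (q l) r))
      (fun A => wB θ (gB θ) q D k A (mass D (q 0) (fun z => F z - f z) A)),
    ← prod_filter_mul_prod_filter_not (pcs ω D) (Vz (hbox (q l) r))
      (fun A => wB θ (gB θ) q D k A (mass D (q 0) (fun z => F z - dlt (q l) θ z) A))]
  have e2 : ∏ A ∈ (pcs ω D).filter (fun A => ¬ Vz (hbox (q l) r) A),
      wB θ (gB θ) q D k A (mass D (q 0) (fun z => F z - f z) A) =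
      ∏ A ∈ (pcs ω D).filter (fun A => ¬ Vz (hbox (q l) r) A),
      wB θ (gB θ) q D k A (mass D (q 0) (fun z => F z - dlt (q l) θ z) A) := by
    refine prod_congr rfl fun A hA => ?_
    rw [mem_filter] at hA
    rw [mass_sub', mass_sub', mass_off hq hD hF hr hrR hl.le hf hs hA.1 hA.2,
      mass_dlt hq hD hl.le hA.1 hqD]
  have e1 : ∏ A ∈ (pcs ω D).filter (Vz (hbox (q l) r)),
      wB θ (gB θ) q D k A (mass D (q 0) (fun z => F z - f z) A) =
      FL θ (q l) r R (-1) (-f) ω * ∏ A ∈ (pcs ω D).filter (Vz (hbox (q l) r)),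
      wB θ (gB θ) q D k A (mass D (q 0) (fun z => F z - dlt (q l) θ z) A) := by
    unfold FL
    rw [if_pos hI]
    have e3 : (pcs ω (hbox (q l) R)).filter (Vz (hbox (q l) r)) =
        (pcs ω D).filter (Vz (hbox (q l) r)) := by
      ext A
      rw [mem_filter, mem_filter]
      exact (iso_iff hF hrR hI).symm
    rw [e3, ← prod_mul_distrib]
    refine prod_congr rfl fun A hA => ?_
    rw [mem_filter] at hA
    obtain ⟨hE, hInn⟩ := inn_of_iso hq hD hF hR hl h0 hrR hI hA.1 hA.2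
    have m0 := hFm A hA.1 hA.2
    have m1 := mass_inn hq hD hF hR hl h0 hA.1 hE hInn hfn
    rw [mass_sub', mass_sub', m0, mass_dlt hq hD hl.le hA.1 hqD, zero_sub, zero_sub,
      exp_inn hq hD hF hR hl h0 hA.1 hE hInn, ← wB_inn (θ := θ) hq hD hF hR hl h0 hk hA.1 hE hInn,
      ← m1, mass_neg]
    by_cases ha : Ard q l A
    · have hl' : ¬ IsLp D A := fun h' => ard_lp hq hD hA.1 h' ha
      obtain ⟨x, y, h, h1, h2, h3, h4, -⟩ := inn_xy hq hD hF hR hl h0 hA.1 hE hInn hl'
      have hhi : hi q A < k := by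
        rw [hi_xy hq hD hA.1 h]
        omega
      rw [if_pos ha, if_pos ha, wB_full hq hD hx hc hA.1 hl' hhi, mul_assoc,
        ← zpow_add₀ h2c.ne', neg_one_mul, neg_add_cancel, zpow_zero, mul_one]
    · rw [if_neg ha, if_neg ha, neg_zero, wB_hx hx hc, mul_zero, zpow_zero, mul_one, mul_one]
  rw [e1, e2]
  ring

end

end Vale.Agent.P167.QB
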