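import Vale.Agent.P167.QB.FactC

/-!
# P167, general `q`, block Q-BRIDGE: factorisation at `d`

`factD : S_factD θ` for `0 < θ ≤ π / 3`: on `Iso`, the functional with a bump of mass `θ` near the flat free
boundary point `q m` and the point charge `- θ` at `q l`, `m < l < k`, is the local functional `FL` times a
power of `2 cos θ` times the state function `Stf`.
-/

namespace Vale.Agent.P167.QB

open Finset Relation Vale.Agent.P167.BR
open Vale.Agent.P167.E6 (IsPolygon Encloses)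
open Vale.Agent.P167.H718 (IsXY lft pot_lft side_const IsCl Cl isCl_strand)
open Vale.Agent.P167.QX (lo hi exists_xy lo_xy hi_xy wB XB)

variable {D : Finset (ℤ × ℤ)} {ω : Cfg} {n : ℕ} {q : ZMod n → ℤ × ℤ} {A B C : Finset Ed}
  {θ : ℝ} {k l m : ℕ} {r R : ℤ}

theorem prod_zpow_sum {ι : Type*} (s : Finset ι) (g : ι → ℤ) {a : ℝ} (ha : a ≠ 0) :
    ∏ i ∈ s, a ^ g i = a ^ ∑ i ∈ s, g i := by
  classical
  induction s using Finset.induction_on with
  | empty => simp
  | insert i s hi ih => rw [prod_insert hi, sum_insert hi, ih, zpow_add₀ ha]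

theorem sin_three_div (hx : 0 < Real.sin θ) (hc : 0 < Real.cos θ) :
    Real.sin (2 * θ + θ) / Real.sin (2 * θ) * (2 * Real.cos θ) ^ (-1 : ℤ) =
      (4 * Real.cos θ ^ 2 - 1) / (4 * Real.cos θ ^ 2) := by
  rw [Real.sin_add, Real.sin_two_mul, Real.cos_two_mul, zpow_neg_one]
  field_simp
  ring

section

variable (hq : IsPolygon q) (hD : Encloses q D)
include hq hD

/-- A strand with both ends on the free side, with the full positive charge. -/
theorem wB_pos (hA : A ∈ pcs ω D) (hl : ¬ IsLp D A) (hk : hi q A < k) :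
    wB θ (gB θ) q D k A θ =
      if sg q A = 1 then 0 else Real.sin (2 * θ + θ) / Real.sin (2 * θ) := by
  obtain ⟨x, y, h⟩ := exists_xy hq hD hA hl
  have hne := h.ne
  have hsg := sg_xy hq hD hA h
  rw [hi_xy hq hD hA h] at hk
  have hcl := isCl_strand (k := k) hq hD hA hl h
  have hx2 : x < k := lt_of_le_of_lt (le_max_left _ _) hk
  have hy2 : y < k := lt_of_le_of_lt (le_max_right _ _) hk
  unfold wB
  rw [if_neg hl, if_neg (fun h' => by rw [hi_xy hq hD hA h] at h'; omega), hsg]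
  rcases lt_or_gt_of_ne hne with h1 | h1
  · rw [if_neg (fun h' => by have := hcl.1 h'; unfold Cl at this; omega), if_pos h1, if_pos rfl,
      sub_self, Real.sin_zero, zero_div]
  · rw [if_pos (hcl.2 (Or.inl ⟨hx2, hy2, h1⟩)), if_neg (by omega : ¬ x < y),
      if_neg (by norm_num : ¬ (-1 : ℤ) = 1)]

/-- A strand around a strand which separates the zone `Z` from the base does not visit `Z`. -/
theorem not_vz_out {Z : Finset (ℤ × ℤ)} (hZD : Z ⊆ D) (hZ : ECon Z) (hm : m ≤ n)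
    (hmZ : q m ∈ sites Z) (hB : B ∈ pcs ω D) (hC : C ∈ pcs ω D) (hBm : Ard q m B)
    (hBV : ¬ Vz Z B) (hCl : ¬ IsLp D C) (hlo : lo q C < lo q B) : ¬ Vz Z C := by
  rintro ⟨e, he, heZ⟩
  have hBl : ¬ IsLp D B := fun h => ard_lp hq hD hB h hBm
  obtain ⟨u, hu⟩ := exists_pot hq hD hB
  obtain ⟨x, y, h⟩ := exists_xy hq hD hB hBl
  obtain ⟨x', y', h'⟩ := exists_xy hq hD hC hCl
  have e1 : u (q m) = u (ls e) := pot_zone hu hZD hBV (hZ _ hmZ _ (ls_mem_sites heZ))
  have e2 : u (q m) = u (rs e) := pot_zone hu hZD hBV (hZ _ hmZ _ (rs_mem_sites heZ))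
  have s1 := (side_const hB hu hC he h'.2.2.1).1
  have s2 := (side_const hB hu hC he h'.2.2.2.1).2
  rw [(be_even hq hD h'.2.2.2.2.1).1] at s1
  rw [(be_odd hq hD h'.2.2.2.2.2).1] at s2
  have hlo2 : u (q ((lo q C : ℕ) : ZMod n)) = u (q m) := by
    rw [lo_xy hq hD hC h']
    rcases le_total x' y' with h1 | h1
    · rw [min_eq_left h1, s1, e1]
    · rw [min_eq_right h1, s2, e2]
  have hlon : lo q C ≤ n := by
    rw [lo_xy hq hD hC h']
    have := h'.1
    omega
  have p1 := pot_lft hq hD hB hu h hm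
  have p2 := pot_lft hq hD hB hu h hlon
  rw [p1, p2] at hlo2
  have h3 := (ard_xy hq hD hB h).1 hBm
  rw [lo_xy hq hD hB h] at hlo
  have hne := h.ne
  have e3 : lft x y m ↔ (x < y ∧ (m ≤ x ∨ y < m)) ∨ (y < x ∧ y < m ∧ m ≤ x) := Iff.rfl
  have e4 : lft x y (lo q C) ↔ (x < y ∧ (lo q C ≤ x ∨ y < lo q C)) ∨
    (y < x ∧ y < lo q C ∧ lo q C ≤ x) := Iff.rfl
  by_cases a1 : lft x y m <;> by_cases a2 : lft x y (lo q C) <;>
    simp only [a1, a2, if_true, if_false] at hlo2 <;> rw [e3] at a1 <;> rw [e4] at a2 <;> omega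

open Classical in
/-- Between two strands around `m` of sign `- 1` there is one of sign `1`. -/
theorem exists_between {Z : Finset (ℤ × ℤ)} (hZD : Z ⊆ D) (hZ : ECon Z) (hml : m ≤ l) (hm : m ≤ n)
    (hmZ : q m ∈ sites Z) (hA : A ∈ pcs ω D) (hB : B ∈ pcs ω D) (hAo : MO q Z m l A)
    (hBo : MO q Z m l B) (h1 : sg q A = -1) (h2 : sg q B = -1) (hlt : lo q A < lo q B) :
    ∃ C ∈ pcs ω D, MO q Z m l C ∧ sg q C = 1 := by
  obtain ⟨hAm, hAn, hAV⟩ := hAo
  obtain ⟨hBm, hBn, hBV⟩ := hBo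
  have hAl : ¬ IsLp D A := fun h => ard_lp hq hD hA h hAm
  have hBl : ¬ IsLp D B := fun h => ard_lp hq hD hB h hBm
  unfold Ard at hAm hAn hBm hBn
  have hs1 := sum_alt hq hD ω (w := lo q A) (by omega)
  have hs2 := sum_alt hq hD ω (w := lo q B) (by omega)
  have hse : sgm q (lo q A) = sgm q (lo q B) := by
    have c1 := sgm_cases hq (lo q A)
    have c2 := sgm_cases hq (lo q B)
    have c3 : ep q (lo q A) = -1 := h1
    have c4 : ep q (lo q B) = -1 := h2
    rw [c3] at c1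
    rw [c4] at c2
    rcases c1 with ⟨c5, c6⟩ | ⟨c5, c6⟩ <;> rcases c2 with ⟨c7, c8⟩ | ⟨c7, c8⟩ <;> omega
  have hsp : (pcs ω D).filter (Ard q (lo q B)) = (pcs ω D).filter (Ard q (lo q A)) ∪
      (pcs ω D).filter (fun C => lo q A ≤ lo q C ∧ Ard q (lo q B) C) := by
    ext C
    simp only [mem_filter, mem_union]
    constructor
    · rintro ⟨hC, h3⟩
      by_cases h4 : lo q A ≤ lo q C
      · exact Or.inr ⟨hC, h4, h3⟩
      · refine Or.inl ⟨hC, ?_⟩
        unfold Ard at *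
        omega
    · rintro (⟨hC, h3⟩ | ⟨hC, -, h3⟩)
      · refine ⟨hC, ?_⟩
        have hCl : ¬ IsLp D C := fun h => ard_lp hq hD hC h h3
        have hne : A ≠ C := by
          rintro rfl
          exact absurd h3.1 (lt_irrefl _)
        obtain ⟨h4, h5, h6, h7, h8, h9⟩ := non_cross hq hD hA hC hAl hCl hne
        unfold Ard at *
        omega
      · exact ⟨hC, h3⟩
  have hdis : Disjoint ((pcs ω D).filter (Ard q (lo q A)))
      ((pcs ω D).filter (fun C => lo q A ≤ lo q C ∧ Ard q (lo q B) C)) := by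
    rw [disjoint_left]
    intro C hC hC'
    rw [mem_filter] at hC hC'
    have := hC.2.1
    omega
  rw [hsp, sum_union hdis, hs1, hse] at hs2
  have hs3 : ∑ C ∈ (pcs ω D).filter (fun C => lo q A ≤ lo q C ∧ Ard q (lo q B) C), sg q C = 0 := by
    omega
  by_contra hcon
  push Not at hcon
  have hall : ∀ C ∈ (pcs ω D).filter (fun C => lo q A ≤ lo q C ∧ Ard q (lo q B) C),
      sg q C = -1 := by
    intro C hC
    rw [mem_filter] at hC
    obtain ⟨hC, h3, h4⟩ := hC
    rcases ep_cases (q := q) (lo q C) with h5 | h5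
    · exfalso
      have hCl : ¬ IsLp D C := fun h => ard_lp hq hD hC h h4
      have hneA : A ≠ C := by
        rintro rfl
        have : sg q A = 1 := h5
        omega
      have hneB : C ≠ B := by
        rintro rfl
        exact absurd h4.1 (lt_irrefl _)
      obtain ⟨a1, a2, a3, a4, a5, a6⟩ := non_cross hq hD hA hC hAl hCl hneA
      obtain ⟨b1, b2, b3, b4, b5, b6⟩ := non_cross hq hD hC hB hCl hBl hneB
      refine hcon C hC ⟨?_, ?_, ?_⟩ h5
      · unfold Ard at *; omega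
      · unfold Ard at *; omega
      · exact not_vz_out hq hD hZD hZ hm hmZ hB hC hBm hBV hCl h4.1
    · exact h5
  rw [sum_congr rfl hall, sum_const, nsmul_eq_mul] at hs3
  have hcard : 0 < #((pcs ω D).filter (fun C => lo q A ≤ lo q C ∧ Ard q (lo q B) C)) := by
    rw [card_pos]
    refine ⟨A, ?_⟩
    rw [mem_filter]
    refine ⟨hA, le_rfl, ?_⟩
    unfold Ard
    omega
  have : (0 : ℤ) < #((pcs ω D).filter (fun C => lo q A ≤ lo q C ∧ Ard q (lo q B) C)) := by
    exact_mod_cast hcard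
  omega

/-- If all strands around only `m` have sign `- 1` there is at most one. -/
theorem mo_unique {Z : Finset (ℤ × ℤ)} (hZD : Z ⊆ D) (hZ : ECon Z) (hml : m ≤ l) (hm : m ≤ n)
    (hmZ : q m ∈ sites Z) (hall : ∀ A ∈ pcs ω D, MO q Z m l A → sg q A = -1) (hA : A ∈ pcs ω D)
    (hB : B ∈ pcs ω D) (hAo : MO q Z m l A) (hBo : MO q Z m l B) : A = B := by
  by_contra hne
  have hAl : ¬ IsLp D A := fun h => ard_lp hq hD hA h hAo.1
  have hBl : ¬ IsLp D B := fun h => ard_lp hq hD hB h hBo.1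
  have h1 := (non_cross hq hD hA hB hAl hBl hne).2.1
  rcases lt_or_gt_of_ne h1 with h2 | h2
  · obtain ⟨C, hC, hCo, h3⟩ := exists_between hq hD hZD hZ hml hm hmZ hA hB hAo hBo
      (hall A hA hAo) (hall B hB hBo) h2
    have := hall C hC hCo
    omega
  · obtain ⟨C, hC, hCo, h3⟩ := exists_between hq hD hZD hZ hml hm hmZ hB hA hBo hAo
      (hall B hB hBo) (hall A hA hAo) h2
    have := hall C hC hCo
    omega

end

open Classical in
/-- The factor of a strand around `m` only. -/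
noncomputable def gmf (θ : ℝ) (q : ZMod n → ℤ × ℤ) (m l : ℕ) (A : Finset Ed) : ℝ :=
  if Ard q m A ∧ ¬ Ard q l A then
    (if sg q A = 1 then 0 else Real.sin (2 * θ + θ) / Real.sin (2 * θ)) else 1

open Classical in
/-- The factor of a strand around `l` only. -/
noncomputable def glf (θ : ℝ) (q : ZMod n → ℤ × ℤ) (k m l : ℕ) (A : Finset Ed) : ℝ :=
  if Ard q l A ∧ ¬ Ard q m A then
    (if hi q A < k then (2 * Real.cos θ) ^ sg q A else 0) else 1

open Classical in
/-- The exponent of the visitors. -/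
noncomputable def sVf (q : ZMod n → ℤ × ℤ) (D Z : Finset (ℤ × ℤ)) (m : ℕ) (ω : Cfg) : ℤ :=
  ∑ A ∈ (pcs ω D).filter (Vz Z), if Ard q m A then sg q A else 0

open Classical in
/-- The exponent of the strands around `m` only. -/
noncomputable def smf (q : ZMod n → ℤ × ℤ) (D Z : Finset (ℤ × ℤ)) (m l : ℕ) (ω : Cfg) : ℤ :=
  ∑ A ∈ (pcs ω D).filter (fun A => ¬ Vz Z A), if Ard q m A ∧ ¬ Ard q l A then sg q A else 0

open Classical in
/-- The exponent of the strands around `l` only. -/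
noncomputable def slf (q : ZMod n → ℤ × ℤ) (D Z : Finset (ℤ × ℤ)) (m l : ℕ) (ω : Cfg) : ℤ :=
  ∑ A ∈ (pcs ω D).filter (fun A => ¬ Vz Z A), if Ard q l A ∧ ¬ Ard q m A then sg q A else 0

section

variable (hq : IsPolygon q) (hD : Encloses q D)
include hq hD

theorem gm_gl (hx : 0 < Real.sin θ) (hc : 0 < Real.cos θ) (hml : m < l) (hlk : l < k)
    (hA : A ∈ pcs ω D) :
    wB θ (gB θ) q D k A ((open Classical in if Ard q m A then θ else 0) -
      (open Classical in if Ard q l A then θ else 0)) = gmf θ q m l A * glf θ q k m l A := by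
  classical
  unfold gmf glf
  by_cases a1 : Ard q m A <;> by_cases a2 : Ard q l A
  · rw [if_pos a1, if_pos a2, if_neg (fun h => h.2 a2), if_neg (fun h => h.2 a1), sub_self,
      wB_hx hx hc, one_mul]
  · have hl' : ¬ IsLp D A := fun h' => ard_lp hq hD hA h' a1
    have hhi : hi q A < k := by unfold Ard at a1 a2; omega
    rw [if_pos a1, if_neg a2, if_pos (show Ard q m A ∧ ¬ Ard q l A from ⟨a1, a2⟩),
      if_neg (show ¬ (Ard q l A ∧ ¬ Ard q m A) from fun h => a2 h.1), sub_zero,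
      wB_pos hq hD hA hl' hhi, mul_one]
  · have hl' : ¬ IsLp D A := fun h' => ard_lp hq hD hA h' a2
    rw [if_neg a1, if_pos a2, if_neg (fun h => a1 h.1), if_pos ⟨a2, a1⟩, zero_sub, one_mul]
    by_cases hhi : hi q A < k
    · rw [if_pos hhi, wB_full hq hD hx hc hA hl' hhi]
    · rw [if_neg hhi]
      exact wB_fw hl' (by unfold Ard at a2; omega) (by omega)
  · rw [if_neg a1, if_neg a2, if_neg (fun h => a1 h.1), if_neg (fun h => a2 h.1), sub_zero,
      wB_hx hx hc, one_mul]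

omit hq hD in
open Classical in
theorem prod_gl {Z : Finset (ℤ × ℤ)} (hc : 0 < Real.cos θ)
    (hvis : ∀ A ∈ pcs ω D, Vz Z A → ¬ Ard q l A) :
    ∏ A ∈ (pcs ω D).filter (fun A => ¬ Vz Z A), glf θ q k m l A =
      if (∀ A ∈ pcs ω D, Ard q l A → ¬ Ard q m A → hi q A < k) then
        (2 * Real.cos θ) ^ slf q D Z m l ω else 0 := by
  have h2c : (2 * Real.cos θ) ≠ 0 := by positivity
  split_ifs with h1
  · unfold slf
    rw [← prod_zpow_sum _ _ h2c]
    refine prod_congr rfl fun A hA => ?_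
    rw [mem_filter] at hA
    unfold glf
    by_cases h2 : Ard q l A ∧ ¬ Ard q m A
    · rw [if_pos h2, if_pos h2, if_pos (h1 A hA.1 h2.1 h2.2)]
    · rw [if_neg h2, if_neg h2, zpow_zero]
  · push Not at h1
    obtain ⟨A, hA, h2, h3, h4⟩ := h1
    have hAV : ¬ Vz Z A := fun hV => hvis A hA hV h2
    refine prod_eq_zero (mem_filter.2 ⟨hA, hAV⟩) ?_
    unfold glf
    rw [if_pos ⟨h2, h3⟩, if_neg (by omega)]

open Classical in
theorem prod_gm {Z : Finset (ℤ × ℤ)} (hx : 0 < Real.sin θ) (hc : 0 < Real.cos θ) (hZD : Z ⊆ D)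
    (hZ : ECon Z) (hml : m ≤ l) (hm : m ≤ n) (hmZ : q m ∈ sites Z) :
    (∏ A ∈ (pcs ω D).filter (fun A => ¬ Vz Z A), gmf θ q m l A) *
      (2 * Real.cos θ) ^ smf q D Z m l ω =
      if (∀ A ∈ pcs ω D, ¬ MO q Z m l A) then 1
      else if (∃ A ∈ pcs ω D, MO q Z m l A ∧ sg q A = -1 ∧
        ∀ B ∈ pcs ω D, MO q Z m l B → B = A) then
        (4 * Real.cos θ ^ 2 - 1) / (4 * Real.cos θ ^ 2) else 0 := by
  have hmo : ∀ A ∈ (pcs ω D).filter (fun A => ¬ Vz Z A),
      ((Ard q m A ∧ ¬ Ard q l A) ↔ MO q Z m l A) := by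
    intro A hA
    rw [mem_filter] at hA
    exact ⟨fun h => ⟨h.1, h.2, hA.2⟩, fun h => ⟨h.1, h.2.1⟩⟩
  split_ifs with h1 h2
  · have t1 : smf q D Z m l ω = 0 := sum_eq_zero fun A hA => by
      rw [if_neg]
      intro h3
      exact h1 A (mem_filter.1 hA).1 ((hmo A hA).1 h3)
    rw [t1, zpow_zero, mul_one]
    refine prod_eq_one fun A hA => ?_
    unfold gmf
    rw [if_neg]
    intro h3
    exact h1 A (mem_filter.1 hA).1 ((hmo A hA).1 h3)
  · obtain ⟨A, hA, h3, h4, h5⟩ := h2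
    have hAf : A ∈ (pcs ω D).filter (fun A => ¬ Vz Z A) := mem_filter.2 ⟨hA, h3.2.2⟩
    have t1 : smf q D Z m l ω = -1 := by
      unfold smf
      rw [sum_eq_single_of_mem A hAf]
      · rw [if_pos ⟨h3.1, h3.2.1⟩, h4]
      · intro B hB hne
        rw [if_neg]
        intro h6
        exact hne (h5 B (mem_filter.1 hB).1 ((hmo B hB).1 h6))
    have t2 : ∏ A ∈ (pcs ω D).filter (fun A => ¬ Vz Z A), gmf θ q m l A =
        Real.sin (2 * θ + θ) / Real.sin (2 * θ) := by
      rw [prod_eq_single_of_mem A hAf]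
      · unfold gmf
        rw [if_pos ⟨h3.1, h3.2.1⟩, if_neg (by omega)]
      · intro B hB hne
        unfold gmf
        rw [if_neg]
        intro h6
        exact hne (h5 B (mem_filter.1 hB).1 ((hmo B hB).1 h6))
    rw [t1, t2]
    exact sin_three_div hx hc
  · push Not at h1 h2
    obtain ⟨A, hA, hAo⟩ := h1
    have hex : ∃ B ∈ pcs ω D, MO q Z m l B ∧ sg q B = 1 := by
      by_contra hcon
      push Not at hcon
      have hall : ∀ B ∈ pcs ω D, MO q Z m l B → sg q B = -1 := by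
        intro B hB hBo
        rcases ep_cases (q := q) (lo q B) with h5 | h5
        · exact absurd h5 (hcon B hB hBo)
        · exact h5
      obtain ⟨B, hB, hBo, hne⟩ := h2 A hA hAo (hall A hA hAo)
      exact hne (mo_unique hq hD hZD hZ hml hm hmZ hall hB hA hBo hAo)
    obtain ⟨B, hB, hBo, h6⟩ := hex
    rw [prod_eq_zero (mem_filter.2 ⟨hB, hBo.2.2⟩), zero_mul]
    unfold gmf
    rw [if_pos ⟨hBo.1, hBo.2.1⟩, if_pos h6]

theorem sum_slf {Z : Finset (ℤ × ℤ)} (hl : l ≤ n) (hm : m ≤ n)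
    (hvis : ∀ A ∈ pcs ω D, Vz Z A → ¬ Ard q l A) :
    slf q D Z m l ω = sgm q l - sgm q m + sVf q D Z m ω + smf q D Z m l ω := by
  classical
  have t1 := sum_alt hq hD ω (w := l) hl
  have t2 := sum_alt hq hD ω (w := m) hm
  rw [sum_filter] at t1 t2
  rw [← t1, ← t2, ← sum_filter_add_sum_filter_not (pcs ω D) (Vz Z)
    (fun A => if Ard q l A then sg q A else 0),
    ← sum_filter_add_sum_filter_not (pcs ω D) (Vz Z)
    (fun A => if Ard q m A then sg q A else 0)]
  have t3 : ∑ A ∈ (pcs ω D).filter (Vz Z), (if Ard q l A then sg q A else 0) = 0 := by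
    refine sum_eq_zero fun A hA => ?_
    rw [mem_filter] at hA
    rw [if_neg (hvis A hA.1 hA.2)]
  have t4 : slf q D Z m l ω - smf q D Z m l ω =
      ∑ A ∈ (pcs ω D).filter (fun A => ¬ Vz Z A), (if Ard q l A then sg q A else 0) -
      ∑ A ∈ (pcs ω D).filter (fun A => ¬ Vz Z A), (if Ard q m A then sg q A else 0) := by
    unfold slf smf
    rw [← sum_sub_distrib, ← sum_sub_distrib]
    refine sum_congr rfl fun A _ => ?_
    by_cases a1 : Ard q m A <;> by_cases a2 : Ard q l A <;> simp [a1, a2]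
  have t5 : sVf q D Z m ω = ∑ A ∈ (pcs ω D).filter (Vz Z), (if Ard q m A then sg q A else 0) := by
    unfold sVf
    rfl
  rw [t3, t5]
  linarith

end

open Classical in
theorem stf_eq (Z : Finset (ℤ × ℤ)) : Stf θ q D Z k m l ω =
    (if (∀ A ∈ pcs ω D, ¬ MO q Z m l A) then 1
    else if (∃ A ∈ pcs ω D, MO q Z m l A ∧ sg q A = -1 ∧
      ∀ B ∈ pcs ω D, MO q Z m l B → B = A) then
      (4 * Real.cos θ ^ 2 - 1) / (4 * Real.cos θ ^ 2) else 0) *
    (if (∀ A ∈ pcs ω D, Ard q l A → ¬ Ard q m A → hi q A < k) then 1 else 0) := by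
  unfold Stf St0 St1
  by_cases h1 : ∀ A ∈ pcs ω D, ¬ MO q Z m l A
  · by_cases h3 : ∀ A ∈ pcs ω D, Ard q l A → ¬ Ard q m A → hi q A < k
    · rw [if_pos ⟨h1, h3⟩, if_pos h1, if_pos h3, one_mul]
    · rw [if_neg (fun h => h3 h.2), if_neg (fun h => h3 h.2), if_neg h3, mul_zero]
  · rw [if_neg (fun h => h1 h.1), if_neg h1]
    by_cases h2 : ∃ A ∈ pcs ω D, MO q Z m l A ∧ sg q A = -1 ∧
        ∀ B ∈ pcs ω D, MO q Z m l B → B = A
    · rw [if_pos h2]
      by_cases h3 : ∀ A ∈ pcs ω D, Ard q l A → ¬ Ard q m A → hi q A < k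
      · rw [if_pos ⟨h2, h3⟩, if_pos h3, mul_one]
      · rw [if_neg (fun h => h3 h.2), if_neg h3, mul_zero]
    · rw [if_neg (fun h => h2 h.1), if_neg h2, zero_mul]

/-- **Factorisation at `d = q m`.** -/
theorem factD (h0t : 0 < θ) (h1t : θ ≤ Real.pi / 3) : S_factD θ := by
  classical
  intro n q D hq hD k m l hlk hkn r R hr hrR hF h0 hml f hf hs ω hI
  have hpi := Real.pi_pos
  have hx : 0 < Real.sin θ := Real.sin_pos_of_pos_of_lt_pi h0t (by linarith)
  have hc : 0 < Real.cos θ := Real.cos_pos_of_mem_Ioo ⟨by linarith, by linarith⟩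
  have h2c : (2 * Real.cos θ) ≠ 0 := by positivity
  have hR : 1 ≤ R := by omega
  have hmn : m < n := by omega
  have hln : l < n := by omega
  have hmk : (m : ℤ) + R ≤ k := by omega
  have hZD : hbox (q m) r ⊆ D := (hbox_mono hrR).trans (hbox_sub hF)
  have hmZ : q m ∈ sites (hbox (q m) r) := by
    rw [mem_sites_hbox hr]
    omega
  have hqlD : q l ∈ sites D := by
    rcases be_sides hq (l : ZMod n) with ⟨h1, -⟩ | ⟨h1, -⟩
    · rw [← h1]; exact ls_mem_sites (be_mem hq hD _)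
    · rw [← h1]; exact rs_mem_sites (be_mem hq hD _)
  have hf' : ∀ z, f z ≠ 0 → z ∈ sites (hbox (q m) R) := fun z hz =>
    sites_mono (hbox_mono hrR) (hf z hz)
  -- the visitors are inner
  have hvis : ∀ A ∈ pcs ω D, Vz (hbox (q m) r) A → ¬ Ard q l A := by
    intro A hA hV ha
    obtain ⟨hE, hInn⟩ := inn_of_iso hq hD hF hR hmn h0 hrR hI hA hV
    have hl' : ¬ IsLp D A := fun h' => ard_lp hq hD hA h' ha
    obtain ⟨x, y, h, h1, h2, h3, h4, -⟩ := inn_xy hq hD hF hR hmn h0 hA hE hInn hl'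
    rw [ard_xy hq hD hA h] at ha
    omega
  have e2 : ∀ A ∈ (pcs ω D).filter (fun A => ¬ Vz (hbox (q m) r) A),
      wB θ (gB θ) q D k A (mass D (q 0) (fun z => f z - dlt (q l) θ z) A) =
        gmf θ q m l A * glf θ q k m l A := by
    intro A hA
    rw [mem_filter] at hA
    rw [← gm_gl hq hD hx hc (by omega) hlk hA.1, mass_sub',
      mass_off hq hD hF hr hrR hmn.le hf hs hA.1 hA.2, mass_dlt hq hD hln.le hA.1 hqlD]
  have e1 : ∀ A ∈ (pcs ω D).filter (Vz (hbox (q m) r)),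
      wB θ (gB θ) q D k A (mass D (q 0) (fun z => f z - dlt (q l) θ z) A) =
        wL θ (q m) (hbox (q m) R) A (mass (hbox (q m) R) (top (q m) R) f A) := by
    intro A hA
    rw [mem_filter] at hA
    obtain ⟨hE, hInn⟩ := inn_of_iso hq hD hF hR hmn h0 hrR hI hA.1 hA.2
    rw [mass_sub', mass_dlt hq hD hln.le hA.1 hqlD, if_neg (hvis A hA.1 hA.2), sub_zero,
      wB_inn (θ := θ) hq hD hF hR hmn h0 hmk hA.1 hE hInn,
      mass_inn hq hD hF hR hmn h0 hA.1 hE hInn hf']
  -- the exponent of the visitors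
  have eFL : FL θ (q m) r R 1 f ω = (∏ A ∈ (pcs ω D).filter (Vz (hbox (q m) r)),
      wL θ (q m) (hbox (q m) R) A (mass (hbox (q m) R) (top (q m) R) f A)) *
        (2 * Real.cos θ) ^ sVf q D (hbox (q m) r) m ω := by
    unfold FL sVf
    rw [if_pos hI]
    have e3 : (pcs ω (hbox (q m) R)).filter (Vz (hbox (q m) r)) =
        (pcs ω D).filter (Vz (hbox (q m) r)) := by
      ext A
      rw [mem_filter, mem_filter]
      exact (iso_iff hF hrR hI).symm
    rw [e3, prod_mul_distrib, ← prod_zpow_sum _ _ h2c]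
    congr 1
    refine prod_congr rfl fun A hA => ?_
    rw [mem_filter] at hA
    obtain ⟨hE, hInn⟩ := inn_of_iso hq hD hF hR hmn h0 hrR hI hA.1 hA.2
    rw [exp_inn hq hD hF hR hmn h0 hA.1 hE hInn, one_mul]
  have hsum := sum_slf hq hD (ω := ω) hln.le hmn.le hvis
  have ePl := prod_gl (θ := θ) (k := k) (m := m) hc hvis
  have ePm := prod_gm (ω := ω) hq hD hx hc hZD (econ_hbox hr) (l := l) (by omega) hmn.le hmZ
  -- conclusion
  unfold XG QX.XB
  rw [← prod_filter_mul_prod_filter_not (pcs ω D) (Vz (hbox (q m) r))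
      (fun A => wB θ (gB θ) q D k A (mass D (q 0) (fun z => f z - dlt (q l) θ z) A)),
    prod_congr rfl e1, prod_congr rfl e2, prod_mul_distrib, ePl, eFL, stf_eq, ← ePm]
  by_cases h3 : ∀ A ∈ pcs ω D, Ard q l A → ¬ Ard q m A → hi q A < k
  · rw [if_pos h3, if_pos h3, hsum, zpow_add₀ h2c, zpow_add₀ h2c]
    ring
  · rw [if_neg h3, if_neg h3]
    ring

end Vale.Agent.P167.QB
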