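import Vale.Agent.P167.QB.FactC

/-!
# P167, general `q`, block Q-BRIDGE: the far strands

`sum_diff`: the signs of the strands around exactly one of two boundary sites sum to `sgm w - sgm a`.
`off_pos`: the strands around `m` which do not visit a connected zone `Z` at `m` are exactly the strands
around some boundary site `a ≤ m`. `far_prod`: the product of the weights of the far strands for the
masses `θ (1[around a] - 1[around b])` is bounded by `M ^ (2 + 2 N)`, `N` the number of the other strands.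
-/

namespace Vale.Agent.P167.QB

open Finset Relation Vale.Agent.P167.BR
open Vale.Agent.P167.E6 (IsPolygon Encloses dir face)
open Vale.Agent.P167.H718 (IsXY IsCl Cl isCl_strand side_const)
open Vale.Agent.P167.QX (lo hi exists_xy lo_xy hi_xy wB)

variable {D Z : Finset (ℤ × ℤ)} {ω : Cfg} {n : ℕ} {q : ZMod n → ℤ × ℤ} {A B : Finset Ed}
  {x y w w' a b m : ℕ} {θ : ℝ} {k l : ℕ} {r R : ℤ}

section

variable (hq : IsPolygon q) (hD : Encloses q D)
include hq hD

open Classical in
theorem sum_diff (ω : Cfg) (hw : w ≤ n) (hw' : w' ≤ n) :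
    ∃ a ≤ n, ∑ A ∈ (pcs ω D).filter (fun A => Ard q w A ∧ ¬ Ard q w' A), sg q A =
      sgm q w - sgm q a := by
  rcases le_total w w' with h | h
  · exact sum_one hq hD ω h hw'
  · exact sum_two hq hD ω h hw

/-- A piece which visits the zone is inside of a strand around the zone. -/
theorem vis_inner (hZD : Z ⊆ D) (hZ : ECon Z) (hm : m ≤ n) (hqm : q m ∈ sites Z)
    (hA : A ∈ pcs ω D) (hB : B ∈ pcs ω D) (hAm : Ard q m A) (hAV : ¬ Vz Z A) (hBV : Vz Z B)
    (hBl : ¬ IsLp D B) : lo q A < lo q B ∧ hi q B < hi q A := by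
  have hAl : ¬ IsLp D A := fun h => ard_lp hq hD hA h hAm
  have hne : A ≠ B := by rintro rfl; exact hAV hBV
  obtain ⟨x, y, h⟩ := exists_xy hq hD hB hBl
  obtain ⟨u, hu⟩ := exists_pot hq hD hA
  obtain ⟨e, he, heZ⟩ := hBV
  have h1 : u (ls e) = u (q m) := pot_zone hu hZD hAV (hZ _ (ls_mem_sites heZ) _ hqm)
  have h2 : u (rs e) = u (q m) := pot_zone hu hZD hAV (hZ _ (rs_mem_sites heZ) _ hqm)
  have h3 := side_const hA hu hB he h.2.2.1
  have h4 := side_const hA hu hB he h.2.2.2.1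
  rw [(be_even hq hD h.2.2.2.2.1).1, h1] at h3
  rw [(be_odd hq hD h.2.2.2.2.2).1, h2] at h4
  -- both ends are surrounded by `A`
  have h5 : ∀ i : ℕ, i ≤ n → u (q i) = u (q m) → Ard q i A := by
    intro i hi hui
    rw [← sep_ard hq hD hA hi]
    obtain ⟨u', hu', h6⟩ := (sep_ard hq hD hA hm).2 hAm
    -- two potentials
    obtain ⟨x', y', h'⟩ := exists_xy hq hD hA hAl
    have e1 := H718.pot_lft hq hD hA hu h' hi
    have e2 := H718.pot_lft hq hD hA hu h' hm
    have e3 := H718.pot_lft hq hD hA hu' h' hi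
    have e4 := H718.pot_lft hq hD hA hu' h' hm
    refine ⟨u', hu', ?_⟩
    have e5 : u' (q i) = u' (q m) := by rw [e3, e4]; rw [e1, e2] at hui; omega
    rw [e5]
    exact h6
  have h6 := h5 x h.1.le h3.1
  have h7 := h5 y h.2.1.le h4.2
  obtain ⟨-, n1, n2, n3, n4, n5⟩ := non_cross hq hD hA hB hAl hBl hne
  rw [lo_xy hq hD hB h, hi_xy hq hD hB h] at *
  have hxy := h.ne
  unfold Ard at h6 h7
  rcases lt_or_gt_of_ne hxy with g | g
  · rw [min_eq_left g.le, max_eq_right g.le] at *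
    omega
  · rw [min_eq_right g.le, max_eq_left g.le] at *
    omega

/-- **The strands around `m` which do not visit the zone.** -/
theorem off_pos (ω : Cfg) (hZD : Z ⊆ D) (hZ : ECon Z) (hm : m ≤ n) (hqm : q m ∈ sites Z) :
    ∃ a ≤ m, ∀ A ∈ pcs ω D, (Ard q m A ∧ ¬ Vz Z A ↔ Ard q a A) := by
  classical
  rcases ((pcs ω D).filter (fun A => Ard q m A ∧ Vz Z A)).eq_empty_or_nonempty with h0 | h0
  · refine ⟨m, le_rfl, fun A hA => ⟨fun h => h.1, fun h => ⟨h, fun hV => ?_⟩⟩⟩
    have : A ∈ (pcs ω D).filter (fun A => Ard q m A ∧ Vz Z A) := mem_filter.2 ⟨hA, h, hV⟩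
    rw [h0] at this
    exact absurd this (notMem_empty _)
  obtain ⟨A0, hA0, hmin⟩ := exists_min_image _ (fun A => lo q A) h0
  rw [mem_filter] at hA0
  obtain ⟨hA0, h1, h2⟩ := hA0
  have hl0 : ¬ IsLp D A0 := fun h => ard_lp hq hD hA0 h h1
  refine ⟨lo q A0, h1.1.le, fun A hA => ?_⟩
  constructor
  · rintro ⟨h3, h4⟩
    have h5 := vis_inner hq hD hZD hZ hm hqm hA hA0 h3 h4 h2 hl0
    unfold Ard at *
    omega
  · intro h3
    have hAl : ¬ IsLp D A := fun h => ard_lp hq hD hA h h3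
    have hne : A0 ≠ A := by
      rintro rfl
      exact absurd h3.1 (lt_irrefl _)
    obtain ⟨n0, n1, n2, n3, n4, n5⟩ := non_cross hq hD hA0 hA hl0 hAl hne
    have h4 : Ard q m A := by
      unfold Ard at *
      omega
    refine ⟨h4, fun hV => ?_⟩
    have := hmin A (mem_filter.2 ⟨hA, h4, hV⟩)
    have := h3.1
    omega

/-! ### the product of the weights of the far strands -/

omit hq hD in
theorem sg_cases (A : Finset Ed) : sg q A = 1 ∨ sg q A = -1 := ep_cases _

omit hq hD in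
theorem sum_sg_le (T : Finset (Finset Ed)) : |∑ A ∈ T, sg q A| ≤ (T.card : ℤ) := by
  refine (abs_sum_le_sum_abs _ _).trans ?_
  rw [card_eq_sum_ones]
  push_cast
  refine sum_le_sum fun A _ => ?_
  rcases sg_cases (q := q) A with h | h <;> rw [h] <;> simp

/-- A strand with both ends on the free side which enters at its lower side: the weight vanishes at the
mass `θ`. -/
theorem wB_di (hA : A ∈ pcs ω D) (hl : ¬ IsLp D A) (hk : hi q A < k) (hs : sg q A = 1) :
    wB θ (gB θ) q D k A θ = 0 := by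
  obtain ⟨x, y, h⟩ := exists_xy hq hD hA hl
  have hne := h.ne
  have hsg := sg_xy hq hD hA h
  rw [hi_xy hq hD hA h] at hk
  have hcl := isCl_strand (k := k) hq hD hA hl h
  have hxy : x < y := by
    by_contra h'
    rw [if_neg h'] at hsg
    omega
  unfold wB
  rw [if_neg hl, if_neg (fun h' => by rw [hi_xy hq hD hA h] at h'; omega),
    if_neg (fun h' => by have := hcl.1 h'; unfold Cl at this; omega), sub_self, Real.sin_zero,
    zero_div]

open Classical in
/-- **The far strands.** -/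
theorem far_prod (hx : 0 < Real.sin θ) (hc : 1 ≤ 2 * Real.cos θ) {M : ℝ} (hM2 : 2 ≤ M)
    (hM : ∀ A t, |wB θ (gB θ) q D k A t| ≤ M) (ha : a ≤ n) (hb : b ≤ n)
    {F : Finset (Finset Ed)} (hF : ∀ A ∈ F, A ∈ pcs ω D ∧ ¬ IsLp D A) {N : ℕ}
    (hN : ((pcs ω D).filter (fun A => ¬ IsLp D A ∧ A ∉ F)).card ≤ N)
    (h1 : ∀ A ∈ F, Ard q b A → ¬ Ard q a A → lo q A < k)
    (h2 : ∀ A ∈ F, Ard q a A → ¬ Ard q b A → hi q A < k) :
    ∏ A ∈ F, |wB θ (gB θ) q D k A ((if Ard q a A then θ else 0) - if Ard q b A then θ else 0)| ≤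
      M ^ (2 + 2 * N) := by
  have hc0 : 0 < Real.cos θ := by linarith
  have hM1 : 1 ≤ M := by linarith
  have hM0 : 0 < M := by linarith
  have hcos1 : Real.cos θ ≤ 1 := Real.cos_le_one θ
  set g : Finset Ed → ℝ := fun A =>
    |wB θ (gB θ) q D k A ((if Ard q a A then θ else 0) - if Ard q b A then θ else 0)| with hg
  by_cases h0 : ∃ A ∈ F, g A = 0
  · obtain ⟨A, hA, h⟩ := h0
    rw [prod_eq_zero hA h]
    positivity
  push Not at h0
  -- the sums of the signs over the other strands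
  have hoth : ∀ P : Finset Ed → Prop, (∀ A ∈ pcs ω D, P A → ¬ IsLp D A) →
      |∑ A ∈ (pcs ω D).filter P, sg q A - ∑ A ∈ F.filter P, sg q A| ≤ (N : ℤ) := by
    intro P hP
    have e1 : (pcs ω D).filter P = F.filter P ∪ ((pcs ω D).filter fun A => P A ∧ A ∉ F) := by
      ext A
      simp only [mem_filter, mem_union]
      constructor
      · rintro ⟨h3, h4⟩
        by_cases h5 : A ∈ F
        · exact Or.inl ⟨h5, h4⟩
        · exact Or.inr ⟨h3, h4, h5⟩
      · rintro (⟨h3, h4⟩ | ⟨h3, h4, -⟩)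
        · exact ⟨(hF A h3).1, h4⟩
        · exact ⟨h3, h4⟩
    have e2 : Disjoint (F.filter P) ((pcs ω D).filter fun A => P A ∧ A ∉ F) := by
      rw [disjoint_left]
      intro A h3 h4
      exact (mem_filter.1 h4).2.2 (mem_filter.1 h3).1
    rw [e1, sum_union e2, add_sub_cancel_left]
    refine (sum_sg_le _).trans ?_
    have h3 : ((pcs ω D).filter fun A => P A ∧ A ∉ F).card ≤ N := by
      refine le_trans (card_le_card fun A h4 => ?_) hN
      rw [mem_filter] at h4 ⊢
      exact ⟨h4.1, hP A h4.1 h4.2.1, h4.2.2⟩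
    exact_mod_cast h3
  -- the three classes
  set P1 : Finset Ed → Prop := fun A => Ard q b A ∧ ¬ Ard q a A with hP1
  set P2 : Finset Ed → Prop := fun A => Ard q a A ∧ ¬ Ard q b A with hP2
  have hsplit : ∏ A ∈ F, g A = (∏ A ∈ F.filter P1, g A) * ((∏ A ∈ F.filter P2, g A) *
      ∏ A ∈ F.filter fun A => ¬ P1 A ∧ ¬ P2 A, g A) :=
    prod_split fun A _ hA hA' => hA'.2 hA.1
  have k3 : ∏ A ∈ F.filter (fun A => ¬ P1 A ∧ ¬ P2 A), g A = 1 := by
    refine prod_eq_one fun A hA => ?_
    rw [mem_filter] at hA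
    obtain ⟨-, h3, h4⟩ := hA
    have h5 : Ard q a A ↔ Ard q b A := by
      constructor
      · intro h; by_contra h'; exact h4 ⟨h, h'⟩
      · intro h; by_contra h'; exact h3 ⟨h, h'⟩
    simp only [hg]
    by_cases h6 : Ard q a A
    · rw [if_pos h6, if_pos (h5.1 h6), sub_self, wB_hx hx hc0, abs_one]
    · rw [if_neg h6, if_neg (fun h => h6 (h5.2 h)), sub_self, wB_hx hx hc0, abs_one]
  have k1 : ∏ A ∈ F.filter P1, g A ≤ M ^ (1 + N) := by
    have e1 : ∀ A ∈ F.filter P1, g A = (2 * Real.cos θ) ^ sg q A := by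
      intro A hA
      rw [mem_filter] at hA
      obtain ⟨hA, h3, h4⟩ := hA
      have h5 := h1 A hA h3 h4
      have h6 := h0 A hA
      simp only [hg] at h6 ⊢
      rw [if_neg h4, if_pos h3, zero_sub] at h6 ⊢
      have h7 : hi q A < k := by
        by_contra h8
        rw [wB_fw (hF A hA).2 h5 (not_lt.1 h8), abs_zero] at h6
        exact h6 rfl
      rw [wB_full hq hD hx hc0 (hF A hA).1 (hF A hA).2 h7, abs_of_pos (by positivity)]
    rw [prod_congr rfl e1]
    have e2 : ∏ A ∈ F.filter P1, (2 * Real.cos θ) ^ sg q A =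
        (2 * Real.cos θ) ^ ∑ A ∈ F.filter P1, sg q A := by
      have h2c : (2 * Real.cos θ) ≠ 0 := by positivity
      induction F.filter P1 using Finset.induction_on with
      | empty => simp
      | insert A s hA ih => rw [prod_insert hA, sum_insert hA, zpow_add₀ h2c, ih]
    rw [e2]
    obtain ⟨a', ha', h3'⟩ := sum_diff hq hD ω hb ha
    have h4 : |(sgm q b - sgm q a') - ∑ A ∈ F.filter P1, sg q A| ≤ (N : ℤ) := by
      rw [← h3']
      convert hoth P1 fun A hA h => fun h' => ard_lp hq hD hA h' h.1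
    have h5 := sgm_sub_bd hq b a'
    have h6 : ∑ A ∈ F.filter P1, sg q A ≤ ((1 + N : ℕ) : ℤ) := by
      rw [abs_le] at h4 h5
      push_cast
      omega
    calc (2 * Real.cos θ) ^ ∑ A ∈ F.filter P1, sg q A ≤ (2 * Real.cos θ) ^ ((1 + N : ℕ) : ℤ) :=
          zpow_le_zpow_right₀ hc h6
      _ = (2 * Real.cos θ) ^ (1 + N) := zpow_natCast _ _
      _ ≤ M ^ (1 + N) := pow_le_pow_left₀ (by positivity) (by linarith) _
  have k2 : ∏ A ∈ F.filter P2, g A ≤ M ^ (1 + N) := by
    have e1 : ∀ A ∈ F.filter P2, sg q A = -1 := by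
      intro A hA
      rw [mem_filter] at hA
      obtain ⟨hA, h3, h4⟩ := hA
      have h5 := h2 A hA h3 h4
      have h6 := h0 A hA
      simp only [hg] at h6
      rw [if_neg h4, if_pos h3, sub_zero] at h6
      rcases sg_cases (q := q) A with h7 | h7
      · rw [wB_di hq hD (hF A hA).1 (hF A hA).2 h5 h7, abs_zero] at h6
        exact absurd rfl h6
      · exact h7
    have e2 : ∑ A ∈ F.filter P2, sg q A = -((F.filter P2).card : ℤ) := by
      rw [sum_congr rfl e1, sum_const, nsmul_eq_mul]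
      ring
    obtain ⟨a', ha', h3'⟩ := sum_diff hq hD ω ha hb
    have h4 : |(sgm q a - sgm q a') - ∑ A ∈ F.filter P2, sg q A| ≤ (N : ℤ) := by
      rw [← h3']
      convert hoth P2 fun A hA h => fun h' => ard_lp hq hD hA h' h.1
    rw [e2] at h4
    have h5 := sgm_sub_bd hq a a'
    have h6 : (F.filter P2).card ≤ 1 + N := by
      rw [abs_le] at h4 h5
      omega
    calc ∏ A ∈ F.filter P2, g A ≤ ∏ _A ∈ F.filter P2, M :=
          prod_le_prod (fun _ _ => abs_nonneg _) fun A _ => hM A _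
      _ = M ^ (F.filter P2).card := prod_const _
      _ ≤ M ^ (1 + N) := pow_le_pow_right₀ hM1 h6
  rw [hsplit, k3, mul_one]
  calc (∏ A ∈ F.filter P1, g A) * ∏ A ∈ F.filter P2, g A ≤ M ^ (1 + N) * M ^ (1 + N) :=
        mul_le_mul k1 k2 (prod_nonneg fun _ _ => abs_nonneg _) (by positivity)
    _ = M ^ (2 + 2 * N) := by rw [← pow_add]; congr 1; ring

end

end Vale.Agent.P167.QB
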