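import Vale.Agent.P167.BR.Flat

/-!
# P167, general `q`, block Q-BRIDGE: the polygon around a half box
-/

namespace Vale.Agent.P167.QB

open Vale.Agent.P167.E6 (IsPolygon Encloses dir face)
open Vale.Agent.P167.BR (hbox mem_hbox top)
open Vale.Agent.P167.E2 (dir0 dir1 dir2 dir3 face0 face1 face2 face3 f4_0m f4_1m f4_2m f4_3m)

/-- The boundary site of the half box at distance `t` (counterclockwise) of the middle of the top
side. -/
def hpos (b : ℤ × ℤ) (R t : ℤ) : ℤ × ℤ :=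
  (b.1 - min t R + max 0 (min (t - 2 * R) (2 * R)) - max 0 (t - 5 * R),
    b.2 + R - max 0 (min (t - R) R) + max 0 (min (t - 4 * R) R))

variable {b : ℤ × ℤ} {R : ℤ}

theorem hpos_step (hR : 1 ≤ R) {t : ℤ} (h0 : 0 ≤ t) (h1 : t < 6 * R) :
    ∃ r : Fin 4, hpos b R (t + 1) = hpos b R t + dir r := by
  rcases lt_or_ge t R with h2 | h2
  · refine ⟨2, ?_⟩
    rw [dir2]
    ext
    · simp only [hpos, Prod.fst_add]; omega
    · simp only [hpos, Prod.snd_add]; omega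
  rcases lt_or_ge t (2 * R) with h3 | h3
  · refine ⟨3, ?_⟩
    rw [dir3]
    ext
    · simp only [hpos, Prod.fst_add]; omega
    · simp only [hpos, Prod.snd_add]; omega
  rcases lt_or_ge t (4 * R) with h4 | h4
  · refine ⟨0, ?_⟩
    rw [dir0]
    ext
    · simp only [hpos, Prod.fst_add]; omega
    · simp only [hpos, Prod.snd_add]; omega
  rcases lt_or_ge t (5 * R) with h5 | h5
  · refine ⟨1, ?_⟩
    rw [dir1]
    ext
    · simp only [hpos, Prod.fst_add]; omega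
    · simp only [hpos, Prod.snd_add]; omega
  · refine ⟨2, ?_⟩
    rw [dir2]
    ext
    · simp only [hpos, Prod.fst_add]; omega
    · simp only [hpos, Prod.snd_add]; omega

theorem hpos_inj (hR : 1 ≤ R) {t t' : ℤ} (h0 : 0 ≤ t) (h1 : t < 6 * R) (h0' : 0 ≤ t')
    (h1' : t' < 6 * R) (h : hpos b R t = hpos b R t') : t = t' := by
  simp only [hpos, Prod.mk.injEq] at h
  omega

theorem hpos_two (hR : 1 ≤ R) {t : ℤ} (h0 : 0 ≤ t) (h1 : t < 6 * R) :
    (t < R ∧ hpos b R t = (b.1 - t, b.2 + R) ∧ hpos b R (t + 1) = (b.1 - t - 1, b.2 + R)) ∨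
    (R ≤ t ∧ t < 2 * R ∧ hpos b R t = (b.1 - R, b.2 + 2 * R - t) ∧
      hpos b R (t + 1) = (b.1 - R, b.2 + 2 * R - t - 1)) ∨
    (2 * R ≤ t ∧ t < 4 * R ∧ hpos b R t = (b.1 + t - 3 * R, b.2) ∧
      hpos b R (t + 1) = (b.1 + t + 1 - 3 * R, b.2)) ∨
    (4 * R ≤ t ∧ t < 5 * R ∧ hpos b R t = (b.1 + R, b.2 + t - 4 * R) ∧
      hpos b R (t + 1) = (b.1 + R, b.2 + t + 1 - 4 * R)) ∨
    (5 * R ≤ t ∧ hpos b R t = (b.1 + 6 * R - t, b.2 + R) ∧
      hpos b R (t + 1) = (b.1 + 6 * R - t - 1, b.2 + R)) := by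
  rcases lt_or_ge t R with h2 | h2
  · left
    refine ⟨h2, ?_, ?_⟩ <;> ext <;> simp only [hpos] <;> omega
  rcases lt_or_ge t (2 * R) with h3 | h3
  · right; left
    refine ⟨h2, h3, ?_, ?_⟩ <;> ext <;> simp only [hpos] <;> omega
  rcases lt_or_ge t (4 * R) with h4 | h4
  · right; right; left
    refine ⟨h3, h4, ?_, ?_⟩ <;> ext <;> simp only [hpos] <;> omega
  rcases lt_or_ge t (5 * R) with h5 | h5
  · right; right; right; left
    refine ⟨h4, h5, ?_, ?_⟩ <;> ext <;> simp only [hpos] <;> omega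
  · right; right; right; right
    refine ⟨h5, ?_, ?_⟩ <;> ext <;> simp only [hpos] <;> omega

theorem hpos_encl (hR : 1 ≤ R) (v : ℤ × ℤ) (r : Fin 4) :
    (∃ t, 0 ≤ t ∧ t < 6 * R ∧ hpos b R t = v ∧ hpos b R (t + 1) = v + dir r) ↔
      face v r ∈ hbox b R ∧ face v (r - 1) ∉ hbox b R := by
  obtain ⟨x, y⟩ := v
  have hr : r = 0 ∨ r = 1 ∨ r = 2 ∨ r = 3 := by fin_cases r <;> simp
  have hp1 : ∀ a b c d : ℤ, ((a, b) : ℤ × ℤ) + (c, d) = (a + c, b + d) := fun _ _ _ _ => rfl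
  have hback : ∀ t : ℤ, 0 ≤ t → t < 6 * R → ∀ w : ℤ × ℤ,
      (hpos b R t = (x, y) ∧ hpos b R (t + 1) = w) → ∃ t, 0 ≤ t ∧ t < 6 * R ∧
        hpos b R t = (x, y) ∧ hpos b R (t + 1) = w := fun t h0 h1 w h => ⟨t, h0, h1, h⟩
  rcases hr with rfl | rfl | rfl | rfl
  · rw [f4_0m, face0, face3, dir0, mem_hbox, mem_hbox, hp1]
    constructor
    · rintro ⟨t, h0, h1, h2, h3⟩
      rcases hpos_two (b := b) hR h0 h1 with ⟨k1, k2, k3⟩ | ⟨k1, k2, k3, k4⟩ | ⟨k1, k2, k3, k4⟩ |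
        ⟨k1, k2, k3, k4⟩ | ⟨k1, k2, k3⟩
      all_goals simp only [*, Prod.mk.injEq] at h2 h3; simp only; omega
    · intro h
      simp only at h
      refine hback (x - b.1 + 3 * R) (by omega) (by omega) _ ?_
      rcases hpos_two (b := b) hR (t := x - b.1 + 3 * R) (by omega) (by omega) with
        ⟨k1, k2, k3⟩ | ⟨k1, k2, k3, k4⟩ | ⟨k1, k2, k3, k4⟩ | ⟨k1, k2, k3, k4⟩ | ⟨k1, k2, k3⟩
      · omega
      · omega
      · rw [k3, k4, Prod.mk.injEq, Prod.mk.injEq]; omega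
      · omega
      · omega
  · rw [f4_1m, face1, face0, dir1, mem_hbox, mem_hbox, hp1]
    constructor
    · rintro ⟨t, h0, h1, h2, h3⟩
      rcases hpos_two (b := b) hR h0 h1 with ⟨k1, k2, k3⟩ | ⟨k1, k2, k3, k4⟩ | ⟨k1, k2, k3, k4⟩ |
        ⟨k1, k2, k3, k4⟩ | ⟨k1, k2, k3⟩
      all_goals simp only [*, Prod.mk.injEq] at h2 h3; simp only; omega
    · intro h
      simp only at h
      refine hback (y - b.2 + 4 * R) (by omega) (by omega) _ ?_
      rcases hpos_two (b := b) hR (t := y - b.2 + 4 * R) (by omega) (by omega) with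
        ⟨k1, k2, k3⟩ | ⟨k1, k2, k3, k4⟩ | ⟨k1, k2, k3, k4⟩ | ⟨k1, k2, k3, k4⟩ | ⟨k1, k2, k3⟩
      · omega
      · omega
      · omega
      · rw [k3, k4, Prod.mk.injEq, Prod.mk.injEq]; omega
      · omega
  · rw [f4_2m, face2, face1, dir2, mem_hbox, mem_hbox, hp1]
    constructor
    · rintro ⟨t, h0, h1, h2, h3⟩
      rcases hpos_two (b := b) hR h0 h1 with ⟨k1, k2, k3⟩ | ⟨k1, k2, k3, k4⟩ | ⟨k1, k2, k3, k4⟩ |
        ⟨k1, k2, k3, k4⟩ | ⟨k1, k2, k3⟩
      all_goals simp only [*, Prod.mk.injEq] at h2 h3; simp only; omega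
    · intro h
      simp only at h
      rcases le_or_gt x b.1 with h6 | h6
      · refine hback (b.1 - x) (by omega) (by omega) _ ?_
        rcases hpos_two (b := b) hR (t := b.1 - x) (by omega) (by omega) with
          ⟨k1, k2, k3⟩ | ⟨k1, k2, k3, k4⟩ | ⟨k1, k2, k3, k4⟩ | ⟨k1, k2, k3, k4⟩ | ⟨k1, k2, k3⟩
        · rw [k2, k3, Prod.mk.injEq, Prod.mk.injEq]; omega
        all_goals omega
      · refine hback (b.1 - x + 6 * R) (by omega) (by omega) _ ?_
        rcases hpos_two (b := b) hR (t := b.1 - x + 6 * R) (by omega) (by omega) with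
          ⟨k1, k2, k3⟩ | ⟨k1, k2, k3, k4⟩ | ⟨k1, k2, k3, k4⟩ | ⟨k1, k2, k3, k4⟩ | ⟨k1, k2, k3⟩
        · omega
        · omega
        · omega
        · omega
        · rw [k2, k3, Prod.mk.injEq, Prod.mk.injEq]; omega
  · rw [f4_3m, face3, face2, dir3, mem_hbox, mem_hbox, hp1]
    constructor
    · rintro ⟨t, h0, h1, h2, h3⟩
      rcases hpos_two (b := b) hR h0 h1 with ⟨k1, k2, k3⟩ | ⟨k1, k2, k3, k4⟩ | ⟨k1, k2, k3, k4⟩ |
        ⟨k1, k2, k3, k4⟩ | ⟨k1, k2, k3⟩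
      all_goals simp only [*, Prod.mk.injEq] at h2 h3; simp only; omega
    · intro h
      simp only at h
      refine hback (b.2 + 2 * R - y) (by omega) (by omega) _ ?_
      rcases hpos_two (b := b) hR (t := b.2 + 2 * R - y) (by omega) (by omega) with
        ⟨k1, k2, k3⟩ | ⟨k1, k2, k3, k4⟩ | ⟨k1, k2, k3, k4⟩ | ⟨k1, k2, k3, k4⟩ | ⟨k1, k2, k3⟩
      · omega
      · rw [k3, k4, Prod.mk.injEq, Prod.mk.injEq]; omega
      · omega
      · omega
      · omega

/-- **The polygon around the half box**, from the middle of the top side. -/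
theorem hpoly (b : ℤ × ℤ) {R : ℤ} (hR : 1 ≤ R) : ∃ (n : ℕ) (q : ZMod n → ℤ × ℤ) (l : ℕ),
    IsPolygon q ∧ Encloses q (hbox b R) ∧ l < n ∧ q l = b ∧ q 0 = top b R := by
  set n : ℕ := (6 * R).toNat with hn
  have hn' : (n : ℤ) = 6 * R := Int.toNat_of_nonneg (by omega)
  have : NeZero n := ⟨by omega⟩
  set q : ZMod n → ℤ × ℤ := fun i => hpos b R (i.val : ℤ) with hq
  have hlt : ∀ i : ZMod n, ((i.val : ℕ) : ℤ) < 6 * R := fun i => by
    have := ZMod.val_lt i
    omega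
  have hsucc : ∀ i : ZMod n, q (i + 1) = hpos b R ((i.val : ℤ) + 1) := by
    intro i
    have h1 : i + 1 = ((i.val + 1 : ℕ) : ZMod n) := by
      push_cast
      rw [ZMod.natCast_zmod_val]
    simp only [hq]
    rw [h1, ZMod.val_natCast]
    have h2 := ZMod.val_lt i
    rcases Nat.lt_or_ge (i.val + 1) n with h3 | h3
    · rw [Nat.mod_eq_of_lt h3]
      push_cast
      rfl
    · have h4 : i.val + 1 = n := by omega
      have h5 : ((i.val : ℕ) : ℤ) + 1 = 6 * R := by omega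
      rw [h4, Nat.mod_self, h5]
      ext
      · simp only [hpos]; push_cast; omega
      · simp only [hpos]; push_cast; omega
  have hcast : ∀ t : ℤ, 0 ≤ t → t < 6 * R → ∃ i : ZMod n, ((i.val : ℕ) : ℤ) = t := by
    intro t h0 h1
    refine ⟨((t.toNat : ℕ) : ZMod n), ?_⟩
    rw [ZMod.val_natCast, Nat.mod_eq_of_lt (by omega)]
    exact Int.toNat_of_nonneg h0
  refine ⟨n, q, (3 * R).toNat, ⟨by omega, ?_, ?_⟩, ?_, by omega, ?_, ?_⟩
  · intro i j hij
    have h1 := hpos_inj hR (Int.natCast_nonneg _) (hlt i) (Int.natCast_nonneg _) (hlt j) hij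
    exact ZMod.val_injective n (by exact_mod_cast h1)
  · intro i
    obtain ⟨r, h⟩ := hpos_step (b := b) hR (Int.natCast_nonneg i.val) (hlt i)
    exact ⟨r, by rw [hsucc, h]⟩
  · intro v r
    rw [← hpos_encl hR v r]
    constructor
    · rintro ⟨i, h1, h2⟩
      exact ⟨i.val, Int.natCast_nonneg _, hlt i, h1, by rw [← hsucc]; exact h2⟩
    · rintro ⟨t, h0, h1, h2, h3⟩
      obtain ⟨i, hi⟩ := hcast t h0 h1
      refine ⟨i, ?_, ?_⟩
      · simp only [hq]; rw [hi]; exact h2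
      · rw [hsucc, hi]; exact h3
  · simp only [hq]
    rw [ZMod.val_natCast, Nat.mod_eq_of_lt (by omega), Int.toNat_of_nonneg (by omega)]
    ext
    · simp only [hpos]; omega
    · simp only [hpos]; omega
  · simp only [hq]
    rw [ZMod.val_zero]
    ext
    · simp only [hpos, top]; push_cast; omega
    · simp only [hpos, top]; push_cast; omega

end Vale.Agent.P167.QB
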