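import Vale.Agent.P167.QB.FactC
import Vale.Agent.P167.BR.Gdl
import Vale.Agent.P167.BR.Maj

/-!
# P167, general `q`, block Q-BRIDGE: the functional with a point charge at a flat free boundary point

`outV`: if no piece joins the half box of radius `r` of `q l` to distance `R`, then the functional with
the point charge `- θ` at `q l` does not depend on the squares of the half box of radius `r`.
-/

namespace Vale.Agent.P167.QB

open Finset Relation Vale.Agent.P167.BR
open Vale.Agent.P167.E6 (IsPolygon Encloses dir face)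
open Vale.Agent.P167.H718 (IsXY IsCl Cl isCl_strand)
open Vale.Agent.P167.QX (lo hi exists_xy lo_xy hi_xy wB XB wB_zero gauge_two)

variable {D Z : Finset (ℤ × ℤ)} {ω ω' : Cfg} {n : ℕ} {q : ZMod n → ℤ × ℤ} {A B : Finset Ed}
  {b : ℤ × ℤ} {θ : ℝ} {k l : ℕ} {r R : ℤ} {F : ℤ × ℤ → ℝ}

/-- Without a crossing the pieces which visit the small box are inner. -/
theorem innP_of_not_crs (hF : Flt D b R) (hC : ¬ Crs D b r R ω) (hA : A ∈ pcs ω D)
    (hV : Vz (hbox b r) A) : InnP b R A := by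
  intro e he
  have h1 : hdv e ∈ fbx b R ∧ tlv e ∈ fbx b R := by
    by_contra hcon
    apply hC
    exact ⟨A, hA, hV, e, he, by tauto⟩
  obtain ⟨⟨a1, a2, a3, a4⟩, b1, b2, b3, b4⟩ := h1
  have ha := hF _ a1 a2 a3 a4
  have hb := hF _ b1 b2 b3 b4
  have ha' : b.2 ≤ (hdv e).2 → hdv e ∈ hbox b R := fun h => by rw [mem_hbox]; omega
  have hb' : b.2 ≤ (tlv e).2 → tlv e ∈ hbox b R := fun h => by rw [mem_hbox]; omega
  refine ⟨?_, ?_, ?_⟩
  · rcases mem_eds.1 (subset_eds hA he) with h2 | h2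
    · exact mem_eds.2 (Or.inl (ha' (ha.1 h2)))
    · exact mem_eds.2 (Or.inr (hb' (hb.1 h2)))
  · rcases lt_or_ge (hdv e).2 b.2 with h2 | h2
    · exact Or.inr h2
    · exact Or.inl (ha' h2)
  · rcases lt_or_ge (tlv e).2 b.2 with h2 | h2
    · exact Or.inr h2
    · exact Or.inl (hb' h2)

/-- The pieces off a box do not depend on the squares of the box. -/
theorem off_congr (hω : ∀ v, v ∉ Z → ω v = ω' v) (hA : A ∈ pcs ω D) (hV : ¬ Vz Z A) :
    A ∈ pcs ω' D :=
  mem_pcs_congr hA fun e he _ => hω _ fun h => hV ⟨e, he, mem_eds.2 (Or.inl h)⟩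

/-- The existence of a crossing does not depend on the squares of the small box. -/
theorem crs_congr (hω : ∀ v, v ∉ hbox b r → ω v = ω' v) (hC : Crs D b r R ω') :
    Crs D b r R ω := by
  obtain ⟨A, hA, hV, e, he, h⟩ := hC
  have h1 := piece_mem_pcs (ω := ω) (subset_eds hA he)
  have h2 : e ∈ piece ω D e := self_mem_piece (subset_eds hA he)
  refine ⟨piece ω D e, h1, ?_, e, h2, h⟩
  by_contra hV'
  have h3 := off_congr hω h1 hV'
  rw [eq_of_mem_pcs h3 hA h2 he] at hV'
  exact hV' hV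

theorem prod_zpow' {ι : Type*} {x : ℝ} (hx : x ≠ 0) (s : Finset ι) (f : ι → ℤ) :
    ∏ i ∈ s, x ^ f i = x ^ ∑ i ∈ s, f i := by
  classical
  induction s using Finset.induction_on with
  | empty => simp
  | insert i s hi ih => rw [prod_insert hi, sum_insert hi, zpow_add₀ hx, ih]

section

variable (hq : IsPolygon q) (hD : Encloses q D)
include hq hD

open Classical in
/-- The weight of an inner piece with the point charge at `q l`. -/
theorem wB_inner (hx : 0 < Real.sin θ) (hc : 0 < Real.cos θ) (hF : Flt D (q l) R) (hR : 1 ≤ R)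
    (hl : l < n) (h0 : q 0 ∉ sites (hbox (q l) R)) (hk : (l : ℤ) + R ≤ k) (hA : A ∈ pcs ω D)
    (hI : InnP (q l) R A) (hm : mass D (q 0) F A = 0) :
    wB θ (gB θ) q D k A (mass D (q 0) (fun z => F z - dlt (q l) θ z) A) =
      (2 * Real.cos θ) ^ (if Ard q l A then sg q A else 0 : ℤ) := by
  have hqD : q l ∈ sites D := sites_mono (hbox_sub hF) (by rw [mem_sites_hbox hR]; omega)
  rw [mass_sub', hm, mass_dlt hq hD hl.le hA hqD]
  by_cases ha : Ard q l A
  · have hl' : ¬ IsLp D A := fun h' => ard_lp hq hD hA h' ha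
    obtain ⟨x, y, h, h1, h2, h3, h4, -⟩ := inn_xy hq hD hF hR hl h0 hA (fun e he => (hI e he).1)
      (fun e he => (hI e he).2) hl'
    have hhi : hi q A < k := by
      rw [hi_xy hq hD hA h]
      omega
    rw [if_pos ha, if_pos ha, zero_sub, wB_full hq hD hx hc hA hl' hhi]
  · rw [if_neg ha, if_neg ha, zero_sub, neg_zero, wB_hx hx hc, zpow_zero]

open Classical in
/-- **The pieces off the box determine the functional with a point charge.** -/
theorem XG_out (hx : 0 < Real.sin θ) (hc : 0 < Real.cos θ) (hF : Flt D (q l) R) (hR : 1 ≤ R)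
    (hl : l < n) (h0 : q 0 ∉ sites (hbox (q l) R)) (hk : (l : ℤ) + R ≤ k)
    (hFm : ∀ ζ : Cfg, ∀ A ∈ pcs ζ D, InnP (q l) R A → mass D (q 0) F A = 0)
    (hC : ¬ Crs D (q l) r R ω) :
    XG θ q D k (fun z => F z - dlt (q l) θ z) ω =
      (∏ A ∈ (pcs ω D).filter (fun A => ¬ Vz (hbox (q l) r) A),
        wB θ (gB θ) q D k A (mass D (q 0) (fun z => F z - dlt (q l) θ z) A)) *
      (2 * Real.cos θ) ^ (sgm q l - ∑ A ∈ (pcs ω D).filter (fun A => ¬ Vz (hbox (q l) r) A),
        (if Ard q l A then sg q A else 0 : ℤ)) := by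
  have h2c : (2 * Real.cos θ) ≠ 0 := by positivity
  unfold XG QX.XB
  rw [← prod_filter_mul_prod_filter_not (pcs ω D) (Vz (hbox (q l) r))
      (fun A => wB θ (gB θ) q D k A (mass D (q 0) (fun z => F z - dlt (q l) θ z) A)), mul_comm]
  congr 1
  have h1 : ∏ A ∈ (pcs ω D).filter (Vz (hbox (q l) r)),
      wB θ (gB θ) q D k A (mass D (q 0) (fun z => F z - dlt (q l) θ z) A) =
      ∏ A ∈ (pcs ω D).filter (Vz (hbox (q l) r)),
        (2 * Real.cos θ) ^ (if Ard q l A then sg q A else 0 : ℤ) := by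
    refine prod_congr rfl fun A hA => ?_
    rw [mem_filter] at hA
    have hI := innP_of_not_crs hF hC hA.1 hA.2
    exact wB_inner hq hD hx hc hF hR hl h0 hk hA.1 hI (hFm ω A hA.1 hI)
  rw [h1, prod_zpow' h2c]
  congr 1
  have h2 := sum_alt hq hD ω hl.le
  rw [sum_filter] at h2
  have h3 := sum_filter_add_sum_filter_not (pcs ω D) (Vz (hbox (q l) r))
    (fun A => (if Ard q l A then sg q A else 0 : ℤ))
  exact eq_sub_of_add_eq (h3.trans h2)

/-- **The outside version.** If no piece joins the half box of radius `r` to distance `R`, the functional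
with the point charge `- θ` at `q l` does not depend on the squares of the half box of radius `r`. -/
theorem outV (hx : 0 < Real.sin θ) (hc : 0 < Real.cos θ) (hF : Flt D (q l) R) (hR : 1 ≤ R)
    (hl : l < n) (h0 : q 0 ∉ sites (hbox (q l) R)) (hk : (l : ℤ) + R ≤ k)
    (hFm : ∀ ζ : Cfg, ∀ A ∈ pcs ζ D, InnP (q l) R A → mass D (q 0) F A = 0)
    (hC : ¬ Crs D (q l) r R ω) (hω : ∀ v, v ∉ hbox (q l) r → ω v = ω' v) :
    XG θ q D k (fun z => F z - dlt (q l) θ z) ω =
      XG θ q D k (fun z => F z - dlt (q l) θ z) ω' := by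
  classical
  have hω' : ∀ v, v ∉ hbox (q l) r → ω' v = ω v := fun v hv => (hω v hv).symm
  have hC' : ¬ Crs D (q l) r R ω' := fun h => hC (crs_congr hω h)
  rw [XG_out hq hD hx hc hF hR hl h0 hk hFm hC, XG_out hq hD hx hc hF hR hl h0 hk hFm hC']
  have e : (pcs ω D).filter (fun A => ¬ Vz (hbox (q l) r) A) =
      (pcs ω' D).filter (fun A => ¬ Vz (hbox (q l) r) A) := by
    ext A
    rw [mem_filter, mem_filter]
    exact ⟨fun h => ⟨off_congr hω h.1 h.2, h.2⟩, fun h => ⟨off_congr hω' h.1 h.2, h.2⟩⟩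
  rw [e]

/-- The configuration with the squares of `Z` closed. -/
def clo (Z : Finset (ℤ × ℤ)) (ω : Cfg) : Cfg := fun v => if v ∈ Z then false else ω v

omit hq hD in
theorem clo_off {v : ℤ × ℤ} (hv : v ∉ Z) : clo Z ω v = ω v := if_neg hv

omit hq hD in
/-- A function of the configuration with the squares of `Z` closed does not depend on `Z`. -/
theorem ind_clo {Z' : Finset (ℤ × ℤ)} (h : Z' ⊆ Z) (H : Cfg → ℝ) :
    FKA.Ind Z' (fun ω => H (clo Z ω)) := by
  intro ω ω' hω
  have e : clo Z ω = clo Z ω' := by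
    funext v
    by_cases hv : v ∈ Z
    · simp only [clo, if_pos hv]
    · simp only [clo, if_neg hv]
      exact hω v fun hv' => hv (h hv')
  simp only [e]

/-- The version with the squares of the small half box closed. -/
theorem outV_clo (hx : 0 < Real.sin θ) (hc : 0 < Real.cos θ) (hF : Flt D (q l) R) (hR : 1 ≤ R)
    (hl : l < n) (h0 : q 0 ∉ sites (hbox (q l) R)) (hk : (l : ℤ) + R ≤ k)
    (hFm : ∀ ζ : Cfg, ∀ A ∈ pcs ζ D, InnP (q l) R A → mass D (q 0) F A = 0)
    (hC : ¬ Crs D (q l) r R ω) :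
    XG θ q D k (fun z => F z - dlt (q l) θ z) ω =
      XG θ q D k (fun z => F z - dlt (q l) θ z) (clo (hbox (q l) r) ω) :=
  outV hq hD hx hc hF hR hl h0 hk hFm hC fun _ hv => (clo_off hv).symm

/-- Inner pieces of a flat box do not feel a charge near another flat boundary point. -/
theorem mass_far' {m : ℕ} {rm Rm : ℤ} (hl : l < n) (hm : m < n) (hFm : Flt D (q m) Rm)
    (hF : Flt D (q l) R) (h1 : 1 ≤ rm) (h2 : rm ≤ Rm) (hR : 1 ≤ R)
    (hd : Disjoint (hbox (q m) Rm) (hbox (q l) R)) (h0 : q 0 ∉ sites (hbox (q l) R))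
    (hf : ∀ z, F z ≠ 0 → z ∈ sites (hbox (q m) rm)) (hI : InnP (q l) R A) :
    mass D (q 0) F A = 0 ∧ ¬ Vz (hbox (q m) rm) A := by
  classical
  have hZa : hbox (q m) rm ⊆ D := (hbox_mono h2).trans (hbox_sub hFm)
  have hqa : q m ∈ sites (hbox (q m) rm) := by
    rw [mem_sites_hbox h1]
    omega
  have hki : (m : ℤ) ≤ l - R ∨ (l : ℤ) + R ≤ m :=
    far_index hq hD hFm hF (by omega) (by omega) hd
  have h3 : ∀ e ∈ A, e ∈ eds (hbox (q l) R) := fun e he => (hI e he).1
  have h4 : ∀ e ∈ A, Inn (q l) R e := fun e he => (hI e he).2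
  have h5 : ¬ Vz (hbox (q m) rm) A := fun h =>
    not_vz_far hFm hF hd h3 h4 (h.mono (hbox_mono h2))
  refine ⟨?_, h5⟩
  rw [mass_zone hZa hf (P := False), if_neg not_false]
  intro z hz
  exact iff_of_false (sep_out hq hD hF hR hl h0 h3 h4 hm.le hki hZa (econ_hbox h1) h5
    hqa hz) not_false

end

end Vale.Agent.P167.QB
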