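import Vale.Agent.P167.QB.FDefs
import Vale.Agent.P167.QB.Pr3
import Vale.Agent.P167.QB.Far
import Vale.Agent.P167.H208.ND.Fin

/-!
# P167, general `q`, block BRQ, lower bound: the weights on the good event

`d = q m` is the centre of two rings, `c = q l` carries the point charge `- θ`. On the good event no
piece visits both rings, the pieces which visit the rings are local, and a dual path joins the half box of
radius `a 0` to the arc from `c` to `q k`. Then the pieces which avoid the rings have weights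
`(2 cos θ) ^ (± 1)` (if they surround `c` and not `d`) or `1`, and the weights of the pieces which visit the
rings are bounded below.
-/

namespace Vale.Agent.P167.QB

open Finset Relation Vale.Agent.P167.BR Vale.Agent.P167.FK
open Vale.Agent.P145.FB (PStep)
open Vale.Agent.P167.H632 (cs)
open Vale.Agent.P167.E6 (IsPolygon Encloses)
open Vale.Agent.P167.QX (lo hi exists_xy lo_xy hi_xy wB)
open Vale.Agent.P167.H436.ND
open Vale.Agent.P167.H542.Q (cB cB_pos)
open Vale.Agent.P167.H208.ND (sL sL_eq range_i a_mono zn_ring mass_lin mass_ring mass_01 kr_sites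
  eds_far ard_out ard_l pos_bd)
open Vale.Agent.P167.H192.TA (Xc)
open Vale.Agent.P167.H640.ND (mem_Zg mem_sites_Zg stay Zr_eq)

variable {D : Finset (ℤ × ℤ)} {ω : Cfg} {n : ℕ} {q : ZMod n → ℤ × ℤ} {A B : Finset Ed}
  {k l m : ℕ} {θ M : ℝ} {R r : ℤ} {a : Fin 2 → ℤ} {f : Fin 2 → ℤ × ℤ → ℝ}

/-- The good event of the lower bound. -/
structure Gd (q : ZMod n → ℤ × ℤ) (D : Finset (ℤ × ℤ)) (k l m : ℕ) (R : ℤ) (a : Fin 2 → ℤ)
    (ω : Cfg) : Prop where
  gap : ω ∉ Xc true (q m) (2 * a 0) (a 1)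
  crs : ¬ Crs D (q m) (2 * a 1) R ω
  arm : ω ∈ DAr D (Wa q k l) (q m) (a 0)

/-- The dual path from the half box to the arc. -/
theorem arm_pos (hw : Win q D m R) (hr : 1 ≤ r) (hrR : r ≤ R) (hkn : k ≤ n)
    (h : ω ∈ DAr D (Wa q k l) (q m) r) : ∃ j : ℕ, l ≤ j ∧ j ≤ k ∧
    ∀ A ∈ pcs ω D, ¬ Vz (hbox (q m) r) A → (Ard q m A ↔ Ard q j A) := by
  obtain ⟨u, hu, t, ⟨j, hj1, hj2, hjt⟩, hpar, hpath⟩ := h
  refine ⟨j, hj1, hj2, fun A hA hV => ?_⟩
  have hsub : hbox (q m) r ⊆ D := (hbox_mono hrR).trans (hbox_sub hw.flat)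
  have key : ∀ v, PotD D A v → v (q m) = v (q j) := by
    intro v hv
    have h1 : v (q m) = v u := by
      refine pot_zone hv hsub hV (econ_hbox hr _ ?_ _ hu)
      rw [mem_sites_hbox hr]
      omega
    have h2 : ReflTransGen (PStep (cs false ω ∩ (↑D : Set (ℤ × ℤ)))) u t := by
      refine ReflTransGen.mono (fun x y hxy => ?_) _ _ hpath
      obtain ⟨s1, s2, s3, s4⟩ := hxy
      exact ⟨s1, s2, s3, (Finset.mem_sdiff.1 (Finset.mem_coe.1 s4)).1⟩
    have h3 : v u = v t := pot_reach hA hv ((reach_iff hpar).2 h2)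
    rw [h1, h3, ← hjt]
  rw [← sep_ard hw.poly hw.enc hA hw.l1.le, ← sep_ard hw.poly hw.enc hA (w := j) (hj2.trans hkn)]
  constructor
  · rintro ⟨v, hv, h5⟩
    exact ⟨v, hv, by rwa [← key v hv]⟩
  · rintro ⟨v, hv, h5⟩
    exact ⟨v, hv, by rwa [key v hv]⟩

/-- The pieces near `q m` are local. -/
theorem gd_loc (hw : Win q D m R) (hR : 1 ≤ R) (hml : (m : ℤ) + R ≤ l) (hlk : l ≤ k)
    (hc : ¬ Crs D (q m) r R ω) (hA : A ∈ pcs ω D) (hV : Vz (hbox (q m) r) A) :
    ¬ Ard q l A ∧ hi q A < k := by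
  by_cases hlp : IsLp D A
  · refine ⟨ard_lp hw.poly hw.enc hA hlp, ?_⟩
    rw [(lo_lp hw.poly hw.enc hA hlp).2]
    omega
  · have hI := innP_of_not_crs hw.flat hc hA hV
    obtain ⟨x, y, h, k1, k2, k3, k4, -⟩ := inn_xy hw.poly hw.enc hw.flat hR hw.l1 hw.off hA
      (fun d hd => (hI d hd).1) (fun d hd => (hI d hd).2) hlp
    have hhi := hi_xy hw.poly hw.enc hA h
    refine ⟨fun h' => ?_, ?_⟩
    · have := h'.2
      rw [hhi] at this
      omega
    · rw [hhi]
      omega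

/-- The lower side of a strand around the half box. -/
theorem far_lo (hw : Win q D m R) (hr : 1 ≤ r) (hrR : r ≤ R) (hA : A ∈ pcs ω D)
    (hnb : ¬ Vz (hbox (q m) r) A) (hm : Ard q m A) : (lo q A : ℤ) < m - r := by
  have hlp : ¬ IsLp D A := fun h => ard_lp hw.poly hw.enc hA h hm
  obtain ⟨x, y, h⟩ := exists_xy hw.poly hw.enc hA hlp
  have key : ∀ w : ℕ, be q (w : ZMod n) ∈ A → ¬ ((m : ℤ) - r ≤ w ∧ (w : ℤ) < m + r) := by
    intro w hwA hcon
    apply hnb
    obtain ⟨h5, h6⟩ := flat_side hw.poly hw.enc hw.flat (by omega) hw.l1 hw.off (i := w) (by omega)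
      (by omega)
    refine ⟨_, hwA, ?_⟩
    rw [h6, ce_mem_eds, E2.face0, mem_hbox, h5]
    left
    simp only
    omega
  have kx := key x h.2.2.1
  have ky := key y h.2.2.2.1
  have hlo := lo_xy hw.poly hw.enc hA h
  have h5 := hm.1
  omega

/-- A piece inside of the half box of radius `a 0`. -/
theorem inner_sL (hw : Win q D m R) (ha : Scl 4000 4 R a) (hA : A ∈ pcs ω D)
    (hV : ¬ Vz (Zr (q m) (a 0)) A) (hb : Vz (hbox (q m) (a 0)) A) (i : Fin 2) :
    ¬ Ard q (sL m a i) A := by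
  obtain ⟨h1, h2, h3, h4⟩ := range_i hw ha 0
  have hs := sL_eq hw ha i
  have h01 : a 0 ≤ a i := by
    rcases Fin.eq_zero_or_eq_succ i with hi | ⟨j, hi⟩
    · rw [hi]
    · have := a_mono hw ha (i := 0) (j := i) (by rw [hi]; exact Fin.succ_pos j)
      omega
  intro hard
  have hlp : ¬ IsLp D A := fun h => ard_lp hw.poly hw.enc hA h hard
  have h5 := stay hw.flat (by omega) (by omega : a 0 < 2 * a 0) (by omega) hA hV hb
  obtain ⟨x, y, h, k1, k2, k3, k4, -⟩ := inn_xy hw.poly hw.enc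
    (hw.flat.mono (by omega : a 0 ≤ R)) (by omega) hw.l1
    (fun h' => hw.off (sites_mono (hbox_mono (by omega)) h')) hA (fun d hd => (h5 d hd).1)
    (fun d hd => (h5 d hd).2) hlp
  have hlo := lo_xy hw.poly hw.enc hA h
  have := hard.1
  omega

open Classical in
/-- **The pieces which avoid the rings.** -/
theorem av_wt (hw : Win q D m R) (ha : Scl 4000 4 R a) (hml : (m : ℤ) + R ≤ l) (hlk : l ≤ k)
    (hkn : k ≤ n) (hls : q l ∈ sites D) (hx : 0 < Real.sin θ) (hc : 0 < Real.cos θ)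
    (hfs : ∀ i z, f i z ≠ 0 → z ∈ Kr (q m) (a i)) (hf1 : ∀ i, ∑ᶠ z, f i z = 1)
    (hg : Gd q D k l m R a ω) (hA : A ∈ pcs ω D) (hV : ∀ i, ¬ Vz (Zr (q m) (a i)) A) :
    wB θ (gB θ) q D k A (mass D (q 0) (Ft (fun _ => θ / 2) f (dlt (q l) (-θ))) A) =
      (2 * Real.cos θ) ^ (if Ard q l A ∧ ¬ Ard q m A then sg q A else 0) := by
  obtain ⟨r1, r2, r3, r4⟩ := range_i hw ha 0
  obtain ⟨r1', r2', r3', r4'⟩ := range_i hw ha 1
  have h01 := a_mono hw ha (i := 0) (j := 1) (by decide)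
  have hmk : (m : ℤ) + R ≤ k := by omega
  have h1 : ∀ i, mass D (q 0) (f i) A = if Ard q (sL m a i) A then 1 else 0 := fun i =>
    mass_ring hw ha hmk hkn i (hfs i) (hf1 i) hA (hV i)
  rw [mass_lin, mass_dlt hw.poly hw.enc (hlk.trans hkn) hA hls, Fin.sum_univ_two, h1, h1]
  by_cases hb : Vz (hbox (q m) (a 0)) A
  · have hloc := gd_loc hw (by omega) hml hlk hg.crs hA (by
      obtain ⟨d, hd, hd2⟩ := hb
      exact ⟨d, hd, eds_mono (hbox_mono (by omega)) hd2⟩)
    rw [if_neg (inner_sL hw ha hA (hV 0) hb 0), if_neg (inner_sL hw ha hA (hV 0) hb 1),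
      if_neg hloc.1, if_neg (fun h => hloc.1 h.1), mul_zero, add_zero, add_zero, wB_hx hx hc,
      zpow_zero]
  · obtain ⟨j, hj1, hj2, hj⟩ := arm_pos hw (by omega) (by omega) hkn hg.arm
    have hj' := hj A hA hb
    by_cases hm' : Ard q m A
    · have hja := hj'.1 hm'
      have hl' : Ard q l A := by
        have e1 := hm'.1
        have e2 := hja.2
        unfold Ard
        omega
      have hnb : ¬ Vz (hbox (q m) (2 * a 1)) A := fun h =>
        (gd_loc hw (by omega) hml hlk hg.crs hA h).1 hl'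
      have hlo := far_lo hw (by omega) (by omega) hA hnb hm'
      have hs : ∀ i, Ard q (sL m a i) A := by
        intro i
        have e1 := sL_eq hw ha i
        have e2 := range_i hw ha i
        have e3 := hm'.2
        have e4 : a i ≤ a 1 := by
          rcases Fin.eq_zero_or_eq_succ i with hi | ⟨j, hi⟩
          · rw [hi]; omega
          · have : j = 0 := Subsingleton.elim _ _
            rw [hi, this]
            exact le_rfl
        unfold Ard
        omega
      rw [if_pos (hs 0), if_pos (hs 1), if_pos hl', if_neg (fun h => h.2 hm'), zpow_zero,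
        show θ / 2 * 1 + θ / 2 * 1 + -θ = 0 by ring, wB_hx hx hc]
    · have hs : ∀ i, ¬ Ard q (sL m a i) A := fun i h =>
        hm' (ard_l hw.poly hw.enc (zn_ring hw ha hmk hkn) i hA (hV i) h)
      rw [if_neg (hs 0), if_neg (hs 1), mul_zero, add_zero, zero_add]
      by_cases hl' : Ard q l A
      · have hlp : ¬ IsLp D A := fun h => ard_lp hw.poly hw.enc hA h hl'
        have hk : hi q A < k := by
          by_contra hcon
          apply hm'
          refine hj'.2 ?_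
          have e1 := hl'.1
          unfold Ard
          omega
        rw [if_pos hl', if_pos ⟨hl', hm'⟩, wB_full hw.poly hw.enc hx hc hA hlp hk]
      · rw [if_neg hl', if_neg (fun h => hl' h.1), zpow_zero, wB_hx hx hc]

/-! ### the visiting pieces -/

/-- The constant `M` for the angle `θ`. -/
structure McL (θ M : ℝ) : Prop where
  h1 : 1 ≤ M
  cb : (cB θ)⁻¹ ≤ M
  w1 : ∀ t, 0 ≤ t → t ≤ θ / 2 → M⁻¹ ≤ Real.cos (θ + t) / Real.cos θ
  w3 : ∀ t, 0 ≤ t → t ≤ θ / 2 → M⁻¹ ≤ Real.sin (θ - t) / Real.sin θ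
  w4 : ∀ t, 0 ≤ t → t ≤ θ / 2 → M⁻¹ ≤ Real.sin (2 * θ + t) / Real.sin (2 * θ)

theorem exists_mcL (h0 : 0 < θ) (h1 : θ < Real.pi / 3) : ∃ M, McL θ M := by
  have hpi := Real.pi_pos
  have hs : 0 < Real.sin θ := Real.sin_pos_of_pos_of_lt_pi h0 (by linarith)
  have hs2 : 0 < Real.sin (2 * θ) := Real.sin_pos_of_pos_of_lt_pi (by linarith) (by linarith)
  have hc : 0 < Real.cos θ := Real.cos_pos_of_mem_Ioo ⟨by linarith, by linarith⟩
  obtain ⟨c1, hc1, k1⟩ := pos_bd (g := fun t => Real.cos (θ + t) / Real.cos θ) (by fun_prop)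
    (a := 0) (b := θ / 2) fun t ht => div_pos (Real.cos_pos_of_mem_Ioo
      ⟨by linarith [ht.1], by linarith [ht.2]⟩) hc
  obtain ⟨c3, hc3, k3⟩ := pos_bd (g := fun t => Real.sin (θ - t) / Real.sin θ) (by fun_prop)
    (a := 0) (b := θ / 2) fun t ht => div_pos (Real.sin_pos_of_pos_of_lt_pi
      (by linarith [ht.2]) (by linarith [ht.1])) hs
  obtain ⟨c4, hc4, k4⟩ := pos_bd (g := fun t => Real.sin (2 * θ + t) / Real.sin (2 * θ))
    (by fun_prop) (a := 0) (b := θ / 2) fun t ht => div_pos (Real.sin_pos_of_pos_of_lt_pi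
      (by linarith [ht.1]) (by linarith [ht.2])) hs2
  have hcb := cB_pos h0 h1.le
  obtain ⟨M, hM⟩ : ∃ M, M = 1 + (cB θ)⁻¹ + c1⁻¹ + c3⁻¹ + c4⁻¹ := ⟨_, rfl⟩
  have p1 : 0 < (cB θ)⁻¹ := inv_pos.2 hcb
  have p4 := inv_pos.2 hc1
  have p6 := inv_pos.2 hc3
  have p7 := inv_pos.2 hc4
  refine ⟨M, by linarith, by linarith, fun t ht ht' => ?_, fun t ht ht' => ?_, fun t ht ht' => ?_⟩
  · exact (inv_anti₀ (by positivity) (by linarith : c1⁻¹ ≤ M)).trans (by
      rw [inv_inv]; exact k1 t ⟨by linarith, by linarith⟩)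
  · exact (inv_anti₀ (by positivity) (by linarith : c3⁻¹ ≤ M)).trans (by
      rw [inv_inv]; exact k3 t ⟨by linarith, by linarith⟩)
  · exact (inv_anti₀ (by positivity) (by linarith : c4⁻¹ ≤ M)).trans (by
      rw [inv_inv]; exact k4 t ⟨by linarith, by linarith⟩)

/-- No piece visits both rings. -/
theorem not_both (hw : Win q D m R) (ha : Scl 4000 4 R a) (hg : ω ∉ Xc true (q m) (2 * a 0) (a 1))
    (hA : A ∈ pcs ω D) (h : Vz (Zr (q m) (a 0)) A) (h' : Vz (Zr (q m) (a 1)) A) : False := by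
  have hz : Zns R a (fun i => 2 * a i) := by
    refine ⟨fun i => ?_, fun i => ?_, fun i j hij => ?_, fun i => ?_⟩
    · have := range_i hw ha i; omega
    · have := range_i hw ha i; omega
    · have := range_i hw ha i
      have h2 := a_mono hw ha hij
      omega
    · have := range_i hw ha i; omega
  exact hg (H192.ND.s_cross n q D m R hw 2 a (fun i => 2 * a i) hz ω A hA 0 1 rfl
    ⟨0, le_rfl, h⟩ ⟨1, le_rfl, h'⟩ true)

/-- **The pieces which visit the rings.** -/
theorem vis_wt (hw : Win q D m R) (ha : Scl 4000 4 R a) (hml : (m : ℤ) + R ≤ l) (hlk : l ≤ k)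
    (hkn : k ≤ n) (hls : q l ∈ sites D) (hM : McL θ M) (h0 : 0 < θ) (hf0 : ∀ i z, 0 ≤ f i z)
    (hfs : ∀ i z, f i z ≠ 0 → z ∈ Kr (q m) (a i)) (hf1 : ∀ i, ∑ᶠ z, f i z = 1)
    (hg : Gd q D k l m R a ω) (hA : A ∈ pcs ω D) (hV : ∃ i, Vz (Zr (q m) (a i)) A) :
    M⁻¹ ≤ wB θ (gB θ) q D k A (mass D (q 0) (Ft (fun _ => θ / 2) f (dlt (q l) (-θ))) A) := by
  classical
  obtain ⟨r1, r2, r3, r4⟩ := range_i hw ha 0
  obtain ⟨r1', r2', r3', r4'⟩ := range_i hw ha 1
  have h01 := a_mono hw ha (i := 0) (j := 1) (by decide)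
  have hmk : (m : ℤ) + R ≤ k := by omega
  have hzb : ∀ i, Zr (q m) (a i) ⊆ hbox (q m) (2 * a 1) := by
    intro i v hv
    have hv' : v ∈ Zg (q m) (a i) (2 * a i) := hv
    have e4 : a i ≤ a 1 := by
      rcases Fin.eq_zero_or_eq_succ i with hi | ⟨j, hi⟩
      · rw [hi]; omega
      · have : j = 0 := Subsingleton.elim _ _
        rw [hi, this]
        exact le_rfl
    rw [mem_Zg] at hv'
    rw [mem_hbox]
    omega
  have hloc := gd_loc hw (by omega) hml hlk hg.crs hA (by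
    obtain ⟨i, d, hd, hd2⟩ := hV
    exact ⟨d, hd, eds_mono (hzb i) hd2⟩)
  have hmass : ∃ t, 0 ≤ t ∧ t ≤ θ / 2 ∧
      mass D (q 0) (Ft (fun _ => θ / 2) f (dlt (q l) (-θ))) A = t := by
    rw [mass_lin, mass_dlt hw.poly hw.enc (hlk.trans hkn) hA hls, Fin.sum_univ_two,
      if_neg hloc.1, add_zero]
    by_cases hV0 : Vz (Zr (q m) (a 0)) A
    · have hV1 : ¬ Vz (Zr (q m) (a 1)) A := fun h => not_both hw ha hg.gap hA hV0 h
      have e1 : mass D (q 0) (f 1) A = 0 := by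
        rw [mass_ring hw ha hmk hkn 1 (hfs 1) (hf1 1) hA hV1,
          if_neg (ard_out hw ha (i := 1) (i0 := 0) (by decide) hA hV1 hV0).1]
      obtain ⟨m1, m2⟩ := mass_01 hw ha 0 (hf0 0) (hfs 0) (hf1 0) A
      refine ⟨_, ?_, ?_, rfl⟩
      · rw [e1]; nlinarith
      · rw [e1]; nlinarith
    · have hV1 : Vz (Zr (q m) (a 1)) A := by
        obtain ⟨i, hi⟩ := hV
        rcases Fin.eq_zero_or_eq_succ i with h | ⟨j, h⟩
        · rw [h] at hi
          exact absurd hi hV0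
        · have : j = 0 := Subsingleton.elim _ _
          rw [h, this] at hi
          exact hi
      have hnb : ¬ Vz (hbox (q m) (a 0)) A := by
        intro hb
        have h5 := stay hw.flat (by omega) (by omega : a 0 < 2 * a 0) (by omega) hA hV0 hb
        obtain ⟨d, hd, hd2⟩ := hV1
        exact eds_far (by omega) (h5 d hd).1 hd2
      have e1 : mass D (q 0) (f 0) A = 0 := by
        rw [mass_ring hw ha hmk hkn 0 (hfs 0) (hf1 0) hA hV0, if_neg]
        intro hs
        have hm' : Ard q m A := ard_l hw.poly hw.enc (zn_ring hw ha hmk hkn) 0 hA hV0 hs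
        obtain ⟨j, hj1, hj2, hj⟩ := arm_pos hw (by omega) (by omega) hkn hg.arm
        have hja := (hj A hA hnb).1 hm'
        apply hloc.1
        have e1 := hm'.1
        have e2 := hja.2
        unfold Ard
        omega
      obtain ⟨m1, m2⟩ := mass_01 hw ha 1 (hf0 1) (hfs 1) (hf1 1) A
      refine ⟨_, ?_, ?_, rfl⟩
      · rw [e1]; nlinarith
      · rw [e1]; nlinarith
  obtain ⟨t, ht0, ht1, ht⟩ := hmass
  rw [ht]
  unfold wB
  split_ifs with c1 c2 c3
  · exact hM.w1 t ht0 ht1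
  · exact absurd hloc.2 (by omega)
  · exact hM.w4 t ht0 ht1
  · exact hM.w3 t ht0 ht1

end Vale.Agent.P167.QB
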