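import Vale.Agent.P167.QB.Maj2

/-!
# P167, general `q`, block Q-BRIDGE: the local functional

`FL_prod`: the local functional as a product over the pieces of a polygon domain. `FL_le`: its majorant.
`FL_lower`: lower bound of the local functional of a negative charge.
-/

namespace Vale.Agent.P167.QB

open Finset Relation Vale.Agent.P167.BR Vale.Agent.P167.H562.SML Vale.Agent.P167.H45
open Vale.Agent.P167.E6 (IsPolygon Encloses dir face)
open Vale.Agent.P167.H718 (IsXY IsCl Cl isCl_strand side_const)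
open Vale.Agent.P167.QX (lo hi exists_xy lo_xy hi_xy wB)
open Vale.Agent.P167.H562.MAJ (bigs nb1 Sm core Sc mem_core sum_nb1 sum_G near_site nm_tri one_le_prodR)
open Vale.Agent.P167.H562.QM (BumpsQ WtQ Far)

variable {D Z : Finset (ℤ × ℤ)} {ω : Cfg} {n : ℕ} {q : ZMod n → ℤ × ℤ} {A B : Finset Ed}
  {a b m : ℕ} {θ K : ℝ} {k l : ℕ} {r R rc rd : ℤ} {f g : ℤ × ℤ → ℝ}

/-! ### the weights for negative masses -/

/-- `exp (tan θ x - 2 x²) ≤ cos (θ - x) / cos θ` for `0 ≤ x ≤ θ`. -/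
theorem exp_le_wt (hθ0 : 0 < θ) (hθ1 : θ ≤ Real.pi / 3) {x : ℝ} (h0 : 0 ≤ x) (h1 : x ≤ θ) :
    Real.exp (Real.tan θ * x - 2 * x ^ 2) ≤ Real.cos (θ + -x) / Real.cos θ := by
  have hc := cos_half hθ0 hθ1
  have hc0 : 0 < Real.cos θ := by linarith
  have hpi := Real.pi_pos
  set h : ℝ → ℝ := fun x => Real.cos (θ + -x) * Real.exp (-(Real.tan θ * x) + 2 * x ^ 2) with hh
  have hder : ∀ x, HasDerivAt h ((Real.sin (θ + -x) + Real.cos (θ + -x) *
      (-Real.tan θ + 4 * x)) * Real.exp (-(Real.tan θ * x) + 2 * x ^ 2)) x := by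
    intro x
    have h1 : HasDerivAt (fun x => θ + -x) (-1) x := by
      simpa using ((hasDerivAt_id x).neg).const_add θ
    have h2 : HasDerivAt (fun x => -(Real.tan θ * x) + 2 * x ^ 2) (-Real.tan θ + 4 * x) x := by
      have e1 : HasDerivAt (fun x => -(Real.tan θ * x)) (-Real.tan θ) x := by
        have h5 := (hasDerivAt_id x).const_mul (-Real.tan θ)
        rw [mul_one] at h5
        refine h5.congr_of_eventuallyEq (Filter.Eventually.of_forall fun y => ?_)
        simp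
      have e2 : HasDerivAt (fun x : ℝ => 2 * x ^ 2) (4 * x) x := by
        have := (hasDerivAt_pow 2 x).const_mul (2 : ℝ)
        refine this.congr_deriv ?_
        push_cast
        ring
      exact e1.add e2
    have h3 := h1.cos.mul h2.exp
    refine h3.congr_deriv ?_
    ring
  have hcont : Continuous h := continuous_iff_continuousAt.2 fun x => (hder x).continuousAt
  have hmono : MonotoneOn h (Set.Icc 0 θ) := by
    refine monotoneOn_of_deriv_nonneg (convex_Icc 0 θ) hcont.continuousOn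
      (fun x _ => (hder x).differentiableAt.differentiableWithinAt) fun x hx => ?_
    rw [interior_Icc] at hx
    rw [(hder x).deriv]
    refine mul_nonneg ?_ (Real.exp_pos _).le
    have hx1 : 1 / 2 ≤ Real.cos (θ + -x) := by
      rw [← Real.cos_pi_div_three]
      exact Real.cos_le_cos_of_nonneg_of_le_pi (by linarith [hx.2]) (by linarith) (by linarith [hx.1])
    have e : Real.cos θ * (Real.sin (θ + -x) + Real.cos (θ + -x) * (-Real.tan θ + 4 * x)) =
        4 * x * (Real.cos θ * Real.cos (θ + -x)) - Real.sin x := by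
      rw [Real.tan_eq_sin_div_cos]
      have : Real.sin x = Real.sin (θ - (θ + -x)) := by congr 1; ring
      rw [this, Real.sin_sub]
      field_simp
      ring
    have h5 : Real.sin x ≤ x := Real.sin_le hx.1.le
    have h6 : 1 / 4 ≤ Real.cos θ * Real.cos (θ + -x) := by nlinarith
    have h7 : 0 ≤ Real.cos θ * (Real.sin (θ + -x) + Real.cos (θ + -x) * (-Real.tan θ + 4 * x)) := by
      rw [e]
      nlinarith [hx.1]
    exact nonneg_of_mul_nonneg_right h7 hc0
  have h2 := hmono ⟨le_rfl, hθ0.le⟩ ⟨h0, h1⟩ h0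
  simp only [hh] at h2
  rw [neg_zero, add_zero, mul_zero, neg_zero, zero_pow (by norm_num), mul_zero, add_zero,
    Real.exp_zero, mul_one] at h2
  rw [le_div_iff₀ hc0]
  calc Real.exp (Real.tan θ * x - 2 * x ^ 2) * Real.cos θ ≤ Real.exp (Real.tan θ * x - 2 * x ^ 2) *
        (Real.cos (θ + -x) * Real.exp (-(Real.tan θ * x) + 2 * x ^ 2)) :=
        mul_le_mul_of_nonneg_left h2 (Real.exp_pos _).le
    _ = Real.cos (θ + -x) * (Real.exp (Real.tan θ * x - 2 * x ^ 2) *
        Real.exp (-(Real.tan θ * x) + 2 * x ^ 2)) := by ring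
    _ = Real.cos (θ + -x) := by
        rw [← Real.exp_add]
        ring_nf
        simp

/-- The weights of the pieces with a negative mass. -/
theorem wL_lower (hθ0 : 0 < θ) (hθ1 : θ ≤ Real.pi / 3) (b : ℤ × ℤ) (D : Finset (ℤ × ℤ))
    (A : Finset Ed) {x : ℝ} (h0 : 0 ≤ x) (h1 : x ≤ θ) :
    1 / 2 ≤ wL θ b D A (-x) ∧ (IsLp D A → 1 ≤ wL θ b D A (-x)) := by
  have hpi := Real.pi_pos
  have hc := cos_half hθ0 hθ1
  have hs := sin_pos' hθ0 hθ1
  have hc0 : 0 < Real.cos θ := by linarith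
  have hc1 : Real.cos θ ≤ 1 := Real.cos_le_one θ
  have hs2 : Real.sin (2 * θ) = 2 * Real.sin θ * Real.cos θ := Real.sin_two_mul θ
  -- `sin` on `[θ, 2 θ]`
  have key : ∀ y, θ ≤ y → y ≤ 2 * θ → Real.sin θ ≤ Real.sin y := by
    intro y h2 h3
    rcases le_total y (Real.pi / 2) with h4 | h4
    · exact Real.sin_le_sin_of_le_of_le_pi_div_two (by linarith) h4 h2
    · rw [← Real.sin_pi_sub y]
      exact Real.sin_le_sin_of_le_of_le_pi_div_two (by linarith) (by linarith) (by linarith)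
  unfold wL
  constructor
  · split_ifs
    · rw [le_div_iff₀ hc0]
      have := Real.cos_le_cos_of_nonneg_of_le_pi (x := θ + -x) (y := θ) (by linarith) (by linarith)
        (by linarith)
      linarith
    · rw [le_div_iff₀ hs, sub_neg_eq_add]
      have := key (θ + x) (by linarith) (by linarith)
      linarith
    · rw [le_div_iff₀ (by rw [hs2]; positivity), hs2]
      have := key (2 * θ + -x) (by linarith) (by linarith)
      nlinarith
  · intro hl
    rw [if_pos hl, one_le_div hc0]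
    exact Real.cos_le_cos_of_nonneg_of_le_pi (by linarith) (by linarith) (by linarith)

/-- Strands without mass have weight one. -/
theorem wL_zero (hθ0 : 0 < θ) (hθ1 : θ ≤ Real.pi / 3) (b : ℤ × ℤ) (D : Finset (ℤ × ℤ))
    (A : Finset Ed) : wL θ b D A 0 = 1 := by
  have hc := cos_half hθ0 hθ1
  have hs := sin_pos' hθ0 hθ1
  have hc0 : 0 < Real.cos θ := by linarith
  have hs2 : Real.sin (2 * θ) = 2 * Real.sin θ * Real.cos θ := Real.sin_two_mul θ
  unfold wL
  rw [add_zero, sub_zero, add_zero, div_self hc0.ne', div_self hs.ne', div_self (by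
    rw [hs2]; positivity)]
  split_ifs <;> rfl

/-! ### sums of the powers of `2 cos θ` -/

theorem prod_zpow {c : ℝ} (hc : c ≠ 0) (T : Finset (Finset Ed)) (φ : Finset Ed → ℤ) :
    ∏ A ∈ T, c ^ φ A = c ^ ∑ A ∈ T, φ A := by
  classical
  induction T using Finset.induction_on with
  | empty => simp
  | insert A s hA ih => rw [prod_insert hA, sum_insert hA, zpow_add₀ hc, ih]

section

variable (hq : IsPolygon q) (hD : Encloses q D)
include hq hD

open Classical in
/-- The strands around a boundary site which visit a zone at this site. -/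
theorem sum_vis (ω : Cfg) (hZD : Z ⊆ D) (hZ : ECon Z) (hm : m ≤ n) (hqm : q m ∈ sites Z) :
    |∑ A ∈ (pcs ω D).filter (Vz Z), if Ard q m A then sg q A else 0| ≤ 1 := by
  obtain ⟨a, ham, ha⟩ := off_pos hq hD ω hZD hZ hm hqm
  have h1 := sum_alt hq hD ω hm
  have h2 := sum_alt hq hD ω (ham.trans hm)
  have e1 : (pcs ω D).filter (Ard q m) = (pcs ω D).filter (fun A => Ard q m A ∧ Vz Z A) ∪
      (pcs ω D).filter (Ard q a) := by
    ext A
    simp only [mem_filter, mem_union]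
    constructor
    · rintro ⟨h3, h4⟩
      by_cases h5 : Vz Z A
      · exact Or.inl ⟨h3, h4, h5⟩
      · exact Or.inr ⟨h3, (ha A h3).1 ⟨h4, h5⟩⟩
    · rintro (⟨h3, h4, -⟩ | ⟨h3, h4⟩)
      · exact ⟨h3, h4⟩
      · exact ⟨h3, ((ha A h3).2 h4).1⟩
  have e2 : Disjoint ((pcs ω D).filter (fun A => Ard q m A ∧ Vz Z A))
      ((pcs ω D).filter (Ard q a)) := by
    rw [disjoint_left]
    intro A h3 h4
    rw [mem_filter] at h3 h4
    exact ((ha A h3.1).2 h4.2).2 h3.2.2
  have e3 : ∑ A ∈ (pcs ω D).filter (Vz Z), (if Ard q m A then sg q A else 0) =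
      ∑ A ∈ (pcs ω D).filter (fun A => Ard q m A ∧ Vz Z A), sg q A := by
    rw [← sum_filter, filter_filter]
    refine sum_congr ?_ fun _ _ => rfl
    ext A
    simp only [mem_filter]
    tauto
  rw [e3]
  rw [e1, sum_union e2, h2] at h1
  have := sgm_sub_bd hq m a
  rw [show ∑ A ∈ (pcs ω D).filter (fun A => Ard q m A ∧ Vz Z A), sg q A = sgm q m - sgm q a by
    omega]
  exact this

variable (hF : Flt D (q l) R) (hl : l < n) (h0 : q 0 ∉ sites (hbox (q l) R))
include hF hl h0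

open Classical in
/-- The local functional in a polygon domain. -/
theorem FL_prod (hr : 1 ≤ r) (hrR : r ≤ R) (hI : Iso (q l) r R ω) (σ : ℤ)
    (hg : ∀ z, g z ≠ 0 → z ∈ sites (hbox (q l) R)) :
    FL θ (q l) r R σ g ω = ∏ A ∈ (pcs ω D).filter (Vz (hbox (q l) r)),
      (wL θ (q l) (hbox (q l) R) A (mass D (q 0) g A) *
        (2 * Real.cos θ) ^ (σ * if Ard q l A then sg q A else 0)) := by
  have hR : 1 ≤ R := by omega
  unfold FL
  rw [if_pos hI]
  have e3 : (pcs ω (hbox (q l) R)).filter (Vz (hbox (q l) r)) =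
      (pcs ω D).filter (Vz (hbox (q l) r)) := by
    ext A
    rw [mem_filter, mem_filter]
    exact (iso_iff hF hrR hI).symm
  rw [e3]
  refine prod_congr rfl fun A hA => ?_
  rw [mem_filter] at hA
  obtain ⟨hE, hInn⟩ := inn_of_iso hq hD hF hR hl h0 hrR hI hA.1 hA.2
  rw [mass_inn hq hD hF hR hl h0 hA.1 hE hInn hg, exp_inn hq hD hF hR hl h0 hA.1 hE hInn]

open Classical in
/-- The local functional: the power of `2 cos θ` is bounded. -/
theorem FL_prod2 (hθ0 : 0 < θ) (hθ1 : θ ≤ Real.pi / 3) (hr : 1 ≤ r) (hrR : r ≤ R)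
    (hI : Iso (q l) r R ω) {σ : ℤ} (hσ : σ = 1 ∨ σ = -1)
    (hg : ∀ z, g z ≠ 0 → z ∈ sites (hbox (q l) R)) :
    ∃ y : ℝ, 1 / 2 ≤ y ∧ y ≤ 2 ∧ FL θ (q l) r R σ g ω =
      (∏ A ∈ (pcs ω D).filter (Vz (hbox (q l) r)),
        wL θ (q l) (hbox (q l) R) A (mass D (q 0) g A)) * y := by
  have hc := cos_half hθ0 hθ1
  have hc1 : Real.cos θ ≤ 1 := Real.cos_le_one θ
  have h2c : (2 * Real.cos θ) ≠ 0 := by linarith
  have h1 := FL_prod hq hD hF hl h0 (θ := θ) hr hrR hI σ hg
  rw [prod_mul_distrib, prod_zpow h2c, ← mul_sum] at h1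
  refine ⟨_, ?_, ?_, h1⟩
  all_goals
    have h3 := sum_vis hq hD ω (Z := hbox (q l) r) ((hbox_mono hrR).trans (hbox_sub hF))
      (econ_hbox hr) hl.le (by rw [mem_sites_hbox hr]; omega)
    set s := ∑ A ∈ (pcs ω D).filter (Vz (hbox (q l) r)), (if Ard q l A then sg q A else 0) with hs
    have h4 : σ * s = 1 ∨ σ * s = 0 ∨ σ * s = -1 := by
      rw [abs_le] at h3
      rcases hσ with rfl | rfl <;> omega
    rcases h4 with h4 | h4 | h4 <;> rw [h4]
  · rw [zpow_one]; linarith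
  · rw [zpow_zero]; norm_num
  · rw [zpow_neg_one, one_div]
    exact inv_anti₀ (by linarith) (by linarith)
  · rw [zpow_one]; linarith
  · rw [zpow_zero]; norm_num
  · rw [zpow_neg_one]
    refine (inv_le_one_of_one_le₀ (by linarith)).trans (by norm_num)

open Classical in
/-- **The majorant of the local functional.** -/
theorem FL_le_poly (hθ0 : 0 < θ) (hθ1 : θ ≤ Real.pi / 3) (h : Sc K r) (hrR : 2 * r ≤ R)
    {σ : ℤ} (hσ : σ = 1 ∨ σ = -1) (hg : ∀ z, |g z| ≤ K / (r : ℝ) ^ 2)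
    (hs : ∀ z, g z ≠ 0 → z ∈ sites (core K (q l) r)) {N : ℕ}
    (hN : (bigs D (hbox (q l) r) (dq K r) ω).card ≤ N) :
    |FL θ (q l) r R σ g ω| ≤ 2 * (MW θ ^ N * Real.exp (-(Real.tan θ * Sm g (dq K r) ω))) := by
  have hr8 := h.r8
  have hR : 1 ≤ R := by omega
  have hM2 := two_le_MW hθ0 hθ1
  have hM1 : 1 ≤ MW θ := by linarith
  have p1 := Real.exp_pos (-(Real.tan θ * Sm g (dq K r) ω))
  by_cases hI : Iso (q l) r R ω
  swap
  · unfold FL
    rw [if_neg hI, abs_zero]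
    positivity
  have hsZ : ∀ z, g z ≠ 0 → z ∈ sites (hbox (q l) R) := fun z hz =>
    sites_mono (h.core_sub.trans (hbox_mono (by omega))) (hs z hz)
  obtain ⟨y, hy1, hy2, hy⟩ := FL_prod2 hq hD hF hl h0 hθ0 hθ1 (by omega) (by omega) hI hσ hsZ
  rw [hy, abs_mul, abs_of_nonneg (by linarith : 0 ≤ y), mul_comm]
  obtain ⟨hr1, hr2⟩ := flat_range hq hD hF hR hl h0
  have hF2 : Flt D (q l) (2 * r) := hF.mono hrR
  have h02 : q 0 ∉ sites (hbox (q l) (2 * r)) := fun h' => h0 (sites_mono (hbox_mono hrR) h')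
  have hB := bumps_flat hq hD (J := ({()} : Finset Unit)) (i := fun _ => l) (r := fun _ => r)
    (g := fun _ => g) (fun _ _ => h) (fun _ _ => hF2) (fun _ _ => hg) (fun _ _ => hs)
    (fun _ _ _ _ h => absurd rfl h)
  set T := (pcs ω D).filter (Vz (hbox (q l) r)) with hT
  have h1 := hB.maj_det (wtq hθ0 hθ1 q D n) (T := T) (T' := T) (ω := ω) subset_rfl
    (filter_subset _ _) (fun _ _ => trivial) (fun A hA hAl j hj _ hG =>
      mem_filter.2 ⟨hA, hB.loop j hj ω A hA trivial hAl hG⟩)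
  simp only [sum_singleton, prod_singleton, Finset.sdiff_self, card_empty, pow_zero, one_mul] at h1
  have h2 : ∏ A ∈ T.filter (Far {()} D (fun _ => hbox (q l) r) (fun _ => dq K r)),
      |wB θ (gB θ) q D n A (mass D (q 0) g A)| = 1 := by
    refine prod_eq_one fun A hA => ?_
    rw [mem_filter, hT, mem_filter] at hA
    obtain ⟨⟨hA, hV⟩, hAl, hfar⟩ := hA
    have h3 := hfar () (mem_singleton_self _)
    have h4 : Small (dq K r) A := by
      by_contra h'
      exact h3 ⟨hV, h'⟩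
    rw [mass_small hq hD h hF2 hl h02 hs hA hAl h4 hV, wB_hx (sin_pos' hθ0 hθ1)
      (by have := cos_half hθ0 hθ1; linarith), abs_one]
  have e1 : ∏ A ∈ T, wL θ (q l) (hbox (q l) R) A (mass D (q 0) g A) =
      ∏ A ∈ T, wB θ (gB θ) q D n A (mass D (q 0) g A) := by
    refine prod_congr rfl fun A hA => ?_
    rw [hT, mem_filter] at hA
    obtain ⟨hE, hInn⟩ := inn_of_iso hq hD hF hR hl h0 (by omega) hI hA.1 hA.2
    rw [wB_inn (θ := θ) hq hD hF hR hl h0 (by omega) hA.1 hE hInn]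
  rw [e1, abs_prod]
  rw [h2, mul_one] at h1
  have h5 := sum_nb1 (Z := fun _ : Unit => core K (q l) r) (d := fun _ => dq K r)
    (F := fun _ => g) (j := ()) hs ω
  rw [h5] at h1
  refine mul_le_mul hy2 (h1.trans ?_) (prod_nonneg fun _ _ => abs_nonneg _) (by norm_num)
  exact mul_le_mul_of_nonneg_right (pow_le_pow_right₀ hM1 hN) p1.le

omit hq hD hF hl h0 in
/-- The masses of a nonnegative charge. -/
theorem mass_range (hZD : Z ⊆ D) (hf0 : ∀ z, 0 ≤ f z) (hf : ∀ z, f z ≠ 0 → z ∈ sites Z)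
    {p : ℤ × ℤ} (ht : ∑ᶠ z, f z = θ) : 0 ≤ mass D p f A ∧ mass D p f A ≤ θ := by
  classical
  unfold mass
  constructor
  · exact sum_nonneg fun z _ => by split_ifs; exacts [hf0 z, le_rfl]
  · rw [← ht, ← sum_sites hZD hf]
    exact sum_le_sum fun z _ => by split_ifs; exacts [le_rfl, hf0 z]

open Classical in
/-- **The lower bound of the local functional.** -/
theorem FL_lower_poly (hθ0 : 0 < θ) (hθ1 : θ ≤ Real.pi / 3) (h : Sc K r) (hrR : 2 * r ≤ R)
    (hf0 : ∀ z, 0 ≤ f z) (hf : ∀ z, f z ≤ K / (r : ℝ) ^ 2)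
    (hs : ∀ z, f z ≠ 0 → z ∈ sites (core K (q l) r)) (ht : ∑ᶠ z, f z = θ) {N : ℕ}
    (hN : (bigs D (hbox (q l) r) (dq K r) ω).card ≤ N) (hI : Iso (q l) r R ω)
    {Az : Finset (ℤ × ℤ)}
    (hAz : ∀ s, f s ≠ 0 → ∀ v : ℤ × ℤ, (nm (v - s) : ℝ) < dq K r → v ∈ Az) :
    Real.exp (Real.tan θ * Sm f (dq K r) ω - 2 * ∑ ℓ ∈ smf Az (dq K r) ω, (G f ℓ) ^ 2) ≤
      2 * 2 ^ N * FL θ (q l) r R (-1) (-f) ω := by
  have hr8 := h.r8
  have hR : 1 ≤ R := by omega
  have hfa : ∀ z, |f z| ≤ K / (r : ℝ) ^ 2 := fun z => by rw [abs_of_nonneg (hf0 z)]; exact hf z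
  have hsZ : ∀ z, (-f) z ≠ 0 → z ∈ sites (hbox (q l) R) := fun z hz =>
    sites_mono (h.core_sub.trans (hbox_mono (by omega))) (hs z (by
      intro h'; apply hz; show -(f z) = 0; rw [h', neg_zero]))
  obtain ⟨y, hy1, hy2, hy⟩ := FL_prod2 hq hD hF hl h0 hθ0 hθ1 (by omega) (by omega) hI
    (Or.inr rfl) hsZ
  have hF2 : Flt D (q l) (2 * r) := hF.mono hrR
  have h02 : q 0 ∉ sites (hbox (q l) (2 * r)) := fun h' => h0 (sites_mono (hbox_mono hrR) h')
  have hB := bumps_flat hq hD (J := ({()} : Finset Unit)) (i := fun _ => l) (r := fun _ => r)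
    (g := fun _ => f) (fun _ _ => h) (fun _ _ => hF2) (fun _ _ => hfa) (fun _ _ => hs)
    (fun _ _ _ _ h => absurd rfl h)
  have hcD : core K (q l) r ⊆ D :=
    h.core_sub.trans ((hbox_mono (by omega)).trans (hbox_sub hF))
  set T := (pcs ω D).filter (Vz (hbox (q l) r)) with hT
  set fac : Finset Ed → ℝ := fun A => (if ¬ IsLp D A ∧ ¬ Small (dq K r) A then 1 / 2 else 1) *
    Real.exp (if IsLp D A ∧ Small (dq K r) A then Real.tan θ * G f A - 2 * (G f A) ^ 2 else 0)
    with hfac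
  have hfac0 : ∀ A, 0 < fac A := fun A => by
    simp only [hfac]
    split_ifs <;> positivity
  -- the weights
  have h1 : ∀ A ∈ T, fac A ≤ wL θ (q l) (hbox (q l) R) A (mass D (q 0) (-f) A) := by
    intro A hA
    rw [hT, mem_filter] at hA
    obtain ⟨hE, hInn⟩ := inn_of_iso hq hD hF hR hl h0 (by omega) hI hA.1 hA.2
    obtain ⟨m0, m1⟩ := mass_range (A := A) (p := q 0) hcD hf0 hs ht
    obtain ⟨w1, w2⟩ := wL_lower hθ0 hθ1 (q l) (hbox (q l) R) A m0 m1
    rw [mass_neg]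
    simp only [hfac]
    by_cases hl' : IsLp D A
    · have hl2 := (isLp_inn hq hD hF hR hl h0 hE hInn).1 hl'
      rw [if_neg (show ¬ (¬ IsLp D A ∧ ¬ Small (dq K r) A) from fun h' => h'.1 hl'), one_mul]
      by_cases hs' : Small (dq K r) A
      · rw [if_pos ⟨hl', hs'⟩]
        have h3 := hB.mass_lp hA.1 trivial hl'
        simp only [sum_singleton] at h3
        rw [h3] at m0 m1 ⊢
        unfold wL
        rw [if_pos hl2]
        exact exp_le_wt hθ0 hθ1 m0 m1
      · rw [if_neg (fun h' => hs' h'.2), Real.exp_zero]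
        exact w2 hl2
    · rw [if_neg (show ¬ (IsLp D A ∧ Small (dq K r) A) from fun h' => hl' h'.1), Real.exp_zero,
        mul_one]
      by_cases hs' : Small (dq K r) A
      · rw [if_neg (fun h' => h'.2 hs'), mass_small hq hD h hF2 hl h02 hs hA.1 hl' hs' hA.2,
          neg_zero, wL_zero hθ0 hθ1]
      · rw [if_pos ⟨hl', hs'⟩]
        exact w1
  -- the product of the factors
  have h2 : ∏ A ∈ T, fac A ≤ ∏ A ∈ T, wL θ (q l) (hbox (q l) R) A (mass D (q 0) (-f) A) :=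
    prod_le_prod (fun A _ => (hfac0 A).le) h1
  have h3 : (1 / 2 : ℝ) ^ N ≤ ∏ A ∈ T, (if ¬ IsLp D A ∧ ¬ Small (dq K r) A then (1 / 2 : ℝ) else 1) := by
    rw [← prod_filter, prod_const]
    refine pow_le_pow_of_le_one (by norm_num) (by norm_num) (le_trans (card_le_card ?_) hN)
    intro A hA
    rw [mem_filter, hT, mem_filter] at hA
    exact mem_filter.2 ⟨hA.1.1, hA.1.2, hA.2.2⟩
  have h4 : ∏ A ∈ T, Real.exp (if IsLp D A ∧ Small (dq K r) A then
      Real.tan θ * G f A - 2 * (G f A) ^ 2 else 0) =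
      Real.exp (Real.tan θ * Sm f (dq K r) ω - 2 * ∑ ℓ ∈ smf Az (dq K r) ω, (G f ℓ) ^ 2) := by
    rw [← Real.exp_sum, ← sum_filter]
    congr 1
    rw [← sum_G (F := sites (core K (q l) r)) hs hAz ω, mul_sum, mul_sum, ← sum_sub_distrib]
    have e1 : ∑ A ∈ T.filter (fun A => IsLp D A ∧ Small (dq K r) A),
        (Real.tan θ * G f A - 2 * (G f A) ^ 2) =
        ∑ A ∈ (T.filter (fun A => IsLp D A ∧ Small (dq K r) A)).filter (fun A => G f A ≠ 0),
        (Real.tan θ * G f A - 2 * (G f A) ^ 2) := by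
      symm
      refine sum_filter_of_ne fun A _ hA => ?_
      intro h'
      exact hA (by rw [h']; ring)
    have e2 : ∑ A ∈ smf Az (dq K r) ω, (Real.tan θ * G f A - 2 * (G f A) ^ 2) =
        ∑ A ∈ (smf Az (dq K r) ω).filter (fun A => G f A ≠ 0),
        (Real.tan θ * G f A - 2 * (G f A) ^ 2) := by
      symm
      refine sum_filter_of_ne fun A _ hA => ?_
      intro h'
      exact hA (by rw [h']; ring)
    rw [e1, e2]
    refine sum_congr ?_ fun _ _ => rfl
    ext A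
    simp only [mem_filter]
    constructor
    · rintro ⟨⟨h3, h4, h5⟩, h6⟩
      rw [hT, mem_filter] at h3
      have hL := BR.IsLp.isLoop h3.1 h4
      refine ⟨mem_smf.2 ⟨hL, ?_, h5⟩, h6⟩
      obtain ⟨z, hz, hfz⟩ := H562.MAJ.exists_ins_of_G h6
      obtain ⟨w, hw⟩ := vs_nonempty hL
      exact ⟨w, hw, hAz z hfz w (H562.MAJ.near_of_ins hL h5 hz hw)⟩
    · rintro ⟨h3, h6⟩
      obtain ⟨k1, -, k3⟩ := mem_smf.1 h3
      obtain ⟨k4, k5⟩ := hB.mem_pcs (mem_singleton_self ()) k1 k3 h6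
      exact ⟨⟨mem_filter.2 ⟨k4, hB.loop () (mem_singleton_self ()) ω A k4 trivial k5 h6⟩, k5, k3⟩, h6⟩
  have h5 : ∏ A ∈ T, fac A = (∏ A ∈ T, (if ¬ IsLp D A ∧ ¬ Small (dq K r) A then (1 / 2 : ℝ) else 1)) *
      Real.exp (Real.tan θ * Sm f (dq K r) ω - 2 * ∑ ℓ ∈ smf Az (dq K r) ω, (G f ℓ) ^ 2) := by
    rw [← h4, ← prod_mul_distrib]
  set E := Real.exp (Real.tan θ * Sm f (dq K r) ω - 2 * ∑ ℓ ∈ smf Az (dq K r) ω, (G f ℓ) ^ 2) with hE
  have hE0 : 0 < E := Real.exp_pos _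
  set W := ∏ A ∈ T, wL θ (q l) (hbox (q l) R) A (mass D (q 0) (-f) A) with hW
  have h6 : (1 / 2 : ℝ) ^ N * E ≤ W := by
    rw [h5] at h2
    exact (mul_le_mul_of_nonneg_right h3 hE0.le).trans h2
  have hW0 : 0 ≤ W := le_trans (by positivity) h6
  rw [hy]
  have h7 : E = 2 ^ N * ((1 / 2 : ℝ) ^ N * E) := by
    rw [← mul_assoc, ← mul_pow]
    norm_num
  calc E = 2 ^ N * ((1 / 2 : ℝ) ^ N * E) := h7
    _ ≤ 2 ^ N * W := mul_le_mul_of_nonneg_left h6 (by positivity)
    _ ≤ 2 ^ N * (W * (2 * y)) := mul_le_mul_of_nonneg_left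
        (le_mul_of_one_le_right hW0 (by linarith)) (by positivity)
    _ = 2 * 2 ^ N * (W * y) := by ring

end

end Vale.Agent.P167.QB
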