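import Vale.Agent.P167.QB.Lw1
import Vale.Agent.P167.QB.Maj3
import Vale.Agent.P167.H436.ND.Cut2
import Vale.Agent.P167.H135.ND.Cls3

/-!
# P167, general `q`, block BRQ, lower bound: the functional on the good event

`low_det`: on the good event the functional is at least a constant times the inverse of the majorants of
the two rings.
-/

namespace Vale.Agent.P167.QB

open Finset Relation Vale.Agent.P167 Vale.Agent.P167.BR Vale.Agent.P167.FK
open Vale.Agent.P167.QX (lo hi exists_xy lo_xy hi_xy wB)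
open Vale.Agent.P167.H436.ND
open Vale.Agent.P167.H542.Q (cB cB_pos thB phs_thB wR_thB)
open Vale.Agent.P167.H208.ND (range_i a_mono mass_lin rng_ring)
open Vale.Agent.P167.H562.QM (MajA)
open Vale.Agent.P167.H562.MAJ (Sm)
open Vale.Agent.P167.H562.SML (smf)

variable {D : Finset (ℤ × ℤ)} {ω : Cfg} {n : ℕ} {q : ZMod n → ℤ × ℤ} {A B : Finset Ed}
  {k l m : ℕ} {θ M : ℝ} {R r : ℤ} {a : Fin 2 → ℤ} {f : Fin 2 → ℤ × ℤ → ℝ}

theorem zr_sub_hbox (hw : Win q D m R) (ha : Scl 4000 4 R a) (i : Fin 2) :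
    Zr (q m) (a i) ⊆ hbox (q m) (2 * a 1) := by
  have h01 := a_mono hw ha (i := 0) (j := 1) (by decide)
  obtain ⟨r1, r2, r3, r4⟩ := range_i hw ha 0
  obtain ⟨r1', r2', r3', r4'⟩ := range_i hw ha 1
  intro v hv
  have hv' : v ∈ Zg (q m) (a i) (2 * a i) := hv
  have e4 : a i ≤ a 1 := by
    rcases Fin.eq_zero_or_eq_succ i with hi | ⟨j, hi⟩
    · rw [hi]; omega
    · have : j = 0 := Subsingleton.elim _ _
      rw [hi, this]
      exact le_rfl
  rw [mem_Zg] at hv'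
  rw [mem_hbox]
  omega

theorem vis_loc (hw : Win q D m R) (ha : Scl 4000 4 R a) (hml : (m : ℤ) + R ≤ l) (hlk : l ≤ k)
    (hc : ¬ Crs D (q m) (2 * a 1) R ω) (hA : A ∈ pcs ω D) (hV : ∃ i, Vz (Zr (q m) (a i)) A) :
    ¬ Ard q l A ∧ hi q A < k := by
  obtain ⟨r1, r2, r3, r4⟩ := range_i hw ha 0
  refine gd_loc hw (by omega) hml hlk hc hA ?_
  obtain ⟨i, d, hd, hd2⟩ := hV
  exact ⟨d, hd, eds_mono (zr_sub_hbox hw ha i) hd2⟩

open Classical in
/-- The product over the avoiding pieces. -/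
theorem av_prod (hw : Win q D m R) (ha : Scl 4000 4 R a) (hml : (m : ℤ) + R ≤ l) (hlk : l ≤ k)
    (hkn : k ≤ n) (hls : q l ∈ sites D) (h0 : 0 < θ) (h1 : θ ≤ Real.pi / 3)
    (hfs : ∀ i z, f i z ≠ 0 → z ∈ Kr (q m) (a i)) (hf1 : ∀ i, ∑ᶠ z, f i z = 1)
    (hg : Gd q D k l m R a ω) :
    1 / 2 ≤ ∏ A ∈ (pcs ω D).filter (fun A => ∀ i, ¬ Vz (Zr (q m) (a i)) A),
      wB θ (gB θ) q D k A (mass D (q 0) (Ft (fun _ => θ / 2) f (dlt (q l) (-θ))) A) := by
  have hx := sin_pos' h0 h1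
  have hc2 := cos_half h0 h1
  have hc : 0 < Real.cos θ := by linarith
  have e1 : ∏ A ∈ (pcs ω D).filter (fun A => ∀ i, ¬ Vz (Zr (q m) (a i)) A),
      wB θ (gB θ) q D k A (mass D (q 0) (Ft (fun _ => θ / 2) f (dlt (q l) (-θ))) A) =
      ∏ A ∈ (pcs ω D).filter (fun A => ∀ i, ¬ Vz (Zr (q m) (a i)) A),
        (2 * Real.cos θ) ^ (if Ard q l A ∧ ¬ Ard q m A then sg q A else 0) := by
    refine prod_congr rfl fun A hA => ?_
    rw [mem_filter] at hA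
    exact av_wt hw ha hml hlk hkn hls hx hc hfs hf1 hg hA.1 hA.2
  rw [e1, prod_zpow (by positivity : (2 * Real.cos θ) ≠ 0)]
  have e2 : ∑ A ∈ (pcs ω D).filter (fun A => ∀ i, ¬ Vz (Zr (q m) (a i)) A),
      (if Ard q l A ∧ ¬ Ard q m A then sg q A else 0) =
      ∑ A ∈ (pcs ω D).filter (fun A => Ard q l A ∧ ¬ Ard q m A), sg q A := by
    rw [← sum_filter, filter_filter]
    refine sum_congr (filter_congr fun A hA => ?_) fun _ _ => rfl
    constructor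
    · exact fun h => h.2
    · refine fun h => ⟨fun i hV => ?_, h⟩
      exact (vis_loc hw ha hml hlk hg.crs hA ⟨i, hV⟩).1 h.1
  rw [e2]
  obtain ⟨c, hcn, h3⟩ := sum_diff hw.poly hw.enc ω (hlk.trans hkn) hw.l1.le (w := l) (w' := m)
  rw [h3]
  have h4 := sgm_sub_bd hw.poly l c
  have h5 : (-1 : ℤ) ≤ sgm q l - sgm q c := (abs_le.1 h4).1
  calc (1 / 2 : ℝ) ≤ (2 * Real.cos θ) ^ (-1 : ℤ) := by
        rw [zpow_neg_one, one_div]
        refine inv_anti₀ (by positivity) ?_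
        have := Real.cos_le_one θ
        linarith
    _ ≤ _ := zpow_le_zpow_right₀ (by linarith) h5

open Classical in
/-- The product over the visiting pieces. -/
theorem vis_prod (hw : Win q D m R) (ha : Scl 4000 4 R a) (hml : (m : ℤ) + R ≤ l) (hlk : l ≤ k)
    (hkn : k ≤ n) (hls : q l ∈ sites D) (hM : McL θ M) (h0 : 0 < θ) (h1 : θ ≤ Real.pi / 3)
    (hf0 : ∀ i z, 0 ≤ f i z)
    (hfs : ∀ i z, f i z ≠ 0 → z ∈ Kr (q m) (a i)) (hf1 : ∀ i, ∑ᶠ z, f i z = 1)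
    (hG : ∀ i (ℓ : Finset Ed), IsLoop ω ℓ → Small (kp * a i) ℓ →
      |G (fun z => θ / 2 * f i z) ℓ| ≤ 1 / 10)
    (hg : Gd q D k l m R a ω) {N : Fin 2 → ℕ}
    (hN : ∀ i, MajA (Zr (q m) (a i)) (kp * a i) ω (N i)) :
    (∏ i, Yl θ M (θ / 2) (f i) (q m) (a i) (N i) ω)⁻¹ ≤
      ∏ A ∈ (pcs ω D).filter (fun A => ∃ i, Vz (Zr (q m) (a i)) A),
      wB θ (gB θ) q D k A (mass D (q 0) (Ft (fun _ => θ / 2) f (dlt (q l) (-θ))) A) := by
  have e1 : Ft (fun _ => 1) (fun i z => θ / 2 * f i z) (dlt (q l) (-θ)) =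
      Ft (fun _ => θ / 2) f (dlt (q l) (-θ)) := by
    funext z
    simp [Ft]
  have key := H542.Q.PW.s_PW θ (cB θ) D (thB θ (gB θ) q D k) (q 0) (phs_thB h0 h1 (gB_cos θ)) 2
    (fun i => Zr (q m) (a i)) (fun i => Kr (q m) (a i)) (fun i => kp * a i) (rng_ring hw ha)
    (fun i z => θ / 2 * f i z) (dlt (q l) (-θ)) (fun i z hz => hfs i z (right_ne_zero_of_mul hz)) ω
    hG (fun A hA hv => ?_) N hN M hM.h1 hM.cb
  · rw [e1] at key
    simp only [wR_thB (gB_cos θ)] at key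
    rw [← prod_inv_distrib]
    refine le_trans (le_of_eq ?_) (key.2 fun A hA hv => ?_)
    · refine prod_congr rfl fun i _ => ?_
      unfold Yl
      rw [mul_inv, ← Real.exp_neg, inv_pow]
      congr 2
      ring
    · obtain ⟨i, hv, -⟩ := hv
      exact vis_wt hw ha hml hlk hkn hls hM h0 hf0 hfs hf1 hg hA ⟨i, hv⟩
  · have h2 : ¬ Ard q l A := by
      obtain ⟨i, hv', -⟩ := hv
      exact (vis_loc hw ha hml hlk hg.crs hA ⟨i, hv'⟩).1
    obtain ⟨-, h3⟩ := H135.ND.s_small n q D m R hw 2 a ha ω A hA hv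
    refine ⟨by rw [mass_dlt hw.poly hw.enc (hlk.trans hkn) hA hls, if_neg h2], fun hl => ?_⟩
    rw [e1, mass_lin, mass_dlt hw.poly hw.enc (hlk.trans hkn) hA hls, if_neg h2, add_zero]
    refine sum_eq_zero fun i _ => ?_
    have : mass D (q 0) (f i) A = 0 := by
      unfold mass
      refine sum_eq_zero fun z _ => ?_
      by_cases hz : f i z = 0
      · rw [hz, ite_self]
      · rw [if_neg (h3 hl i z (hfs i z hz))]
    rw [this, mul_zero]

/-- **The functional on the good event.** -/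
theorem low_det (hw : Win q D m R) (ha : Scl 4000 4 R a) (hml : (m : ℤ) + R ≤ l) (hlk : l ≤ k)
    (hkn : k ≤ n) (hls : q l ∈ sites D) (hM : McL θ M) (h0 : 0 < θ) (h1 : θ ≤ Real.pi / 3)
    (hf0 : ∀ i z, 0 ≤ f i z)
    (hfs : ∀ i z, f i z ≠ 0 → z ∈ Kr (q m) (a i)) (hf1 : ∀ i, ∑ᶠ z, f i z = 1)
    (hG : ∀ i (ℓ : Finset Ed), IsLoop ω ℓ → Small (kp * a i) ℓ →
      |G (fun z => θ / 2 * f i z) ℓ| ≤ 1 / 10)
    (hg : Gd q D k l m R a ω) {N : Fin 2 → ℕ}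
    (hN : ∀ i, MajA (Zr (q m) (a i)) (kp * a i) ω (N i)) :
    0 ≤ XG θ q D k (Ft (fun _ => θ / 2) f (dlt (q l) (-θ))) ω ∧
    1 ≤ 2 * XG θ q D k (Ft (fun _ => θ / 2) f (dlt (q l) (-θ))) ω *
      ∏ i, Yl θ M (θ / 2) (f i) (q m) (a i) (N i) ω := by
  classical
  have h2 := av_prod hw ha hml hlk hkn hls h0 h1 hfs hf1 hg
  have h3 := vis_prod hw ha hml hlk hkn hls hM h0 h1 hf0 hfs hf1 hG hg hN
  have hsp : XG θ q D k (Ft (fun _ => θ / 2) f (dlt (q l) (-θ))) ω =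
    (∏ A ∈ (pcs ω D).filter (fun A => ∀ i, ¬ Vz (Zr (q m) (a i)) A),
      wB θ (gB θ) q D k A (mass D (q 0) (Ft (fun _ => θ / 2) f (dlt (q l) (-θ))) A)) *
    ∏ A ∈ (pcs ω D).filter (fun A => ∃ i, Vz (Zr (q m) (a i)) A),
      wB θ (gB θ) q D k A (mass D (q 0) (Ft (fun _ => θ / 2) f (dlt (q l) (-θ))) A) := by
    unfold XG QX.XB
    rw [← prod_filter_mul_prod_filter_not (pcs ω D) (fun A => ∀ i, ¬ Vz (Zr (q m) (a i)) A)]
    congr 1
    refine prod_congr ?_ fun _ _ => rfl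
    refine filter_congr fun A _ => ?_
    push Not
    rfl
  have hM1 := hM.h1
  have hY : 0 < ∏ i, Yl θ M (θ / 2) (f i) (q m) (a i) (N i) ω :=
    prod_pos fun i _ => by unfold Yl; positivity
  rw [hsp]
  set U := ∏ A ∈ (pcs ω D).filter (fun A => ∀ i, ¬ Vz (Zr (q m) (a i)) A),
      wB θ (gB θ) q D k A (mass D (q 0) (Ft (fun _ => θ / 2) f (dlt (q l) (-θ))) A)
  set V := ∏ A ∈ (pcs ω D).filter (fun A => ∃ i, Vz (Zr (q m) (a i)) A),
      wB θ (gB θ) q D k A (mass D (q 0) (Ft (fun _ => θ / 2) f (dlt (q l) (-θ))) A)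
  set Y := ∏ i, Yl θ M (θ / 2) (f i) (q m) (a i) (N i) ω
  have hV : 0 < V := lt_of_lt_of_le (inv_pos.2 hY) h3
  have h4 : 1 ≤ V * Y := by
    have := mul_le_mul_of_nonneg_right h3 hY.le
    rwa [inv_mul_cancel₀ hY.ne'] at this
  constructor
  · exact mul_nonneg (by linarith) hV.le
  · calc (1 : ℝ) ≤ V * Y := h4
      _ ≤ 2 * U * (V * Y) := le_mul_of_one_le_left (by positivity) (by linarith)
      _ = _ := by ring

end Vale.Agent.P167.QB
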