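import Vale.Agent.P167.QB.Pr2
import Vale.Agent.P167.QB.Pr3

/-!
# P167, general `q`, block Q-BRIDGE: the assembly at `c`

`asm_c`: from the factorisation on `Iso`, the outside version of the functional with the point charge and
the majorants: the functional with the bump near `c` is the one-point function `z` times the functional
with the point charge at `c`, up to a power of `r / R`.
-/

namespace Vale.Agent.P167.QB

open Finset Relation Vale.Agent.P167.FK Vale.Agent.P167.FKA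
open Vale.Agent.P167.BR (hbox mem_hbox hbox_mono Iso Crs Flt)
open Vale.Agent.P167.H562.QM (FltQ)
open Vale.Agent.P167.H259 (f_markov)

variable {Q : ℝ} {b : ℤ × ℤ} {r R : ℤ} {ω ω' : Cfg}

theorem fltQ_mono {D : Finset (ℤ × ℤ)} {η : Cfg} {pl pr : Bool} {R' : ℤ}
    (h : FltQ D η b R pl pr) (hR : R' ≤ R) : FltQ D η b R' pl pr :=
  ⟨fun v hv => h.dom v (hv.trans hR), fun v hv => h.out v (hv.trans hR)⟩

theorem fltQ_flt {D : Finset (ℤ × ℤ)} {η : Cfg} {pl pr : Bool} (h : FltQ D η b R pl pr) :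
    Flt D b R := fun v h1 h2 h3 h4 => h.dom v (by
  rw [nm_le_iff]
  simp only [Prod.fst_sub, Prod.snd_sub]
  omega)

/-- The half box with everything closed outside is flat. -/
theorem fltQ_box (b : ℤ × ℤ) {R R' : ℤ} (h : R < R') : FltQ (hbox b R') eta0 b R false false := by
  refine ⟨fun v hv => ?_, fun v _ _ => ?_⟩
  · rw [nm_le_iff] at hv
    simp only [Prod.fst_sub, Prod.snd_sub] at hv
    rw [mem_hbox]
    omega
  · split_ifs <;> rfl

open Classical in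
/-- **The assembly at `c`**, abstract form. -/
theorem asm_c (hQ : 1 ≤ Q) (hR : RSW Q) (hM1 : QM.MIX1 Q) (hM2 : QM.MIX2 Q) :
    ∃ (K : ℤ) (α C : ℝ), 1 ≤ K ∧ 0 < α ∧ 0 < C ∧
    ∀ (D : Finset (ℤ × ℤ)) (η : Cfg) (b : ℤ × ℤ) (L r s₁ s₂ R : ℤ), Good η →
      FltQ D η b R false false → 1 ≤ r → 3 ≤ L → L * r + 2 ≤ s₁ → K * s₁ ≤ s₂ → s₂ + 4 ≤ R →
    ∀ (X X' Fl Y Y' : Cfg → ℝ) (M : ℝ), 0 ≤ M →
      Loc (hbox b s₁) Fl → (∀ ω, 0 ≤ Fl ω) → (∀ ω, Fl ω ≤ Y ω) →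
      (∀ ω, |X ω| ≤ Y ω * Y' ω) → (∀ ω, |X' ω| ≤ Y' ω) → Ind (hbox b R) Y' →
      (∀ ω, Iso b r s₁ ω → X ω = Fl ω * X' ω) →
      (∀ ω, ¬ Crs D b s₂ R ω → X' ω = X' (clo (hbox b s₂) ω)) →
      (∀ G : Cfg → ℝ, (∀ ω, 0 ≤ G ω) → Ind (hbox b (L * r)) G →
        Ex Q D η (fun ω => G ω * Y ω) ≤ M * Ex Q D η G) →
      Ex Q (hbox b s₂) eta0 Fl ≤ M →
      |Ex Q D η X - Ex Q (hbox b s₂) eta0 Fl * Ex Q D η X'| ≤
        C * (((L * r : ℤ) : ℝ) / ((s₁ - 2 : ℤ) : ℝ)) ^ α * M * Ex Q D η Y' +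
        C * ((s₁ : ℝ) / s₂) ^ α * M * Ex Q D η Y' +
        C * (((s₂ + 2 : ℤ) : ℝ) / ((R - 2 : ℤ) : ℝ)) ^ α * M * Ex Q D η Y' := by
  have hQ0 : 0 < Q := by linarith
  obtain ⟨α, C, hα, hC, harm⟩ := arm_flat hQ hR
  obtain ⟨K, β, C', hK, hβ, hC', hmix⟩ := mix_flat_of hQ hM1 hM2
  refine ⟨K, min α β, 8 * (C + C'), hK, lt_min hα hβ, by positivity, ?_⟩
  intro D η b L r s₁ s₂ R hη hF hr hL h1 h2 h3 X X' Fl Y Y' M hM0 hFl hFl0 hFlY hX hX' hY' hIso hCrs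
    hmom hz
  have hs1 : 1 ≤ s₁ := by nlinarith
  have hs2 : s₁ ≤ s₂ := by nlinarith
  have hLr : r + 2 ≤ L * r := by nlinarith
  set z : ℝ := Ex Q (hbox b s₂) eta0 Fl with hzdef
  have hz0 : 0 ≤ z := Ex_nonneg hQ0 fun S _ => hFl0 _
  set E : ℝ := Ex Q D η Y' with hE
  have hY0 : ∀ ω, 0 ≤ Y ω := fun ω => (hFl0 ω).trans (hFlY ω)
  have hY'0 : ∀ ω, 0 ≤ Y' ω := fun ω => (abs_nonneg _).trans (hX' ω)
  have hE0 : 0 ≤ E := Ex_nonneg hQ0 fun S _ => hY'0 _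
  -- the outside version
  set Xh : Cfg → ℝ := fun ω => X' (clo (hbox b s₂) ω) with hXh
  have hXhI : Ind (hbox b s₂) Xh := ind_clo (Finset.Subset.refl _) X'
  have hXhY : ∀ ω, |Xh ω| ≤ Y' ω := by
    intro ω
    have e : Y' (clo (hbox b s₂) ω) = Y' ω := hY' _ _ fun v hv =>
      clo_off fun hv' => hv (hbox_mono (by omega) hv')
    rw [← e]
    exact hX' _
  -- the arm events
  set A : Cfg → ℝ := {ω | HArm b (L * r) (s₁ - 2) ω}.indicator 1 with hA
  set B : Cfg → ℝ := {ω | HArm b (s₂ + 2) (R - 2) ω}.indicator 1 with hB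
  have hA0 : ∀ ω, 0 ≤ A ω := fun ω => Set.indicator_nonneg (fun _ _ => zero_le_one) _
  have hB0 : ∀ ω, 0 ≤ B ω := fun ω => Set.indicator_nonneg (fun _ _ => zero_le_one) _
  have hAI : Ind (hbox b (L * r)) A := ind_harm b (L * r) (s₁ - 2)
  have hBI : Ind (hbox b (s₂ + 2)) B := ind_harm b (s₂ + 2) (R - 2)
  have hY'I : Ind (hbox b (L * r)) Y' := Ind.mono (hbox_mono (by omega)) hY'
  set a : ℝ := C * (((L * r : ℤ) : ℝ) / ((s₁ - 2 : ℤ) : ℝ)) ^ α with ha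
  set c : ℝ := C * (((s₂ + 2 : ℤ) : ℝ) / ((R - 2 : ℤ) : ℝ)) ^ α with hc
  set m : ℝ := C' * ((s₁ : ℝ) / s₂) ^ β with hm
  have hYA : Ex Q D η (fun ω => Y' ω * A ω) ≤ a * E := by
    refine harm D η b (L * r) (s₁ - 2) Y' (by omega) (by omega) (fltQ_mono hF (by omega)) hη hY'0 ?_
    exact Ind.mono (sdiff_subset.trans (hbox_mono (by omega))) hY'
  have hYB : Ex Q D η (fun ω => Y' ω * B ω) ≤ c * E := by
    refine harm D η b (s₂ + 2) (R - 2) Y' (by omega) (by omega) (fltQ_mono hF (by omega)) hη hY'0 ?_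
    exact Ind.mono (sdiff_subset.trans (hbox_mono (by omega))) hY'
  -- pointwise decomposition
  have hpt : ∀ ω, |X ω - Fl ω * Xh ω| ≤ (Y' ω * A ω) * Y ω * 2 + (Y' ω * B ω) * Y ω * 2 := by
    intro ω
    have hFl' : |Fl ω| ≤ Y ω := by rw [abs_of_nonneg (hFl0 ω)]; exact hFlY ω
    by_cases hI : Iso b r s₁ ω
    · rw [hIso ω hI, ← mul_sub]
      by_cases hCr : Crs D b s₂ R ω
      · have hb1 : B ω = 1 := by
          have : ω ∈ {ω | HArm b (s₂ + 2) (R - 2) ω} :=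
            harm_of_crs (fltQ_flt hF) (by omega) le_rfl (by omega) (by omega) hCr
          rw [hB, Set.indicator_of_mem this]
          rfl
        rw [hb1, abs_mul]
        have h5 : |X' ω - Xh ω| ≤ 2 * Y' ω := by
          have := abs_sub (X' ω) (Xh ω)
          have := hX' ω
          have := hXhY ω
          linarith
        have h6 := mul_le_mul hFl' h5 (abs_nonneg _) (hY0 ω)
        have h7 : 0 ≤ (Y' ω * A ω) * Y ω * 2 := by
          have := mul_nonneg (mul_nonneg (hY'0 ω) (hA0 ω)) (hY0 ω)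
          linarith
        linarith
      · rw [hCrs ω hCr, sub_self, mul_zero, abs_zero]
        have := mul_nonneg (mul_nonneg (hY'0 ω) (hA0 ω)) (hY0 ω)
        have := mul_nonneg (mul_nonneg (hY'0 ω) (hB0 ω)) (hY0 ω)
        linarith
    · have ha1 : A ω = 1 := by
        have : ω ∈ {ω | HArm b (L * r) (s₁ - 2) ω} :=
          harm_of_not_iso (by omega) hLr (by omega) (by omega) hI
        rw [hA, Set.indicator_of_mem this]
        rfl
      rw [ha1]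
      have h5 : |X ω - Fl ω * Xh ω| ≤ |X ω| + |Fl ω| * |Xh ω| := by
        rw [← abs_mul]
        exact abs_sub _ _
      have h6 := mul_le_mul hFl' (hXhY ω) (abs_nonneg _) (hY0 ω)
      have h7 := hX ω
      have h8 := mul_nonneg (mul_nonneg (hY'0 ω) (hB0 ω)) (hY0 ω)
      linarith
  have hpt2 : ∀ ω, |X' ω - Xh ω| ≤ 2 * (Y' ω * B ω) := by
    intro ω
    by_cases hCr : Crs D b s₂ R ω
    · have hb1 : B ω = 1 := by
        have : ω ∈ {ω | HArm b (s₂ + 2) (R - 2) ω} :=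
          harm_of_crs (fltQ_flt hF) (by omega) le_rfl (by omega) (by omega) hCr
        rw [hB, Set.indicator_of_mem this]
        rfl
      rw [hb1]
      have := abs_sub (X' ω) (Xh ω)
      have := hX' ω
      have := hXhY ω
      linarith
    · rw [hCrs ω hCr, sub_self, abs_zero]
      have := mul_nonneg (hY'0 ω) (hB0 ω)
      linarith
  -- expectations
  have e1 : |Ex Q D η X - Ex Q D η (fun ω => Fl ω * Xh ω)| ≤ 2 * (a * M * E) + 2 * (c * M * E) := by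
    rw [← Ex_sub]
    refine (abs_Ex_le hQ0 _).trans ((Ex_mono (G := fun ω => (Y' ω * A ω) * Y ω * 2 +
      (Y' ω * B ω) * Y ω * 2) hQ0 fun S _ => hpt _).trans ?_)
    rw [Ex_add]
    have k1 := hmom (fun ω => Y' ω * A ω) (fun ω => mul_nonneg (hY'0 ω) (hA0 ω))
      (Ind.mul hY'I hAI)
    have k2 := hmom (fun ω => Y' ω * B ω) (fun ω => mul_nonneg (hY'0 ω) (hB0 ω))
      (Ind.mul hY'I (Ind.mono (hbox_mono (by omega)) hBI))
    have k3 : Ex Q D η (fun ω => (Y' ω * A ω) * Y ω * 2) =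
        2 * Ex Q D η (fun ω => (Y' ω * A ω) * Y ω) := by
      rw [← Ex_mul_left]
      exact Ex_congr fun S _ => by ring
    have k4 : Ex Q D η (fun ω => (Y' ω * B ω) * Y ω * 2) =
        2 * Ex Q D η (fun ω => (Y' ω * B ω) * Y ω) := by
      rw [← Ex_mul_left]
      exact Ex_congr fun S _ => by ring
    rw [k3, k4]
    have k5 := mul_le_mul_of_nonneg_left hYA hM0
    have k6 := mul_le_mul_of_nonneg_left hYB hM0
    have e5 : M * (a * E) = a * M * E := by ring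
    have e6 : M * (c * E) = c * M * E := by ring
    linarith
  have e2 := (hmix b s₁ s₂ hs1 h2 Fl hFl).1 D η (fltQ_mono hF (by omega)) hη Xh hXhI
  have e3 : |Ex Q D η X' - Ex Q D η Xh| ≤ 2 * (c * E) := by
    rw [← Ex_sub]
    refine (abs_Ex_le hQ0 _).trans ((Ex_mono (G := fun ω => 2 * (Y' ω * B ω)) hQ0
      fun S _ => hpt2 _).trans ?_)
    rw [Ex_mul_left]
    linarith
  have e4 : Ex Q (hbox b s₂) eta0 (fun ω => |Fl ω|) = z :=
    Ex_congr fun S _ => abs_of_nonneg (hFl0 _)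
  have e5 : Ex Q D η (fun ω => |Xh ω|) ≤ E := Ex_mono hQ0 fun S _ => hXhY _
  rw [e4] at e2
  have hm0 : 0 ≤ m := mul_nonneg hC'.le (Real.rpow_nonneg (div_nonneg (by
    exact_mod_cast (by omega : (0 : ℤ) ≤ s₁)) (by exact_mod_cast (by omega : (0 : ℤ) ≤ s₂))) _)
  have e6 : m * z * Ex Q D η (fun ω => |Xh ω|) ≤ m * M * E :=
    mul_le_mul (mul_le_mul_of_nonneg_left hz hm0) e5 (Ex_nonneg hQ0 fun S _ => abs_nonneg _)
      (mul_nonneg hm0 hM0)
  have e7 : |z * Ex Q D η X' - z * Ex Q D η Xh| ≤ 2 * (c * M * E) := by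
    rw [← mul_sub, abs_mul, abs_of_nonneg hz0]
    have hcE : 0 ≤ 2 * (c * E) := (abs_nonneg _).trans e3
    calc z * |Ex Q D η X' - Ex Q D η Xh| ≤ M * (2 * (c * E)) :=
          mul_le_mul hz e3 (abs_nonneg _) hM0
      _ = _ := by ring
  have e8 : |Ex Q D η X - z * Ex Q D η X'| ≤ 2 * (a * M * E) + m * M * E + 4 * (c * M * E) := by
    have e9 : Ex Q D η X - z * Ex Q D η X' = (Ex Q D η X - Ex Q D η (fun ω => Fl ω * Xh ω)) +
        (Ex Q D η (fun ω => Fl ω * Xh ω) - z * Ex Q D η Xh) -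
        (z * Ex Q D η X' - z * Ex Q D η Xh) := by ring
    rw [e9]
    refine (abs_sub _ _).trans ?_
    have := abs_add_le (Ex Q D η X - Ex Q D η (fun ω => Fl ω * Xh ω))
      (Ex Q D η (fun ω => Fl ω * Xh ω) - z * Ex Q D η Xh)
    linarith
  refine e8.trans ?_
  -- common exponent
  have hpow : ∀ {x γ : ℝ}, 0 ≤ x → x ≤ 1 → min α β ≤ γ → x ^ γ ≤ x ^ (min α β) := by
    intro x γ hx0 hx1 hγ
    exact Real.rpow_le_rpow_of_exponent_ge_of_imp hx0 hx1 hγ fun _ h => by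
      exfalso
      have := lt_min hα hβ
      linarith
  have q1 : a ≤ C * (((L * r : ℤ) : ℝ) / ((s₁ - 2 : ℤ) : ℝ)) ^ (min α β) := by
    refine mul_le_mul_of_nonneg_left (hpow ?_ ?_ (min_le_left _ _)) hC.le
    · exact div_nonneg (by exact_mod_cast (by omega : (0 : ℤ) ≤ L * r))
        (by exact_mod_cast (by omega : (0 : ℤ) ≤ s₁ - 2))
    · exact div_le_one_of_le₀ (by exact_mod_cast (by omega : L * r ≤ s₁ - 2))
        (by exact_mod_cast (by omega : (0 : ℤ) ≤ s₁ - 2))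
  have q2 : m ≤ C' * ((s₁ : ℝ) / s₂) ^ (min α β) := by
    refine mul_le_mul_of_nonneg_left (hpow ?_ ?_ (min_le_right _ _)) hC'.le
    · exact div_nonneg (by exact_mod_cast (by omega : (0 : ℤ) ≤ s₁))
        (by exact_mod_cast (by omega : (0 : ℤ) ≤ s₂))
    · exact div_le_one_of_le₀ (by exact_mod_cast hs2) (by exact_mod_cast (by omega : (0 : ℤ) ≤ s₂))
  have q3 : c ≤ C * (((s₂ + 2 : ℤ) : ℝ) / ((R - 2 : ℤ) : ℝ)) ^ (min α β) := by
    refine mul_le_mul_of_nonneg_left (hpow ?_ ?_ (min_le_left _ _)) hC.le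
    · exact div_nonneg (by exact_mod_cast (by omega : (0 : ℤ) ≤ s₂ + 2))
        (by exact_mod_cast (by omega : (0 : ℤ) ≤ R - 2))
    · exact div_le_one_of_le₀ (by exact_mod_cast (by omega : s₂ + 2 ≤ R - 2))
        (by exact_mod_cast (by omega : (0 : ℤ) ≤ R - 2))
  set x1 : ℝ := (((L * r : ℤ) : ℝ) / ((s₁ - 2 : ℤ) : ℝ)) ^ (min α β)
  set x2 : ℝ := ((s₁ : ℝ) / s₂) ^ (min α β)
  set x3 : ℝ := (((s₂ + 2 : ℤ) : ℝ) / ((R - 2 : ℤ) : ℝ)) ^ (min α β)
  have hME : 0 ≤ M * E := mul_nonneg hM0 hE0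
  have hx1 : 0 ≤ x1 := Real.rpow_nonneg (div_nonneg (by
    exact_mod_cast (by omega : (0 : ℤ) ≤ L * r))
    (by exact_mod_cast (by omega : (0 : ℤ) ≤ s₁ - 2))) _
  have hx2 : 0 ≤ x2 := Real.rpow_nonneg (div_nonneg (by
    exact_mod_cast (by omega : (0 : ℤ) ≤ s₁)) (by exact_mod_cast (by omega : (0 : ℤ) ≤ s₂))) _
  have hx3 : 0 ≤ x3 := Real.rpow_nonneg (div_nonneg (by
    exact_mod_cast (by omega : (0 : ℤ) ≤ s₂ + 2))
    (by exact_mod_cast (by omega : (0 : ℤ) ≤ R - 2))) _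
  have t1 := mul_le_mul_of_nonneg_right q1 hME
  have t2 := mul_le_mul_of_nonneg_right q2 hME
  have t3 := mul_le_mul_of_nonneg_right q3 hME
  have u1 : 0 ≤ C * x1 * (M * E) := mul_nonneg (mul_nonneg hC.le hx1) hME
  have u2 : 0 ≤ C' * x2 * (M * E) := mul_nonneg (mul_nonneg hC'.le hx2) hME
  have u3 : 0 ≤ C * x3 * (M * E) := mul_nonneg (mul_nonneg hC.le hx3) hME
  have v1 : 0 ≤ C' * x1 * (M * E) := mul_nonneg (mul_nonneg hC'.le hx1) hME
  have v2 : 0 ≤ C * x2 * (M * E) := mul_nonneg (mul_nonneg hC.le hx2) hME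
  have v3 : 0 ≤ C' * x3 * (M * E) := mul_nonneg (mul_nonneg hC'.le hx3) hME
  linarith

end Vale.Agent.P167.QB
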