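import Vale.Agent.P167.QB.Lw1
import Vale.Agent.P167.QB.Pr4
import Vale.Agent.P167.H469.BArm

/-!
# P167, general `q`, block BRQ, lower bound: the dual arms of the domain

Monotonicity, locality and restriction of the events `DAr`, decoupling (`dar_mix`), comparison of the
radii (`v1_bd`, `dar_ext`, from `S_glu`).
-/

namespace Vale.Agent.P167.QB

open Finset Relation Vale.Agent.P167.BR Vale.Agent.P167.FK
open Vale.Agent.P145.FB (PStep)
open Vale.Agent.P167.FKA (Loc Ind DecS IncS Ex_mono Ex_congr Pr_nonneg Pr_mono ind_nonneg)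
open Vale.Agent.P167.H632 (cs nm_le le_nm)
open Vale.Agent.P167.H436.ND (Win)
open Vale.Agent.P167.H192.TA (Xc)
open Vale.Agent.P167.H192.Q (SRSW)
open Vale.Agent.P167.H469 (hx FlF A5 A7 A8)
open Vale.Agent.P167.QM (HB)
open Vale.Agent.P167.H562.QM (FltQ)
open Vale.Agent.P167.H259 (f_markov)

variable {D : Finset (ℤ × ℤ)} {ω ω' η : Cfg} {n : ℕ} {q : ZMod n → ℤ × ℤ} {W : Set (ℤ × ℤ)}
  {k l m : ℕ} {θ Q : ℝ} {b : ℤ × ℤ} {R r r' s t N : ℤ}

theorem HB_eq (b : ℤ × ℤ) (R : ℤ) : HB b R = hbox b R := by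
  ext v
  unfold HB
  rw [Finset.mem_filter, mem_hbox_iff]

theorem dec_dar : DecS (DAr D W b r) := by
  rintro ω ω' h ⟨u, hu, t, ht, hp, hpath⟩
  refine ⟨u, hu, t, ht, hp, ReflTransGen.mono (fun x y hxy => ?_) _ _ hpath⟩
  obtain ⟨s1, s2, s3, s4⟩ := hxy
  refine ⟨s1, s2, ?_, s4⟩
  simp only [cs, Set.mem_ofPred_eq] at s3 ⊢
  by_contra hcon
  rw [Bool.not_eq_false] at hcon
  rw [h _ hcon] at s3
  exact absurd s3 (by decide)

theorem dar_congr (h : ∀ v ∈ D \ hbox b r, ω v = ω' v) (hω : ω ∈ DAr D W b r) :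
    ω' ∈ DAr D W b r := by
  obtain ⟨u, hu, t, ht, hp, hpath⟩ := hω
  refine ⟨u, hu, t, ht, hp, ReflTransGen.mono (fun x y hxy => ?_) _ _ hpath⟩
  obtain ⟨s1, s2, s3, s4⟩ := hxy
  refine ⟨s1, s2, ?_, s4⟩
  simp only [cs, Set.mem_ofPred_eq] at s3 ⊢
  rw [← h _ s4]
  exact s3

theorem ind_dar {U : Finset (ℤ × ℤ)} (hU : U ⊆ hbox b r) :
    Ind U ((DAr D W b r).indicator (1 : Cfg → ℝ)) := by
  intro ω ω' h
  have h1 : ∀ v ∈ D \ hbox b r, ω v = ω' v := fun v hv =>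
    h v fun hvU => (Finset.mem_sdiff.1 hv).2 (hU hvU)
  by_cases h2 : ω ∈ DAr D W b r
  · rw [Set.indicator_of_mem h2, Set.indicator_of_mem (dar_congr h1 h2)]
    rfl
  · rw [Set.indicator_of_notMem h2,
      Set.indicator_of_notMem fun h3 => h2 (dar_congr (fun v hv => (h1 v hv).symm) h3)]

/-- Larger radii. -/
theorem dar_mono (hr : 1 ≤ r) (hrr : r ≤ r') : DAr D W b r ⊆ DAr D W b r' := by
  rintro ω ⟨u, hu, t, ht, hp, hpath⟩
  have key : ∃ u' ∈ sites (hbox b r'), (u'.1 + u'.2) % 2 = H632.pr false ∧ (t.1 + t.2) % 2 =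
      H632.pr false ∧
      ReflTransGen (PStep (cs false ω ∩ (↑(D \ hbox b r') : Set (ℤ × ℤ)))) u' t := by
    clear ht
    induction hpath with
    | refl => exact ⟨u, sites_mono (hbox_mono hrr) hu, hp, hp, ReflTransGen.refl⟩
    | @tail x y _ hxy ih =>
      obtain ⟨u', h1, h2, h3, h4⟩ := ih
      obtain ⟨s1, s2, s3, s4⟩ := hxy
      have hpy : (y.1 + y.2) % 2 = H632.pr false := by
        rw [← h3]
        omega
      by_cases hv : (min x.1 y.1, min x.2 y.2) ∈ hbox b r'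
      · refine ⟨y, ?_, hpy, hpy, ReflTransGen.refl⟩
        rw [mem_hbox] at hv
        rw [mem_sites_hbox (by omega)]
        simp only at hv
        omega
      · refine ⟨u', h1, h2, hpy, h4.tail ⟨s1, s2, s3, ?_⟩⟩
        rw [Finset.mem_coe, Finset.mem_sdiff]
        exact ⟨(Finset.mem_sdiff.1 s4).1, hv⟩
  obtain ⟨u', h1, h2, -, h4⟩ := key
  exact ⟨u', h1, t, ht, h2, h4⟩

/-- The dual arm crosses the half annuli. -/
theorem dar_xc (hF : Flt D b R) (hr : 1 ≤ r) (hrR : r ≤ R) (hW : ∀ z ∈ W, R ≤ nm (z - b)) :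
    DAr D W b r ⊆ Xc false b r R := by
  rintro ω ⟨u, hu, t, ht, hp, hpath⟩
  rw [Finset.mem_coe, mem_sites_hbox hr] at hu
  refine H192.ND.xc_path hF hrR (by omega) hp (ReflTransGen.mono (fun x y hxy => ?_) _ _ hpath)
    ?_ (hW t ht)
  · obtain ⟨s1, s2, s3, s4⟩ := hxy
    exact ⟨s1, s2, s3, (Finset.mem_sdiff.1 (Finset.mem_coe.1 s4)).1⟩
  · rw [nm_le]
    simp only [Prod.fst_sub, Prod.snd_sub]
    omega

/-- The boundary sites of large index are far from the flat point. -/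
theorem far_nm (hw : Win q D m R) (hR : 1 ≤ R) {j : ℕ} (hj : (m : ℤ) + R ≤ j) (hjn : j ≤ n) :
    R ≤ nm (q j - q m) := by
  by_contra hcon
  push Not at hcon
  have hcon' := (nm_le (R := R - 1)).1 (by omega : nm (q j - q m) ≤ R - 1)
  simp only [Prod.fst_sub, Prod.snd_sub] at hcon'
  have hs := be_sides hw.poly (j : ZMod n)
  have hb := be_bd hw.poly hw.enc (j : ZMod n)
  have hh := corner_hd (be q (j : ZMod n))
  have ht := corner_tl (be q (j : ZMod n))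
  have hcor : (((q j).1 = (hdv (be q (j : ZMod n))).1 ∨ (q j).1 = (hdv (be q (j : ZMod n))).1 + 1) ∧
      ((q j).2 = (hdv (be q (j : ZMod n))).2 ∨ (q j).2 = (hdv (be q (j : ZMod n))).2 + 1)) ∧
      (((q j).1 = (tlv (be q (j : ZMod n))).1 ∨ (q j).1 = (tlv (be q (j : ZMod n))).1 + 1) ∧
      ((q j).2 = (tlv (be q (j : ZMod n))).2 ∨ (q j).2 = (tlv (be q (j : ZMod n))).2 + 1)) := by
    rcases hs with ⟨h1, -⟩ | ⟨h1, -⟩
    · rw [← h1]
      exact ⟨⟨hh.1, hh.2.1⟩, ht.1, ht.2.1⟩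
    · rw [← h1]
      exact ⟨⟨hh.2.2.1, hh.2.2.2⟩, ht.2.2.1, ht.2.2.2⟩
  have hfh := hw.flat (hdv (be q (j : ZMod n))) (by omega) (by omega) (by omega) (by omega)
  have hft := hw.flat (tlv (be q (j : ZMod n))) (by omega) (by omega) (by omega) (by omega)
  have hin : be q (j : ZMod n) ∈ eds (hbox (q m) R) ∧ Inn (q m) R (be q (j : ZMod n)) ∧
      q j ∈ sites (hbox (q m) R) := by
    rcases hb with ⟨h1, h2⟩ | ⟨h1, h2⟩
    · have h3 := hfh.1 h1
      have h4 : (tlv (be q (j : ZMod n))).2 < (q m).2 := by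
        by_contra h5
        exact h2 (hft.2 (by omega))
      have h5 : hdv (be q (j : ZMod n)) ∈ hbox (q m) R := by
        rw [mem_hbox]; omega
      refine ⟨mem_eds.2 (Or.inl h5), ⟨Or.inl h5, Or.inr h4⟩, ?_⟩
      rw [mem_sites_hbox hR]
      omega
    · have h3 := hft.1 h1
      have h4 : (hdv (be q (j : ZMod n))).2 < (q m).2 := by
        by_contra h5
        exact h2 (hfh.2 (by omega))
      have h5 : tlv (be q (j : ZMod n)) ∈ hbox (q m) R := by
        rw [mem_hbox]; omega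
      refine ⟨mem_eds.2 (Or.inr h5), ⟨Or.inr h4, Or.inl h5⟩, ?_⟩
      rw [mem_sites_hbox hR]
      omega
  rcases hjn.lt_or_eq with h | h
  · have := bd_inn hw.poly hw.enc hw.flat hR hw.l1 hw.off h hin.1 hin.2.1
    omega
  · apply hw.off
    have h2 := hin.2.2
    rw [h, ZMod.natCast_self] at h2
    exact h2

theorem wa_far (hw : Win q D m R) (hR : 1 ≤ R) (hml : (m : ℤ) + R ≤ l) (hkn : k ≤ n) :
    ∀ z ∈ Wa q k l, R ≤ nm (z - q m) := by
  rintro z ⟨j, h1, h2, rfl⟩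
  exact far_nm hw hR (by omega) (h2.trans hkn)

end Vale.Agent.P167.QB
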