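import Vale.Agent.P167.QB.Lw3

/-!
# P167, general `q`, block BRQ, lower bound: comparison of the dual arms

`dar_mix`: decoupling of the crossing of a half annulus and of an outer arm. `v1_bd`, `dar_ext`: comparison
of the radii, from `S_glu`.
-/

namespace Vale.Agent.P167.QB

open Finset Relation Vale.Agent.P167.BR Vale.Agent.P167.FK
open Vale.Agent.P167.FKA (Loc Ind DecS IncS Ex_mono Ex_congr Pr_nonneg Pr_mono ind_nonneg)
open Vale.Agent.P167.H192.TA (Xc)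
open Vale.Agent.P167.H192.Q (SRSW)
open Vale.Agent.P167.H469 (hx FlF A5 A7 A8 a5 a7 a8)
open Vale.Agent.P167.H562.QM (FltQ)
open Vale.Agent.P167.H259 (f_markov)

variable {θ Q : ℝ}

/-- **Decoupling.** -/
theorem dar_mix (hQ : 1 ≤ Q) (hR : RSW Q) (hS : SRSW Q) : ∃ (C : ℝ) (K : ℤ), 0 < C ∧ 1 ≤ K ∧
    ∀ (D : Finset (ℤ × ℤ)) (η : Cfg) (b : ℤ × ℤ) (W : Set (ℤ × ℤ)) (r s t N : ℤ), 1 ≤ r → r ≤ s →
      K * s ≤ t → K * s ≤ N → FltQ D η b t false false → Good η →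
      Pr Q D η (Xc false b r s ∩ DAr D W b t) ≤ C * hx Q false b r s N * Pr Q D η (DAr D W b t) := by
  obtain ⟨C, K, hC, hK, h⟩ := a7 hQ hR hS
  have hQ0 : 0 < Q := by linarith
  refine ⟨C, K, hC, hK, fun D η b W r s t N hr hrs hst hN hF hη => ?_⟩
  have hU : hbox b t ⊆ D := fltQ_sub hF
  have e1 : Pr Q D η (Xc false b r s ∩ DAr D W b t) = Ex Q D η
      (fun ω => (DAr D W b t).indicator 1 ω * (Xc false b r s).indicator 1 ω) := by
    unfold Pr
    exact Ex_congr fun S _ => by rw [FKA.ind_inter, mul_comm]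
  rw [e1, FKA.markov f_markov hQ0 hU hη (ind_dar subset_rfl)]
  have e2 : C * hx Q false b r s N * Pr Q D η (DAr D W b t) =
      Ex Q D η (fun ω => C * hx Q false b r s N * (DAr D W b t).indicator 1 ω) := by
    rw [FKA.Ex_mul_left]
    rfl
  rw [e2]
  refine Ex_mono hQ0 fun S hS => ?_
  rw [mul_comm]
  refine mul_le_mul_of_nonneg_right ?_ (ind_nonneg _ _)
  refine (h false b r s N (hbox b t) (cf D η S) hr hrs hN (f_good.1 D η S hη) ⟨?_, ?_⟩).1
  · intro v hv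
    rw [mem_hbox_iff]
    refine ⟨fun h => h.2, fun h => ⟨?_, h⟩⟩
    simp only [Bq, Finset.mem_product, Finset.mem_Ico] at hv ⊢
    omega
  · intro v hv hvU
    have hv' : v ∈ Bq b t := by
      simp only [Bq, Finset.mem_product, Finset.mem_Ico] at hv ⊢
      omega
    have h2 : v.2 < b.2 := by
      by_contra hcon
      exact hvU (mem_hbox_iff.2 ⟨hv', by omega⟩)
    have h3 := nm_of_Bq hv'
    have h4 : v ∉ D := fun h => by
      have := (hF.dom v h3).1 h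
      omega
    rw [FKA.cf_out h4, hF.out v h3 h2]
    split_ifs <;> rfl

theorem hx_eq (Q : ℝ) (e : Bool) (b : ℤ × ℤ) (r R N : ℤ) :
    hx Q e b r R N = Pr Q (hbox b N) eta0 (Xc e b r R) := by
  unfold hx
  rw [HB_eq]

/-- Comparable radii. -/
theorem dar_ext (hQ : 1 ≤ 2 * Real.cos θ) (hR : RSW (2 * Real.cos θ)) (hS : SRSW (2 * Real.cos θ))
    (hG : S_glu θ) (M : ℤ) : ∃ (c : ℝ) (K s₀ : ℤ), 0 < c ∧ 1 ≤ K ∧ 1 ≤ s₀ ∧
    ∀ (n : ℕ) (q : ZMod n → ℤ × ℤ) (D : Finset (ℤ × ℤ)) (η : Cfg) (k l m : ℕ) (Rc Rd : ℤ),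
    Geo2 q D η k l m Rc Rd → ∀ r R : ℤ, s₀ ≤ r → r ≤ R → R ≤ M * r → K * R ≤ Rd →
      c * Pr (2 * Real.cos θ) D η (DAr D (Wa q k l) (q m) R) ≤
        Pr (2 * Real.cos θ) D η (DAr D (Wa q k l) (q m) r) := by
  obtain ⟨c8, K8, s8, hc8, hK8, hs8, h8⟩ := a8 hQ hR hS M
  obtain ⟨CG, KG, sG, hCG, hKG, hsG, hG⟩ := hG
  have hQ0 : 0 < 2 * Real.cos θ := by linarith
  refine ⟨c8 / CG, KG, max s8 sG, by positivity, hKG, by omega,
    fun n q D η k l m Rc Rd hgeo r R hr hrR hRM hKR => ?_⟩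
  have hR0 : 0 ≤ R := by omega
  have h1 := h8 false (q m) r R (max K8 KG * R) (by omega) hrR hRM
    (mul_le_mul_of_nonneg_right (le_max_left _ _) hR0)
  have h2 := hG n q D η k l m Rc Rd (max K8 KG * R) hgeo r R (by omega) hrR hKR
    (mul_le_mul_of_nonneg_right (le_max_right _ _) hR0)
  rw [hx_eq] at h1
  have hp := Pr_nonneg (D := D) (η := η) hQ0 (DAr D (Wa q k l) (q m) R)
  rw [div_mul_eq_mul_div, div_le_iff₀ hCG]
  calc c8 * _ ≤ _ := mul_le_mul_of_nonneg_right h1 hp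
    _ ≤ _ := h2
    _ = _ := mul_comm _ _

/-- **The decoupled arms.** -/
theorem v1_bd (hQ : 1 ≤ 2 * Real.cos θ) (hR : RSW (2 * Real.cos θ)) (hS : SRSW (2 * Real.cos θ))
    (hG : S_glu θ) : ∃ (C : ℝ) (L K s₀ : ℤ), 0 < C ∧ 8 ≤ L ∧ 1 ≤ K ∧ 1 ≤ s₀ ∧
    ∀ (n : ℕ) (q : ZMod n → ℤ × ℤ) (D : Finset (ℤ × ℤ)) (η : Cfg) (k l m : ℕ) (Rc Rd : ℤ),
    Geo2 q D η k l m Rc Rd → ∀ r R : ℤ, s₀ ≤ r → L * r ≤ R → K * R ≤ Rd →
      Pr (2 * Real.cos θ) D η (Xc false (q m) r (R / L) ∩ DAr D (Wa q k l) (q m) R) ≤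
        C * Pr (2 * Real.cos θ) D η (DAr D (Wa q k l) (q m) r) := by
  obtain ⟨C7, K7, hC7, hK7, h7⟩ := dar_mix hQ hR hS
  obtain ⟨C5, K5, s5, hC5, hK5, hs5, h5⟩ := a5 hQ hR hS
  set L : ℤ := max 8 K7 with hL
  have hL8 : 8 ≤ L := le_max_left _ _
  obtain ⟨c8, K8, s8, hc8, hK8, hs8, h8⟩ := a8 hQ hR hS (2 * L)
  obtain ⟨CG, KG, sG, hCG, hKG, hsG, hG⟩ := hG
  have hQ0 : 0 < 2 * Real.cos θ := by linarith
  refine ⟨C7 * (C5 / c8) * CG, L, KG, max (max s5 s8) sG, by positivity, hL8, hKG, by omega,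
    fun n q D η k l m Rc Rd hgeo r R hr hrR hKR => ?_⟩
  have hr1 : 1 ≤ r := by omega
  have hR0 : 1 ≤ R := by nlinarith
  set s := R / L with hs
  have hs1 : L * s ≤ R := by rw [mul_comm]; exact Int.ediv_mul_le R (by omega)
  have hs2 : R < L * (s + 1) := by
    have := Int.lt_ediv_add_one_mul_self R (by omega : 0 < L)
    linarith
  have hrs : r ≤ s := by
    rw [hs, Int.le_ediv_iff_mul_le (by omega)]
    linarith
  have hsR : s ≤ R := by nlinarith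
  have hsM : R ≤ 2 * L * s := by nlinarith
  set N : ℤ := (K7 + K5 + K8 + KG) * R with hN
  have n7 : K7 * s ≤ N := by nlinarith
  have n5 : K5 * R ≤ N := by nlinarith
  have n8 : K8 * R ≤ N := by nlinarith
  have nG : KG * R ≤ N := by nlinarith
  have hRd : R ≤ Rd := by nlinarith
  have e1 := h7 D η (q m) (Wa q k l) r s R N hr1 hrs
    (le_trans (mul_le_mul_of_nonneg_right (le_max_right _ _) (by omega)) hs1) n7
    (fltQ_mono hgeo.fd hRd) hgeo.good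
  have e2 := h5 false (q m) r s R N (by omega) hrs hsR n5
  have e3 := h8 false (q m) s R N (by omega) hsR hsM n8
  have e4 := hG n q D η k l m Rc Rd N hgeo r R (by omega) (hrs.trans hsR) hKR nG
  rw [← hx_eq] at e4
  have hp := Pr_nonneg (D := D) (η := η) hQ0 (DAr D (Wa q k l) (q m) R)
  have hx0 : 0 ≤ hx (2 * Real.cos θ) false (q m) r s N := Pr_nonneg hQ0 _
  have e5 : hx (2 * Real.cos θ) false (q m) r s N ≤
      C5 / c8 * hx (2 * Real.cos θ) false (q m) r R N := by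
    rw [div_mul_eq_mul_div, le_div_iff₀ hc8]
    exact (mul_le_mul_of_nonneg_left e3 hx0).trans e2
  calc _ ≤ C7 * hx (2 * Real.cos θ) false (q m) r s N *
        Pr (2 * Real.cos θ) D η (DAr D (Wa q k l) (q m) R) := e1
    _ ≤ C7 * (C5 / c8 * hx (2 * Real.cos θ) false (q m) r R N) *
        Pr (2 * Real.cos θ) D η (DAr D (Wa q k l) (q m) R) :=
      mul_le_mul_of_nonneg_right (mul_le_mul_of_nonneg_left e5 hC7.le) hp
    _ = C7 * (C5 / c8) * (hx (2 * Real.cos θ) false (q m) r R N *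
        Pr (2 * Real.cos θ) D η (DAr D (Wa q k l) (q m) R)) := by ring
    _ ≤ C7 * (C5 / c8) * (CG * Pr (2 * Real.cos θ) D η (DAr D (Wa q k l) (q m) r)) :=
      mul_le_mul_of_nonneg_left e4 (by positivity)
    _ = _ := by ring

end Vale.Agent.P167.QB
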