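import Vale.Agent.P167.QB.Lw4
import Vale.Agent.P167.QB.Lw2
import Vale.Agent.P167.QB.Low
import Vale.Agent.P167.H436.ND.Nda1
import Vale.Agent.P167.H662.ND.SY

/-!
# P167, general `q`, block BRQ: the lower bound of the positive part

`s_low : S_low θ P` for `0 < θ < π / 3`, from the gluing of the dual arms `S_glu θ`.
-/

namespace Vale.Agent.P167.QB

open Finset Relation MeasureTheory Vale.Agent.P167 Vale.Agent.P167.BR Vale.Agent.P167.FK
open Vale.Agent.P167.FKA (Loc Ind DecS IncS Ex_mono Ex_congr Pr_nonneg Pr_mono ind_nonneg)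
open Vale.Agent.P167.H192.TA (Xc)
open Vale.Agent.P167.H192.Q (SRSW)
open Vale.Agent.P167.H519 (IsLim)
open Vale.Agent.P167.H562.QM (FltQ MajA NbP)
open Vale.Agent.P167.H562.SML (bd_G)
open Vale.Agent.P167.H436.ND
open Vale.Agent.P167.H259 (f_markov f_fkg)

variable {D : Finset (ℤ × ℤ)} {ω η : Cfg} {n : ℕ} {q : ZMod n → ℤ × ℤ}
  {k l m : ℕ} {θ Cm : ℝ} {R Rc Rd' : ℤ} {P : Measure Cfg} {a : Fin 2 → ℤ}

/-! ### the geometry -/

theorem Geo2.win (h : Geo2 q D η k l m Rc Rd') (hRd : R ≤ Rd') : Win q D m R where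
  poly := h.poly
  enc := h.enc
  flat := fltQ_flt (fltQ_mono h.fd hRd)
  l1 := by
    have h1 := h.mR
    have h2 := h.lR
    have h3 := h.kn
    have h4 := h.pd
    have h5 := h.pc
    omega
  off := fun h' => h.od (sites_mono (hbox_mono hRd) h')

theorem Geo2.ls (h : Geo2 q D η k l m Rc Rd') : q l ∈ sites D := by
  refine sites_mono (fltQ_sub h.fc) ?_
  rw [mem_sites_hbox h.pc]
  have := h.pc
  omega

theorem Geo2.fltO (h : Geo2 q D η k l m Rc Rd') : FltO D η (q m) Rd' false false where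
  good := h.good
  out v h1 h2 h3 h4 := h.fd.out v (by
    rw [H632.nm_le]
    simp only [Prod.fst_sub, Prod.snd_sub]
    omega) h4

/-- The masses of the small loops. -/
theorem small_G {f : ℤ × ℤ → ℝ} {b : ℤ × ℤ} {a : ℤ} (h0 : 0 < θ) (h1 : θ ≤ Real.pi / 3)
    (hC : Cm ≤ 1000) (ha : 1 ≤ a) (hf : Bp Cm b a f) {ℓ : Finset Ed}
    (hl : IsLoop ω ℓ) (hs : Small (kp * a) ℓ) : |G (fun z => θ / 2 * f z) ℓ| ≤ 1 / 10 := by
  have hpi := Real.pi_lt_d2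
  have ha' : (1 : ℝ) ≤ a := by exact_mod_cast ha
  have hm : ∀ v, |θ / 2 * f v| ≤ 1000 / (a : ℝ) ^ 2 := by
    intro v
    rw [abs_of_nonneg (mul_nonneg (by linarith) (hf.nonneg v))]
    have h2 := hf.le v
    have h3 : Cm / (a : ℝ) ^ 2 ≤ 1000 / (a : ℝ) ^ 2 :=
      div_le_div_of_nonneg_right hC (by positivity)
    have h4 := hf.nonneg v
    nlinarith
  have h2 := bd_G (κ := kp) (ρ := a) (Cm := 1000) ha' (by norm_num) hm ω ℓ (kp * a) hl le_rfl hs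
  refine h2.trans ?_
  rw [mul_div_assoc, div_self (by linarith), mul_one, kp]
  norm_num

/-! ### the moments -/

/-- Moments of the product of the two majorants. -/
theorem y_mom (hQ0 : 0 < 2 * Real.cos θ) {CY M : ℝ} (hCY : 0 < CY) (hM : 1 ≤ M) {N : Fin 2 → Cfg → ℕ}
    {b : ℤ × ℤ} {f : Fin 2 → ℤ × ℤ → ℝ}
    (hsub : ∀ i, Zg b (a i / 2) (3 * a i) ⊆ D) (ha : 1 ≤ a 0) (h01 : 8 * a 0 ≤ a 1)
    (hY : ∀ i, Rd D (Zg b (a i / 2) (3 * a i)) (fun ω => Yl θ M (θ / 2) (f i) b (a i) (N i ω) ω) ∧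
      ∀ g : Cfg → ℝ, (∀ ω, 0 ≤ g ω) → Ind (Zg b (a i / 2) (3 * a i)) g →
      Ex (2 * Real.cos θ) D η (fun ω => g ω * Yl θ M (θ / 2) (f i) b (a i) (N i ω) ω ^ 2) ≤
        CY * Real.exp (2 * (Real.tan θ * (θ / 2 * NbP P (kp * a i)))) * Ex (2 * Real.cos θ) D η g)
    {V : Cfg → ℝ} (hV0 : ∀ ω, 0 ≤ V ω) (hV : ∀ i, Ind (Zg b (a i / 2) (3 * a i)) V) :
    Ex (2 * Real.cos θ) D η (fun ω => V ω * ∏ i, Yl θ M (θ / 2) (f i) b (a i) (N i ω) ω) ≤
      CY * (Nn θ P a)⁻¹ * Ex (2 * Real.cos θ) D η V := by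
  have hE0 : 0 ≤ Ex (2 * Real.cos θ) D η V := FKA.Ex_nonneg hQ0 fun _ _ => hV0 _
  have hY0 : ∀ i ω, 0 ≤ Yl θ M (θ / 2) (f i) b (a i) (N i ω) ω := fun i ω => by
    unfold Yl; positivity
  have hdis : ∀ i j : Fin 2, i ≠ j → Disjoint (Zg b (a i / 2) (3 * a i))
      (Zg b (a j / 2) (3 * a j)) := by
    have key : Disjoint (Zg b (a 0 / 2) (3 * a 0)) (Zg b (a 1 / 2) (3 * a 1)) :=
      Zg_disj (by omega)
    intro i j hij
    fin_cases i <;> fin_cases j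
    · exact absurd rfl hij
    · exact key
    · exact key.symm
    · exact absurd rfl hij
  have h1 := prod_ind (Q := 2 * Real.cos θ) (D := D) (η := η) (Finset.univ : Finset (Fin 2))
    (F := fun i ω => Yl θ M (θ / 2) (f i) b (a i) (N i ω) ω ^ 2)
    (S := fun i => Zg b (a i / 2) (3 * a i))
    (c := fun i => CY * Real.exp (2 * (Real.tan θ * (θ / 2 * NbP P (kp * a i)))))
    (fun i _ => by positivity) (fun i _ => hsub i)
    (fun i _ ω => sq_nonneg _)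
    (fun i _ ω ω' h1 h2 => by
      have := (hY i).1 ω ω' h1 h2
      simp only at this ⊢
      rw [this])
    (fun i _ j _ hij => hdis i j hij)
    (fun i _ G hG0 hG => (hY i).2 G hG0 hG) hV0 (fun i _ => hV i)
  have e1 : ∏ i : Fin 2, CY * Real.exp (2 * (Real.tan θ * (θ / 2 * NbP P (kp * a i)))) =
      (CY * (Nn θ P a)⁻¹) ^ 2 := by
    rw [Finset.prod_mul_distrib, Finset.prod_const, Finset.card_univ, Fintype.card_fin, mul_pow,
      Nn, ← Real.exp_neg, neg_neg, ← Real.exp_nat_mul, ← Real.exp_sum, Ex0]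
    congr 2
    rw [Fin.sum_univ_two, Fin.sum_univ_two]
    push_cast
    ring
  rw [e1] at h1
  have hN0 : 0 < Nn θ P a := Real.exp_pos _
  have h2 := H562.QM.ex_cs hQ0 hV0 (a := 1) (b := CY * (Nn θ P a)⁻¹) (F1 := fun _ => (1 : ℝ))
    (F2 := fun ω => ∏ i, Yl θ M (θ / 2) (f i) b (a i) (N i ω) ω) zero_le_one (by positivity) hE0
    (by simp only [one_pow, mul_one, one_mul]; exact le_refl _) (by
      refine le_trans (le_of_eq ?_) h1
      refine Ex_congr fun S _ => ?_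
      rw [← Finset.prod_pow])
  simp only [one_mul] at h2
  exact h2

theorem dFz (b : ℤ × ℤ) (r R : ℤ) : H192.TA.dF b r R = Zg b r R := by
  ext v
  rw [H192.TA.mem_dF, mem_Zg]
  simp only [H192.TA.dq, Set.mem_ofPred_eq]
  omega

theorem scl_of {K : ℤ} (h0 : 4000 ≤ a 0) (h1 : 4 * a 0 ≤ a 1) (hK : 8 * a 1 ≤ K) :
    Scl 4000 4 K a := by
  refine ⟨fun i => ?_, fun i j hij => ?_, fun i => ?_⟩
  · fin_cases i
    · exact h0
    · show 4000 ≤ a 1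
      omega
  · fin_cases i <;> fin_cases j
    · exact absurd hij (by decide)
    · exact h1
    · exact absurd hij (by decide)
    · exact absurd hij (by decide)
  · fin_cases i
    · show 8 * a 0 ≤ K
      omega
    · exact hK

/-- Powers of small ratios. -/
theorem small_pow {C α : ℝ} (hC : 0 < C) (hα : 0 < α) : ∃ x : ℝ, 0 < x ∧ C * x ^ α ≤ 1 / 2 := by
  refine ⟨(1 / (2 * C)) ^ (1 / α), by positivity, ?_⟩
  rw [← Real.rpow_mul (by positivity), one_div_mul_cancel hα.ne', Real.rpow_one]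
  field_simp
  norm_num

theorem ratio_bd {C α x : ℝ} (hC : 0 < C) (hα : 0 < α) (hx0 : 0 < x) (hx : C * x ^ α ≤ 1 / 2)
    {r R : ℤ} (hr : 1 ≤ r) (h : ⌈1 / x⌉ * r ≤ R) : C * ((r : ℝ) / R) ^ α ≤ 1 / 2 := by
  have h7 : (0 : ℝ) < (r : ℝ) := by exact_mod_cast (by omega : (0 : ℤ) < r)
  have h8 : (1 / x) * (r : ℝ) ≤ (R : ℝ) := by
    refine le_trans (mul_le_mul_of_nonneg_right (Int.le_ceil _) h7.le) ?_
    exact_mod_cast h
  have h6 : (0 : ℝ) < (R : ℝ) := lt_of_lt_of_le (by positivity) h8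
  refine le_trans (mul_le_mul_of_nonneg_left (Real.rpow_le_rpow (by positivity) ?_ hα.le) hC.le) hx
  rw [div_le_iff₀ h6]
  have h9 : x * ((1 / x) * (r : ℝ)) = r := by field_simp
  nlinarith

/-- The good event. -/
def EvS (q : ZMod n → ℤ × ℤ) (D : Finset (ℤ × ℤ)) (k l m : ℕ) (R : ℤ) (a : Fin 2 → ℤ) : Set Cfg :=
  ((Xc true (q m) (2 * a 0) (a 1))ᶜ ∩ {ω | HArm (q m) (4 * a 1) (R - 2) ω}ᶜ) ∩
    DAr D (Wa q k l) (q m) (a 0)

theorem inc_xc (b : ℤ × ℤ) (r R : ℤ) : IncS (Xc true b r R) := by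
  intro ω ω' h
  rintro ⟨y, y', h1, h2, h3, h4, h5⟩
  refine ⟨y, y', h1, h2, h3, H192.TA.Pw.mono ?_ h4, h5⟩
  rintro v ⟨hv1, hv2⟩
  exact ⟨h v hv1, hv2⟩

/-- The probability of the good event. -/
theorem ev_prob {Q : ℝ} (hQ : 1 ≤ Q) (hR : RSW Q) (hS : SRSW Q) : ∃ K : ℤ, 8 ≤ K ∧
    ∀ (n : ℕ) (q : ZMod n → ℤ × ℤ) (D : Finset (ℤ × ℤ)) (η : Cfg) (k l m : ℕ) (Rc Rd R : ℤ),
    Geo2 q D η k l m Rc Rd → R ≤ Rd → ∀ a : Fin 2 → ℤ, 1 ≤ a 0 → K * a 0 ≤ a 1 → K * a 1 ≤ R →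
      1 / 4 * Pr Q D η (DAr D (Wa q k l) (q m) (a 0)) ≤ Pr Q D η (EvS q D k l m R a) := by
  have hQ0 : 0 < Q := by linarith
  obtain ⟨α, CX, hα, hCX, hpX⟩ := H192.Q.pX_dec hQ hS
  obtain ⟨α', CA, hα', hCA, harm⟩ := arm_flat hQ hR
  obtain ⟨x, hx0, hx⟩ := small_pow hCX hα
  obtain ⟨x', hx0', hx'⟩ := small_pow hCA hα'
  have hc1 : 0 < ⌈1 / x⌉ := Int.ceil_pos.2 (by positivity)
  have hc2 : 0 < ⌈1 / x'⌉ := Int.ceil_pos.2 (by positivity)
  refine ⟨8 + 2 * ⌈1 / x⌉ + 4 * ⌈1 / x'⌉, by omega,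
    fun n q D η k l m Rc Rd R hgeo hRd a ha0 ha1 haR => ?_⟩
  have h8 : 8 * a 0 ≤ a 1 := by nlinarith
  have hxa : ⌈1 / x⌉ * (2 * a 0) ≤ a 1 := by nlinarith
  have h8' : 8 * a 1 ≤ R := by nlinarith
  have hxa' : ⌈1 / x'⌉ * (4 * a 1) ≤ R - 2 := by nlinarith
  have k1 : 1 / 2 ≤ Pr Q D η (Xc true (q m) (2 * a 0) (a 1))ᶜ := by
    rw [FKA.Pr_compl hQ0]
    have h2 := H192.Q.Xc_le (c := true) (η := η) hQ (by omega : 1 ≤ 2 * a 0)
      (D := D) (b := q m) (R := a 1) (by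
        rw [dFz]
        exact Zg_sub (hgeo.win hRd).flat (by omega)) hgeo.good
    have h3 := hpX true (q m) (2 * a 0) (a 1) (by omega) (by omega)
    have h4 := ratio_bd hCX hα hx0 hx (by omega : 1 ≤ 2 * a 0) hxa
    linarith
  have k2 : 1 / 2 ≤ Pr Q D η {ω | HArm (q m) (4 * a 1) (R - 2) ω}ᶜ := by
    rw [FKA.Pr_compl hQ0]
    have h2 := harm D η (q m) (4 * a 1) (R - 2) (fun _ => 1) (by omega) (by omega)
      (fltQ_mono hgeo.fd (by omega)) hgeo.good (fun _ => zero_le_one) (fun _ _ _ => rfl)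
    simp only [one_mul] at h2
    rw [FKA.Ex_const hQ0, mul_one] at h2
    have h4 := ratio_bd hCA hα' hx0' hx' (by omega : 1 ≤ 4 * a 1) hxa'
    have h5 : Pr Q D η {ω | HArm (q m) (4 * a 1) (R - 2) ω} ≤ 1 / 2 := h2.trans h4
    linarith
  have hdec1 := (inc_xc (q m) (2 * a 0) (a 1)).compl
  have hdec2 := (inc_harm (q m) (4 * a 1) (R - 2)).compl
  have k4 := FKA.fkg_dec2 f_fkg hQ hgeo.good hdec1 hdec2 (D := D)
  have k5 := FKA.fkg_dec2 f_fkg hQ hgeo.good (hdec1.inter hdec2)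
    (dec_dar (D := D) (W := Wa q k l) (b := q m) (r := a 0)) (D := D)
  have k6 := Pr_nonneg (D := D) (η := η) hQ0 (DAr D (Wa q k l) (q m) (a 0))
  refine le_trans ?_ k5
  refine mul_le_mul_of_nonneg_right ?_ k6
  refine le_trans ?_ k4
  nlinarith

end Vale.Agent.P167.QB
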