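import Vale.Agent.P167.QB.Far
import Vale.Agent.P167.H562.Q.MQ1
import Vale.Agent.P167.H562.Q.Mom2

/-!
# P167, general `q`, block Q-BRIDGE: majorants in a polygon domain

Small means: diameter less than `dq K r = r / (66 K)`. `bumps_flat`: a family of charges near flat
boundary points. `mass_small`: a small strand which visits the half box has mass zero. `maj_gen`: the
product of the weights is at most the product of the majorants times the product over the far strands.
-/

namespace Vale.Agent.P167.QB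

open Finset Relation Vale.Agent.P167.BR Vale.Agent.P167.H562.SML Vale.Agent.P167.H45
open Vale.Agent.P167.E6 (IsPolygon Encloses dir face)
open Vale.Agent.P167.H718 (IsXY IsCl Cl isCl_strand side_const)
open Vale.Agent.P167.QX (lo hi exists_xy lo_xy hi_xy wB)
open Vale.Agent.P167.H562.MAJ (bigs nb1 Sm core Sc mem_core mem_rect mem_sites_rect econ_rect
  rect near_site exists_ins_of_G W_zone W_poly conn_poly potD_W G_small sum_nb1 nm_tri nm_comm'
  mass_sum)
open Vale.Agent.P167.H562.QM (BumpsQ WtQ Far)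
open Vale.Agent.P167.H562.GQ (wt0 abs_wt_le one_le_inv_cos)

variable {D Z : Finset (ℤ × ℤ)} {ω : Cfg} {n : ℕ} {q : ZMod n → ℤ × ℤ} {A B : Finset Ed}
  {a b m : ℕ} {θ K : ℝ} {k l : ℕ} {r R : ℤ}

/-- The diameter of the big pieces. -/
noncomputable def dq (K : ℝ) (r : ℤ) : ℝ := 1 / (66 * K) * r

theorem dq_pos (h : Sc K r) : 0 < dq K r := by
  have h1 := h.one_le
  have h2 : (8 : ℝ) ≤ r := by exact_mod_cast h.r8
  unfold dq
  positivity

theorem dq_mul (h : Sc K r) : 66 * dq K r = r / K := by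
  have h1 := h.one_le
  unfold dq
  field_simp

theorem dq_le (h : Sc K r) : dq K r ≤ H562.MAJ.dl K r := by
  have h1 := h.one_le
  have h2 : (8 : ℝ) ≤ r := by exact_mod_cast h.r8
  have h3 := dq_mul h
  have h4 : 4 * H562.MAJ.dl K r = r / K := by
    unfold H562.MAJ.dl
    field_simp
  have := dq_pos h
  linarith

theorem small_mono {d d' : ℝ} (h : d ≤ d') (hs : Small d A) : Small d' A :=
  fun u hu v hv => (hs u hu v hv).trans_le h

/-! ### a small strand which visits the half box -/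

/-- The rectangle above the small strands. -/
noncomputable def upr (K : ℝ) (b : ℤ × ℤ) (r : ℤ) : Finset (ℤ × ℤ) :=
  rect (b.1 - 2 * r) (b.1 + 2 * r) (b.2 + ⌈(r : ℝ) / K⌉ - 1) (b.2 + 2 * r)

/-- A small strand which visits the half box does not visit the rectangle above. -/
theorem small_low (h : Sc K r) {b : ℤ × ℤ} (hF : Flt D b (2 * r)) (hA : A ∈ pcs ω D)
    (hl : ¬ IsLp D A) (hs : Small (dq K r) A) (hV : Vz (hbox b r) A) : ¬ Vz (upr K b r) A := by
  have hI := h.inner hF hA (small_mono (dq_le h) hs) hV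
  have hd := dq_mul h
  have hd0 := dq_pos h
  obtain ⟨hc1, hc2, hc3⟩ := h.ceil
  -- an edge at the boundary
  obtain ⟨e0, he0, h0⟩ : ∃ e ∈ A, (hdv e).2 ≤ b.2 := by
    unfold IsLp at hl
    push Not at hl
    obtain ⟨e, he, h1⟩ := hl
    refine ⟨e, he, ?_⟩
    rcases (hI e he).2.1 with h2 | h2
    · exact absurd (hbox_sub hF h2) h1
    · exact h2.le
  rintro ⟨e, he, heZ⟩
  have h1 := hs _ (mem_image_of_mem hdv he) _ (mem_image_of_mem hdv he0)
  have h2 : (|(hdv e).2 - (hdv e0).2| : ℝ) < dq K r := by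
    refine lt_of_le_of_lt ?_ h1
    have : |(hdv e).2 - (hdv e0).2| ≤ nm (hdv e - hdv e0) := le_max_right _ _
    exact_mod_cast this
  have h3 := (abs_lt.1 h2).2
  have h4 : (⌈(r : ℝ) / K⌉ : ℝ) ≥ r / K := Int.le_ceil _
  have h5 : ((hdv e0).2 : ℝ) ≤ b.2 := by exact_mod_cast h0
  have h6 : b.2 + ⌈(r : ℝ) / K⌉ - 2 ≤ (hdv e).2 := by
    rcases mem_eds.1 heZ with h7 | h7
    · rw [upr, mem_rect] at h7
      omega
    · rw [upr, mem_rect] at h7
      have h8 := H945.nm_step e
      have h9 : |(hdv e).2 - (tlv e).2| ≤ nm (hdv e - tlv e) := le_max_right _ _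
      have h10 := abs_le.1 (h9.trans h8)
      omega
  have h7 : (b.2 : ℝ) + ⌈(r : ℝ) / K⌉ - 2 ≤ (hdv e).2 := by exact_mod_cast h6
  have h8 := h.le
  have h9 : (8 : ℝ) ≤ r / K := by
    rw [le_div_iff₀ (by linarith [h.one_le])]
    exact h8
  linarith

section

variable (hq : IsPolygon q) (hD : Encloses q D)
include hq hD

/-- A small strand which visits the half box has mass zero. -/
theorem mass_small (h : Sc K r) (hF : Flt D (q l) (2 * r)) (hl : l < n)
    (h0 : q 0 ∉ sites (hbox (q l) (2 * r))) {g : ℤ × ℤ → ℝ}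
    (hg : ∀ z, g z ≠ 0 → z ∈ sites (core K (q l) r)) (hA : A ∈ pcs ω D) (hAl : ¬ IsLp D A)
    (hs : Small (dq K r) A) (hV : Vz (hbox (q l) r) A) : mass D (q 0) g A = 0 := by
  classical
  have hr8 := h.r8
  have hI := h.inner hF hA (small_mono (dq_le h) hs) hV
  have hlow := small_low h hF hA hAl hs hV
  obtain ⟨hc1, hc2, hc3⟩ := h.ceil
  have hZD : upr K (q l) r ⊆ D := by
    intro v hv
    rw [upr, mem_rect] at hv
    exact (hF v (by omega) (by omega) (by omega) (by omega)).2 (by omega)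
  have hZ : ECon (upr K (q l) r) := econ_rect (by omega) (by omega)
  have htop : top (q l) (2 * r) ∈ sites (upr K (q l) r) := by
    rw [upr, mem_sites_rect (by omega) (by omega)]
    simp only [top]
    omega
  unfold mass
  refine sum_eq_zero fun z _ => ?_
  by_cases hz : g z = 0
  · rw [hz, ite_self]
  rw [if_neg]
  rintro ⟨u, hu, h1⟩
  apply h1
  have hzs := hg z hz
  have hz' : z ∈ sites (upr K (q l) r) := by
    rw [h.mem_sites] at hzs
    rw [upr, mem_sites_rect (by omega) (by omega)]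
    omega
  rw [pot_zone hu hZD hlow (hZ z hz' _ htop)]
  exact pot_top hq hD hF (by omega) hl h0 hu (fun e he => (hI e he).1) fun e he => (hI e he).2

/-- Boundary sites are not surrounded by loops. -/
theorem W_bd (hA : A ∈ pcs ω D) (hl : IsLp D A) (i : ℕ) : W A (q i) = 0 := by
  rw [lp_bd hq hD hA (potD_W (D := D) (BR.IsLp.isLoop hA hl)) hl i]
  exact W_poly hq hD hA hl

/-- **Charges near flat boundary points.** -/
theorem bumps_flat {ι : Type*} {J : Finset ι} {i : ι → ℕ} {r : ι → ℤ} {g : ι → ℤ × ℤ → ℝ}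
    (h : ∀ j ∈ J, Sc K (r j)) (hF : ∀ j ∈ J, Flt D (q (i j)) (2 * r j))
    (hg : ∀ j ∈ J, ∀ z, |g j z| ≤ K / (r j : ℝ) ^ 2)
    (hs : ∀ j ∈ J, ∀ z, g j z ≠ 0 → z ∈ sites (core K (q (i j)) (r j)))
    (hsep : ∀ j ∈ J, ∀ j' ∈ J, j ≠ j' →
      Disjoint (hbox (q (i j)) (2 * r j)) (hbox (q (i j')) (2 * r j'))) :
    BumpsQ J D (q 0) (fun j => core K (q (i j)) (r j)) (fun j => hbox (q (i j)) (r j)) g
      (fun j => dq K (r j)) (fun _ => True) where
  sub j hj := (h j hj).core_sub.trans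
    ((hbox_mono (by have := (h j hj).r8; omega)).trans (hbox_sub (hF j hj)))
  zb j hj := (h j hj).core_sub
  econ j hj := (h j hj).econ _
  supp j hj := hs j hj
  nbhd j hj v hv w hw := hbox_sub (hF j hj)
    ((h j hj).near hv (by have := dq_le (h j hj); linarith))
  small j hj ω ℓ hℓ hsm := by
    have h1 := (h j hj).one_le
    have h8 : (8 : ℝ) ≤ r j := by exact_mod_cast (h j hj).r8
    refine G_small (κ := 1 / (66 * K)) (ρ := r j) (Cm := K) (by linarith) (by linarith) ?_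
      (hg j hj) hℓ hsm
    rw [div_pow, one_pow, mul_one_div, div_le_iff₀ (by positivity)]
    nlinarith
  sep j hj j' hj' hne u hu v hv := by
    by_contra hcon
    push Not at hcon
    have h1 : v ∈ hbox (q (i j)) (2 * r j) := by
      refine (h j hj).near hu ?_
      rw [nm_comm']
      have := dq_le (h j hj)
      linarith
    have h2 : v ∈ hbox (q (i j')) (2 * r j') :=
      hbox_mono (by have := (h j' hj').r8; omega) ((h j' hj').core_sub hv)
    exact Finset.disjoint_left.1 (hsep j hj j' hj' hne) h1 h2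
  base ω A hA _ hl := W_poly hq hD hA hl
  conn j hj z hz := conn_poly hq hD (sites_mono ((h j hj).core_sub.trans
    ((hbox_mono (by have := (h j hj).r8; omega)).trans (hbox_sub (hF j hj)))) hz)
  loop j hj ω A hA _ hl hG := by
    by_contra hV
    obtain ⟨z, hz, hfz⟩ := exists_ins_of_G hG
    have hr1 : 1 ≤ r j := by have := (h j hj).r8; omega
    have hz' : z ∈ sites (hbox (q (i j)) (r j)) := sites_mono (h j hj).core_sub (hs j hj z hfz)
    have hb' : q (i j) ∈ sites (hbox (q (i j)) (r j)) := by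
      rw [mem_sites_hbox hr1]
      omega
    have h3 := W_zone (BR.IsLp.isLoop hA hl) hV (econ_hbox hr1 z hz' _ hb')
    rw [h3] at hz
    exact hz (W_bd hq hD hA hl _)

end

/-! ### the bound of the weights -/

/-- The bound of the weights. -/
noncomputable def MW (θ : ℝ) : ℝ := 1 / (Real.sin θ * Real.cos θ)

section

variable (hθ0 : 0 < θ) (hθ1 : θ ≤ Real.pi / 3)
include hθ0 hθ1

theorem sin_pos' : 0 < Real.sin θ :=
  Real.sin_pos_of_pos_of_lt_pi hθ0 (by have := Real.pi_pos; linarith)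

theorem cos_half : 1 / 2 ≤ Real.cos θ := by
  rw [← Real.cos_pi_div_three]
  exact Real.cos_le_cos_of_nonneg_of_le_pi hθ0.le (by have := Real.pi_pos; linarith) hθ1

theorem two_le_MW : 2 ≤ MW θ := by
  have h1 := sin_pos' hθ0 hθ1
  have h2 := cos_half hθ0 hθ1
  unfold MW
  rw [le_div_iff₀ (by positivity)]
  nlinarith [Real.sin_sq_add_cos_sq θ, sq_nonneg (Real.sin θ - Real.cos θ)]

theorem wB_bd (q : ZMod n → ℤ × ℤ) (D : Finset (ℤ × ℤ)) (k : ℕ) (A : Finset Ed) (t : ℝ) :
    |wB θ (gB θ) q D k A t| ≤ MW θ := by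
  have h1 := sin_pos' hθ0 hθ1
  have h2 := cos_half hθ0 hθ1
  have h3 : Real.sin θ ≤ 1 := Real.sin_le_one θ
  have h4 : Real.cos θ ≤ 1 := Real.cos_le_one θ
  have h5 : 0 < Real.cos θ := by linarith
  have hs : Real.sin (2 * θ) = 2 * Real.sin θ * Real.cos θ := Real.sin_two_mul θ
  have key : ∀ x y : ℝ, |x| ≤ 1 → Real.sin θ * Real.cos θ ≤ y → |x / y| ≤ MW θ := by
    intro x y hx hy
    have hy0 : 0 < y := lt_of_lt_of_le (by positivity) hy
    rw [abs_div, abs_of_pos hy0]
    unfold MW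
    exact div_le_div₀ zero_le_one hx (by positivity) hy
  unfold wB
  split_ifs
  · exact key _ _ (Real.abs_cos_le_one _) (by nlinarith)
  · exact key _ _ (Real.abs_cos_le_one _) (by nlinarith)
  · exact key _ _ (Real.abs_sin_le_one _) (by rw [hs]; nlinarith [mul_pos h1 h5])
  · exact key _ _ (Real.abs_sin_le_one _) (by nlinarith)

theorem wtq (q : ZMod n → ℤ × ℤ) (D : Finset (ℤ × ℤ)) (k : ℕ) :
    WtQ θ (MW θ) D (wB θ (gB θ) q D k) where
  a0 := hθ0
  a1 := hθ1
  M1 := by have := two_le_MW hθ0 hθ1; linarith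
  loop A t hA := by
    unfold wB H562.wt
    rw [if_pos hA]
  bd A t := wB_bd hθ0 hθ1 q D k A t

end

/-! ### the majorants -/

section

variable (hq : IsPolygon q) (hD : Encloses q D)
include hq hD

open Classical in
/-- The mass of a far strand. -/
theorem mass_far (h : Sc K r) (hF : Flt D (q l) (2 * r)) (hl : l < n)
    (h0 : q 0 ∉ sites (hbox (q l) (2 * r))) {g : ℤ × ℤ → ℝ}
    (hg : ∀ z, g z ≠ 0 → z ∈ sites (core K (q l) r)) {t : ℝ} (ht : ∑ᶠ z, g z = t)
    (hA : A ∈ pcs ω D) (hAl : ¬ IsLp D A)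
    (hfar : ¬ (Vz (hbox (q l) r) A ∧ ¬ Small (dq K r) A)) :
    mass D (q 0) g A = if Ard q l A ∧ ¬ Vz (hbox (q l) r) A then t else 0 := by
  have hr8 := h.r8
  by_cases hV : Vz (hbox (q l) r) A
  · rw [if_neg (fun h' => h'.2 hV)]
    refine mass_small hq hD h hF hl h0 hg hA hAl ?_ hV
    by_contra hs
    exact hfar ⟨hV, hs⟩
  · rw [mass_off hq hD hF (by omega) (by omega) hl.le
      (fun z hz => sites_mono h.core_sub (hg z hz)) ht hA hV]
    by_cases ha : Ard q l A
    · rw [if_pos ha, if_pos ⟨ha, hV⟩]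
    · rw [if_neg ha, if_neg (fun h' => ha h'.1)]

open Classical in
/-- **The majorant of the product over the pieces.** -/
theorem maj_gen {ι : Type*} {J : Finset ι} {i : ι → ℕ} {r : ι → ℤ} {g : ι → ℤ × ℤ → ℝ} {t : ι → ℝ}
    {M : ℝ} {w : Finset Ed → ℝ → ℝ} (hw : WtQ θ M D w) (h : ∀ j ∈ J, Sc K (r j))
    (hF : ∀ j ∈ J, Flt D (q (i j)) (2 * r j)) (hl : ∀ j ∈ J, i j < n)
    (h0 : ∀ j ∈ J, q 0 ∉ sites (hbox (q (i j)) (2 * r j)))
    (hg : ∀ j ∈ J, ∀ z, |g j z| ≤ K / (r j : ℝ) ^ 2)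
    (hs : ∀ j ∈ J, ∀ z, g j z ≠ 0 → z ∈ sites (core K (q (i j)) (r j)))
    (ht : ∀ j ∈ J, ∑ᶠ z, g j z = t j)
    (hsep : ∀ j ∈ J, ∀ j' ∈ J, j ≠ j' →
      Disjoint (hbox (q (i j)) (2 * r j)) (hbox (q (i j')) (2 * r j'))) (ω : Cfg) :
    ∏ A ∈ pcs ω D, |w A (mass D (q 0) (fun z => ∑ j ∈ J, g j z) A)| ≤
      (∏ j ∈ J, M ^ (bigs D (hbox (q (i j)) (r j)) (dq K (r j)) ω).card *
        Real.exp (-(Real.tan θ * Sm (g j) (dq K (r j)) ω))) *
      ∏ A ∈ (pcs ω D).filter (Far J D (fun j => hbox (q (i j)) (r j)) (fun j => dq K (r j))),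
        |w A (∑ j ∈ J, if Ard q (i j) A ∧ ¬ Vz (hbox (q (i j)) (r j)) A then t j else 0)| := by
  have hB := bumps_flat hq hD h hF hg hs hsep
  have h1 := hB.maj_det hw (T := pcs ω D) (T' := pcs ω D) (ω := ω) subset_rfl subset_rfl
    (fun _ _ => trivial) (fun A hA _ _ _ _ _ => hA)
  refine h1.trans (le_of_eq ?_)
  rw [Finset.sdiff_self, card_empty, pow_zero, one_mul]
  congr 1
  · refine prod_congr rfl fun j hj => ?_
    have h3 := sum_nb1 (Z := fun j => core K (q (i j)) (r j)) (d := fun j => dq K (r j)) (F := g)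
      (j := j) (hs j hj) ω
    rw [h3]
  · refine prod_congr rfl fun A hA => ?_
    rw [mem_filter] at hA
    rw [mass_sum]
    congr 2
    refine sum_congr rfl fun j hj => ?_
    exact mass_far hq hD (h j hj) (hF j hj) (hl j hj) (h0 j hj) (hs j hj) (ht j hj) hA.1 hA.2.1
      (hA.2.2 j hj)

end

end Vale.Agent.P167.QB
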