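import Vale.Agent.P167.QB.Maj

/-!
# P167, general `q`, block Q-BRIDGE: majorants of the functionals with charges at `c` and `d`

`maj1`: the functional with the bumps `fd` at `q m` and `- fc` at `q l`. `maj2`: the functional with the
bump `fd` at `q m` and the point charge `- θ` at `q l`.
-/

namespace Vale.Agent.P167.QB

open Finset Relation Vale.Agent.P167.BR Vale.Agent.P167.H562.SML Vale.Agent.P167.H45
open Vale.Agent.P167.E6 (IsPolygon Encloses dir face)
open Vale.Agent.P167.H718 (IsXY IsCl Cl isCl_strand side_const)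
open Vale.Agent.P167.QX (lo hi exists_xy lo_xy hi_xy wB)
open Vale.Agent.P167.H562.MAJ (bigs Sm core Sc mem_core)
open Vale.Agent.P167.H562.QM (BumpsQ WtQ Far)

variable {D Z : Finset (ℤ × ℤ)} {ω : Cfg} {n : ℕ} {q : ZMod n → ℤ × ℤ} {A B : Finset Ed}
  {a b m : ℕ} {θ K : ℝ} {k l : ℕ} {r R rc rd : ℤ} {fc fd : ℤ × ℤ → ℝ}

/-- Two objects. -/
def b2 {α : Type*} (x y : α) : Bool → α
  | true => x
  | false => y

section

variable (hq : IsPolygon q) (hD : Encloses q D)
include hq hD

/-- A small strand which visits the half box has both ends near. -/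
theorem small_hi (h : Sc K r) (hF : Flt D (q l) (2 * r)) (hl : l < n)
    (h0 : q 0 ∉ sites (hbox (q l) (2 * r))) (hk : (l : ℤ) + 2 * r ≤ k) (hA : A ∈ pcs ω D)
    (hAl : ¬ IsLp D A) (hs : Small (dq K r) A) (hV : Vz (hbox (q l) r) A) : hi q A < k := by
  have hr8 := h.r8
  have hI := h.inner hF hA (small_mono (dq_le h) hs) hV
  obtain ⟨x, y, h1, h2, h3, h4, h5, -⟩ := inn_xy hq hD hF (by omega) hl h0 hA
    (fun e he => (hI e he).1) (fun e he => (hI e he).2) hAl
  rw [hi_xy hq hD hA h1]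
  omega

open Classical in
/-- **The majorant of the functional with two bumps.** -/
theorem maj1 (hθ0 : 0 < θ) (hθ1 : θ ≤ Real.pi / 3) (hml : m < l) (hkn : k ≤ n)
    (hSd : Sc K rd) (hSc : Sc K rc) (hFd : Flt D (q m) (2 * rd)) (hFc : Flt D (q l) (2 * rc))
    (h0d : q 0 ∉ sites (hbox (q m) (2 * rd))) (h0c : q 0 ∉ sites (hbox (q l) (2 * rc)))
    (hk : (l : ℤ) + 2 * rc ≤ k) (hsep : Disjoint (hbox (q m) (2 * rd)) (hbox (q l) (2 * rc)))
    (hgd : ∀ z, |fd z| ≤ K / (rd : ℝ) ^ 2) (hgc : ∀ z, |fc z| ≤ K / (rc : ℝ) ^ 2)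
    (hsd : ∀ z, fd z ≠ 0 → z ∈ sites (core K (q m) rd))
    (hsc : ∀ z, fc z ≠ 0 → z ∈ sites (core K (q l) rc))
    (htd : ∑ᶠ z, fd z = θ) (htc : ∑ᶠ z, fc z = θ) (ω : Cfg) {Nd Nc : ℕ}
    (hNd : (bigs D (hbox (q m) rd) (dq K rd) ω).card ≤ Nd)
    (hNc : (bigs D (hbox (q l) rc) (dq K rc) ω).card ≤ Nc) :
    |XG θ q D k (fun z => fd z - fc z) ω| ≤ MW θ ^ 2 *
      (((MW θ ^ 3) ^ Nd * Real.exp (-(Real.tan θ * Sm fd (dq K rd) ω))) *
      ((MW θ ^ 3) ^ Nc * Real.exp (-(Real.tan θ * Sm (-fc) (dq K rc) ω)))) := by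
  have hM2 := two_le_MW hθ0 hθ1
  have hM1 : 1 ≤ MW θ := by linarith
  have hrc := hSc.r8
  have hrd := hSd.r8
  have hln : l < n := by omega
  have hmn : m < n := by omega
  set i : Bool → ℕ := b2 m l with hi'
  set r : Bool → ℤ := b2 rd rc with hr'
  set g : Bool → ℤ × ℤ → ℝ := b2 fd (-fc) with hg'
  set t : Bool → ℝ := b2 θ (-θ) with ht'
  have hnegs : ∑ᶠ z, (-fc) z = -θ := by
    rw [← htc, ← finsum_neg_distrib]
    rfl
  have hmaj := maj_gen hq hD (J := (univ : Finset Bool)) (i := i) (r := r) (g := g) (t := t)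
    (wtq hθ0 hθ1 q D k) (by rintro (_ | _) _ <;> assumption) (by rintro (_ | _) _ <;> assumption)
    (by rintro (_ | _) _ <;> assumption) (by rintro (_ | _) _ <;> assumption)
    (by
      rintro (_ | _) _ z
      · show |(-fc) z| ≤ _
        rw [Pi.neg_apply, abs_neg]
        exact hgc z
      · exact hgd z)
    (by
      rintro (_ | _) _ z hz
      · exact hsc z (by intro h'; apply hz; show -(fc z) = 0; rw [h', neg_zero])
      · exact hsd z hz)
    (by rintro (_ | _) _ <;> assumption)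
    (by
      rintro (_ | _) _ (_ | _) _ hne
      · exact absurd rfl hne
      · exact hsep.symm
      · exact hsep
      · exact absurd rfl hne) ω
  have hf : (fun z => fd z - fc z) = fun z => ∑ j, g j z := by
    funext z
    rw [Fintype.sum_bool]
    show fd z - fc z = fd z + -(fc z)
    ring
  unfold XG QX.XB
  rw [abs_prod, hf]
  refine hmaj.trans ?_
  rw [Fintype.prod_bool]
  -- the far strands
  set F : Finset (Finset Ed) := (pcs ω D).filter
    (Far univ D (fun j => hbox (q (i j : ℕ)) (r j)) (fun j => dq K (r j))) with hFdef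
  have hqd : q m ∈ sites (hbox (q m) rd) := by rw [mem_sites_hbox (by omega)]; omega
  have hqc : q l ∈ sites (hbox (q l) rc) := by rw [mem_sites_hbox (by omega)]; omega
  obtain ⟨a, ham, ha⟩ := off_pos hq hD ω ((hbox_mono (by omega)).trans (hbox_sub hFd))
    (econ_hbox (by omega)) hmn.le hqd
  obtain ⟨b, hbl, hb⟩ := off_pos hq hD ω ((hbox_mono (by omega)).trans (hbox_sub hFc))
    (econ_hbox (by omega)) hln.le hqc
  have hFF : ∀ A ∈ F, A ∈ pcs ω D ∧ ¬ IsLp D A := fun A hA => by
    rw [hFdef, mem_filter] at hA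
    exact ⟨hA.1, hA.2.1⟩
  have hfar := far_prod hq hD (ω := ω) (k := k) (F := F) (a := a) (b := b) (N := Nd + Nc)
    (sin_pos' hθ0 hθ1) (by have := cos_half hθ0 hθ1; linarith) hM2
    (wB_bd hθ0 hθ1 q D k) (ham.trans hmn.le) (hbl.trans hln.le) hFF ?_ ?_ ?_
  · have e1 : ∏ A ∈ F, |wB θ (gB θ) q D k A (∑ j, if Ard q (i j) A ∧ ¬ Vz (hbox (q (i j)) (r j)) A
        then t j else 0)| = ∏ A ∈ F, |wB θ (gB θ) q D k A ((if Ard q a A then θ else 0) -
          if Ard q b A then θ else 0)| := by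
      refine prod_congr rfl fun A hA => ?_
      have hA' := (hFF A hA).1
      congr 2
      rw [Fintype.sum_bool]
      have k1 : (if Ard q (i true) A ∧ ¬ Vz (hbox (q (i true)) (r true)) A then t true else 0) =
          if Ard q a A then θ else 0 := by
        have hh : Ard q (i true) A ∧ ¬ Vz (hbox (q (i true)) (r true)) A ↔ Ard q a A := ha A hA'
        by_cases h' : Ard q a A
        · rw [if_pos h', if_pos (hh.2 h')]
          rfl
        · rw [if_neg h', if_neg (fun h'' => h' (hh.1 h''))]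
      have k2 : (if Ard q (i false) A ∧ ¬ Vz (hbox (q (i false)) (r false)) A then t false else 0) =
          -if Ard q b A then θ else 0 := by
        have hh : Ard q (i false) A ∧ ¬ Vz (hbox (q (i false)) (r false)) A ↔ Ard q b A := hb A hA'
        by_cases h' : Ard q b A
        · rw [if_pos h', if_pos (hh.2 h')]
          rfl
        · rw [if_neg h', if_neg (fun h'' => h' (hh.1 h'')), neg_zero]
      rw [k1, k2]
      ring
    rw [e1]
    have k1 : MW θ ^ (bigs D (hbox (q (i true)) (r true)) (dq K (r true)) ω).card ≤ MW θ ^ Nd :=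
      pow_le_pow_right₀ hM1 hNd
    have k2 : MW θ ^ (bigs D (hbox (q (i false)) (r false)) (dq K (r false)) ω).card ≤ MW θ ^ Nc :=
      pow_le_pow_right₀ hM1 hNc
    have p1 := Real.exp_pos (-(Real.tan θ * Sm fd (dq K rd) ω))
    have p2 := Real.exp_pos (-(Real.tan θ * Sm (-fc) (dq K rc) ω))
    calc _ ≤ (MW θ ^ Nd * Real.exp (-(Real.tan θ * Sm fd (dq K rd) ω)) *
          (MW θ ^ Nc * Real.exp (-(Real.tan θ * Sm (-fc) (dq K rc) ω)))) *
          MW θ ^ (2 + 2 * (Nd + Nc)) := by
          refine mul_le_mul (mul_le_mul (mul_le_mul_of_nonneg_right k1 p1.le)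
            (mul_le_mul_of_nonneg_right k2 p2.le) (by positivity) (by positivity)) hfar
            (prod_nonneg fun _ _ => abs_nonneg _) (by positivity)
      _ = _ := by ring
  · -- the number of the other strands
    have hsub : (pcs ω D).filter (fun A => ¬ IsLp D A ∧ A ∉ F) ⊆
        bigs D (hbox (q m) rd) (dq K rd) ω ∪ bigs D (hbox (q l) rc) (dq K rc) ω := by
      intro A hA
      rw [mem_filter] at hA
      obtain ⟨hA, hAl, hAF⟩ := hA
      rw [hFdef, mem_filter] at hAF
      have h1 : ¬ Far univ D (fun j => hbox (q (i j : ℕ)) (r j)) (fun j => dq K (r j)) A :=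
        fun h' => hAF ⟨hA, h'⟩
      unfold Far at h1
      push Not at h1
      obtain ⟨j, -, h2, h3⟩ := h1 hAl
      rw [mem_union]
      rcases j with _ | _
      · right
        exact mem_filter.2 ⟨hA, h2, h3⟩
      · left
        exact mem_filter.2 ⟨hA, h2, h3⟩
    refine (card_le_card hsub).trans ((card_union_le _ _).trans ?_)
    omega
  · intro A hA h1 _
    have h2 := ((hb A (hFF A hA).1).2 h1).1
    unfold Ard at h2
    omega
  · intro A hA h1 h2
    obtain ⟨hA', hAl⟩ := hFF A hA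
    by_contra hcon
    push Not at hcon
    have h3 := ((ha A hA').2 h1).1
    have h4 : Ard q l A := by
      unfold Ard at h3 ⊢
      omega
    have h5 : Vz (hbox (q l) rc) A := by
      by_contra h'
      exact h2 ((hb A hA').1 ⟨h4, h'⟩)
    rw [hFdef, mem_filter] at hA
    have h6 := hA.2.2 false (mem_univ _)
    have h7 : Small (dq K rc) A := by
      by_contra h'
      exact h6 ⟨h5, h'⟩
    have := small_hi hq hD hSc hFc hln h0c hk hA' hAl h7 h5
    omega

open Classical in
/-- **The majorant of the functional with a bump and a point charge.** -/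
theorem maj2 (hθ0 : 0 < θ) (hθ1 : θ ≤ Real.pi / 3) (hml : m < l) (hlk : l < k) (hkn : k ≤ n)
    (hSd : Sc K rd) (hFd : Flt D (q m) (2 * rd)) (hls : q l ∈ sites D)
    (h0d : q 0 ∉ sites (hbox (q m) (2 * rd)))
    (hgd : ∀ z, |fd z| ≤ K / (rd : ℝ) ^ 2)
    (hsd : ∀ z, fd z ≠ 0 → z ∈ sites (core K (q m) rd))
    (htd : ∑ᶠ z, fd z = θ) (ω : Cfg) {Nd : ℕ}
    (hNd : (bigs D (hbox (q m) rd) (dq K rd) ω).card ≤ Nd) :
    |XG θ q D k (fun z => fd z - dlt (q l) θ z) ω| ≤ MW θ ^ 2 *
      ((MW θ ^ 3) ^ Nd * Real.exp (-(Real.tan θ * Sm fd (dq K rd) ω))) := by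
  have hM2 := two_le_MW hθ0 hθ1
  have hM1 : 1 ≤ MW θ := by linarith
  have hrd := hSd.r8
  have hln : l < n := by omega
  have hmn : m < n := by omega
  set w' : Finset Ed → ℝ → ℝ := fun A t => wB θ (gB θ) q D k A (t - if Ard q l A then θ else 0)
    with hw'
  -- only the pieces of the domain matter: replace the weight of the other loops
  set w : Finset Ed → ℝ → ℝ := fun A t => if IsLp D A then H562.wt θ t else w' A t with hw
  have hwt : WtQ θ (MW θ) D w :=
    { a0 := hθ0
      a1 := hθ1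
      M1 := hM1
      loop := fun A t hA => by rw [hw]; simp only; rw [if_pos hA]
      bd := fun A t => by
        rw [hw]
        simp only
        split_ifs with h
        · have := (wtq hθ0 hθ1 q D k).loop A t h
          rw [← this]
          exact wB_bd hθ0 hθ1 q D k A t
        · exact wB_bd hθ0 hθ1 q D k A _ }
  have hmaj := maj_gen hq hD (J := ({()} : Finset Unit)) (i := fun _ => m) (r := fun _ => rd)
    (g := fun _ => fd) (t := fun _ => θ) hwt (fun _ _ => hSd) (fun _ _ => hFd) (fun _ _ => hmn)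
    (fun _ _ => h0d) (fun _ _ => hgd) (fun _ _ => hsd) (fun _ _ => htd)
    (fun _ _ _ _ h => absurd rfl h) ω
  simp only [sum_singleton, prod_singleton] at hmaj
  have e0 : |XG θ q D k (fun z => fd z - dlt (q l) θ z) ω| =
      ∏ A ∈ pcs ω D, |w A (mass D (q 0) fd A)| := by
    unfold XG QX.XB
    rw [abs_prod]
    refine prod_congr rfl fun A hA => ?_
    rw [mass_sub', mass_dlt hq hD hln.le hA hls]
    congr 1
    simp only [hw, hw']
    by_cases h : IsLp D A
    · rw [if_pos h, if_neg (ard_lp hq hD hA h), sub_zero]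
      exact (wtq hθ0 hθ1 q D k).loop A _ h
    · rw [if_neg h]
  rw [e0]
  refine hmaj.trans ?_
  set F : Finset (Finset Ed) := (pcs ω D).filter
    (Far {()} D (fun _ => hbox (q m) rd) (fun _ => dq K rd)) with hFdef
  have hqd : q m ∈ sites (hbox (q m) rd) := by rw [mem_sites_hbox (by omega)]; omega
  obtain ⟨a, ham, ha⟩ := off_pos hq hD ω ((hbox_mono (by omega)).trans (hbox_sub hFd))
    (econ_hbox (by omega)) hmn.le hqd
  have hFF : ∀ A ∈ F, A ∈ pcs ω D ∧ ¬ IsLp D A := fun A hA => by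
    rw [hFdef, mem_filter] at hA
    exact ⟨hA.1, hA.2.1⟩
  have hfar := far_prod hq hD (ω := ω) (k := k) (F := F) (a := a) (b := l) (N := Nd)
    (sin_pos' hθ0 hθ1) (by have := cos_half hθ0 hθ1; linarith) hM2
    (wB_bd hθ0 hθ1 q D k) (ham.trans hmn.le) hln.le hFF ?_ ?_ ?_
  · have e1 : ∏ A ∈ F, |w A (if Ard q m A ∧ ¬ Vz (hbox (q m) rd) A then θ else 0)| =
        ∏ A ∈ F, |wB θ (gB θ) q D k A ((if Ard q a A then θ else 0) -
          if Ard q l A then θ else 0)| := by
      refine prod_congr rfl fun A hA => ?_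
      obtain ⟨hA', hAl⟩ := hFF A hA
      simp only [hw, hw']
      rw [if_neg hAl]
      congr 2
      by_cases h' : Ard q a A
      · rw [if_pos h', if_pos ((ha A hA').2 h')]
      · rw [if_neg h', if_neg (fun h'' => h' ((ha A hA').1 h''))]
    rw [e1]
    have k1 : MW θ ^ (bigs D (hbox (q m) rd) (dq K rd) ω).card ≤ MW θ ^ Nd :=
      pow_le_pow_right₀ hM1 hNd
    have p1 := Real.exp_pos (-(Real.tan θ * Sm fd (dq K rd) ω))
    calc _ ≤ (MW θ ^ Nd * Real.exp (-(Real.tan θ * Sm fd (dq K rd) ω))) *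
          MW θ ^ (2 + 2 * Nd) := by
          refine mul_le_mul (mul_le_mul_of_nonneg_right k1 p1.le) hfar
            (prod_nonneg fun _ _ => abs_nonneg _) (by positivity)
      _ = _ := by ring
  · have hsub : (pcs ω D).filter (fun A => ¬ IsLp D A ∧ A ∉ F) ⊆
        bigs D (hbox (q m) rd) (dq K rd) ω := by
      intro A hA
      rw [mem_filter] at hA
      obtain ⟨hA, hAl, hAF⟩ := hA
      rw [hFdef, mem_filter] at hAF
      have h1 : ¬ Far {()} D (fun _ => hbox (q m) rd) (fun _ => dq K rd) A :=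
        fun h' => hAF ⟨hA, h'⟩
      unfold Far at h1
      push Not at h1
      obtain ⟨j, -, h2, h3⟩ := h1 hAl
      exact mem_filter.2 ⟨hA, h2, h3⟩
    exact (card_le_card hsub).trans hNd
  · intro A hA h1 _
    unfold Ard at h1
    omega
  · intro A hA h1 h2
    by_contra hcon
    push Not at hcon
    have h3 := ((ha A (hFF A hA).1).2 h1).1
    unfold Ard at h2 h3
    omega

end

end Vale.Agent.P167.QB
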