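import Vale.Agent.P167.QB.Pr1
import Vale.Agent.P167.QM.Cons
import Vale.Agent.P167.QM.Mix2
import Vale.Agent.P167.QM.ArmM
import Vale.Agent.P167.QM.Opt
import Vale.Agent.P167.H135.Q.BMix2

/-!
# P167, general `q`, block Q-BRIDGE: mixing with a rate at a flat free side

From the relative form of MIX > 1 (`QM.rel_all`).
-/

namespace Vale.Agent.P167.QB

open Finset Relation Vale.Agent.P167.FK Vale.Agent.P167.FKA
open Vale.Agent.P167.BR (hbox mem_hbox hbox_mono)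
open Vale.Agent.P167.H562.QM (FltQ)
open Vale.Agent.P167.QM (HS HB Side mem_HS)
open Vale.Agent.P167.H259 (f_markov)

variable {Q : ℝ} {b : ℤ × ℤ} {r R : ℤ} {ω ω' : Cfg}

theorem HS_eq (b : ℤ × ℤ) (R : ℤ) : HS 0 b R = hbox b R := by
  ext v
  rw [mem_HS, mem_hbox_iff]
  rfl

/-- A flat free side. -/
theorem fltQ_side {D : Finset (ℤ × ℤ)} {η : Cfg} (h : FltQ D η b R false false) :
    Side 0 false D η b R where
  sub := by rw [HS_eq]; exact fltQ_sub h
  out v hv hv' := by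
    have h1 : ¬ b.2 ≤ v.2 := hv'
    have h2 := nm_of_Bq hv
    refine ⟨fun h3 => h1 ((h.dom v h2).1 h3), ?_⟩
    have h4 := h.out v h2 (by omega)
    split_ifs at h4 <;> exact h4

/-- The half box with everything closed outside. -/
theorem side_box (b : ℤ × ℤ) {R R' : ℤ} (h : R ≤ R') : Side 0 false (hbox b R') eta0 b R where
  sub := by rw [HS_eq]; exact hbox_mono h
  out v hv hv' := by
    have h1 : ¬ b.2 ≤ v.2 := hv'
    refine ⟨fun h3 => h1 (mem_hbox.1 h3).2.2.1, rfl⟩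

/-- **Mixing with a rate at a flat free side.** The reference is the half box with everything closed
outside; `G` does not depend on the squares of the half box of radius `R`. -/
theorem mix_flat_of (hQ : 1 ≤ Q) (hM1 : QM.MIX1 Q) (hM2 : QM.MIX2 Q) : ∃ (K : ℤ) (α C : ℝ), 1 ≤ K ∧ 0 < α ∧ 0 < C ∧
    ∀ (b : ℤ × ℤ) (r R : ℤ), 1 ≤ r → K * r ≤ R → ∀ F : Cfg → ℝ, Loc (hbox b r) F →
      (∀ (D : Finset (ℤ × ℤ)) (η : Cfg), FltQ D η b R false false → Good η →
        ∀ G : Cfg → ℝ, Ind (hbox b R) G →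
          |Ex Q D η (fun ω => F ω * G ω) - Ex Q (hbox b R) eta0 F * Ex Q D η G| ≤
            C * ((r : ℝ) / R) ^ α * Ex Q (hbox b R) eta0 (fun ω => |F ω|) *
              Ex Q D η (fun ω => |G ω|)) ∧
      ∀ R' : ℤ, R ≤ R' → |Ex Q (hbox b R) eta0 F - Ex Q (hbox b R') eta0 F| ≤
        C * ((r : ℝ) / R) ^ α * Ex Q (hbox b R) eta0 (fun ω => |F ω|) := by
  have hQ0 : 0 < Q := by linarith
  obtain ⟨K, c, C, hK, hc, hC, h⟩ := QM.rel_all hQ hM1 hM2
  refine ⟨K, 1 + c, C, hK, by linarith, hC, fun b r R hr hKr F hF => ⟨?_, ?_⟩⟩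
  · intro D η hFl hη G hG
    have hF' : Loc (HS 0 b r) F := by rw [HS_eq]; exact hF
    have hUD : hbox b R ⊆ D := fltQ_sub hFl
    have e1 : Ex Q D η (fun ω => F ω * G ω) =
        Ex Q D η (fun ω => G ω * Ex Q (hbox b R) ω F) := by
      rw [← FKA.markov f_markov hQ0 hUD hη hG]
      exact Ex_congr fun S _ => mul_comm _ _
    rw [e1, ← Ex_mul_left, ← Ex_sub]
    refine (abs_Ex_le hQ0 _).trans ?_
    rw [← Ex_mul_left]
    refine Ex_mono hQ0 fun S hS => ?_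
    rw [mul_comm (Ex Q (hbox b R) eta0 F), ← mul_sub, abs_mul, mul_comm]
    refine mul_le_mul_of_nonneg_right ?_ (abs_nonneg _)
    have h1 := (h 0 false b r R hr hKr (hbox b R) eta0 (side_box b le_rfl) f_good.2.1 F hF').1
      (hbox b R) (cf D η S) ?_ (f_good.1 D η S hη)
    · rw [abs_sub_comm] at h1
      exact h1
    · have h2 := (fltQ_side hFl).self S
      rw [HS_eq] at h2
      exact h2
  · intro R' hRR'
    have hF' : Loc (HS 0 b r) F := by rw [HS_eq]; exact hF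
    exact (h 0 false b r R hr hKr (hbox b R) eta0 (side_box b le_rfl) f_good.2.1 F hF').1
      (hbox b R') eta0 (side_box b hRR') f_good.2.1

theorem mix1' (hQ : 1 ≤ Q) (hR : RSW Q) : QM.MIX1 Q := QM.mix1_of hQ (QM.m_arm hQ hR) QM.m_opt

theorem mix2' (hQ : 1 ≤ Q) (hR : RSW Q) : QM.MIX2 Q := H135.Q.mix2 hQ hR QM.m_opt

/-- **Mixing with a rate at a flat free side**, from RSW. -/
theorem mix_flat (hQ : 1 ≤ Q) (hR : RSW Q) : ∃ (K : ℤ) (α C : ℝ), 1 ≤ K ∧ 0 < α ∧ 0 < C ∧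
    ∀ (b : ℤ × ℤ) (r R : ℤ), 1 ≤ r → K * r ≤ R → ∀ F : Cfg → ℝ, Loc (hbox b r) F →
      (∀ (D : Finset (ℤ × ℤ)) (η : Cfg), FltQ D η b R false false → Good η →
        ∀ G : Cfg → ℝ, Ind (hbox b R) G →
          |Ex Q D η (fun ω => F ω * G ω) - Ex Q (hbox b R) eta0 F * Ex Q D η G| ≤
            C * ((r : ℝ) / R) ^ α * Ex Q (hbox b R) eta0 (fun ω => |F ω|) *
              Ex Q D η (fun ω => |G ω|)) ∧
      ∀ R' : ℤ, R ≤ R' → |Ex Q (hbox b R) eta0 F - Ex Q (hbox b R') eta0 F| ≤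
        C * ((r : ℝ) / R) ^ α * Ex Q (hbox b R) eta0 (fun ω => |F ω|) :=
  mix_flat_of hQ (mix1' hQ hR) (mix2' hQ hR)

end Vale.Agent.P167.QB
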