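import Vale.Agent.P167.QB.Pr4

/-!
# P167, general `q`, block Q-BRIDGE: the assembly at `c` with explicit intermediate scales

`s₁ = ⌊r x⌋`, `s₂ = ⌊r x²⌋` with `x = (R / r) ^ (1 / 3)`.
-/

namespace Vale.Agent.P167.QB

open Finset Relation Vale.Agent.P167.FK Vale.Agent.P167.FKA
open Vale.Agent.P167.BR (hbox mem_hbox hbox_mono Iso Crs Flt)
open Vale.Agent.P167.H562.QM (FltQ)

variable {Q : ℝ} {b : ℤ × ℤ} {r R : ℤ} {ω ω' : Cfg}

/-- The intermediate scales. -/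
noncomputable def S1 (r R : ℤ) : ℤ := ⌊(r : ℝ) * ((R : ℝ) / r) ^ (1 / 3 : ℝ)⌋

/-- The intermediate scales. -/
noncomputable def S2 (r R : ℤ) : ℤ := ⌊(r : ℝ) * (((R : ℝ) / r) ^ (1 / 3 : ℝ)) ^ 2⌋

theorem floor_half {y : ℝ} (hy : 2 ≤ y) : y / 2 ≤ (⌊y⌋ : ℝ) := by
  have := Int.lt_floor_add_one y
  linarith

theorem scales (K : ℤ) (hK : 1 ≤ K) : ∃ K0 : ℤ, 1 ≤ K0 ∧ ∀ r R : ℤ, 1 ≤ r → K0 * r ≤ R →
    K * r ≤ S1 r R ∧ K * S1 r R ≤ S2 r R ∧ K * S2 r R ≤ R ∧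
    (r : ℝ) / S1 r R ≤ 2 * ((r : ℝ) / R) ^ (1 / 3 : ℝ) ∧
    (S1 r R : ℝ) / S2 r R ≤ 2 * ((r : ℝ) / R) ^ (1 / 3 : ℝ) ∧
    (S2 r R : ℝ) / R ≤ 2 * ((r : ℝ) / R) ^ (1 / 3 : ℝ) := by
  refine ⟨(2 * K) ^ 3, by nlinarith [pow_pos (by omega : (0 : ℤ) < 2 * K) 3], fun r R hr hR => ?_⟩
  have hr' : (1 : ℝ) ≤ r := by exact_mod_cast hr
  have hr0 : (0 : ℝ) < r := by linarith
  have hK' : (1 : ℝ) ≤ K := by exact_mod_cast hK
  have hR' : (2 * K : ℝ) ^ 3 * r ≤ R := by exact_mod_cast hR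
  have hR0 : (0 : ℝ) < R := lt_of_lt_of_le (by positivity) hR'
  set x : ℝ := ((R : ℝ) / r) ^ (1 / 3 : ℝ) with hx
  have hRr : 0 ≤ (R : ℝ) / r := by positivity
  have hx3 : x ^ 3 = (R : ℝ) / r := by
    rw [hx, ← Real.rpow_natCast, ← Real.rpow_mul hRr]
    norm_num
  have hx0 : 0 ≤ x := Real.rpow_nonneg hRr _
  have hxK : 2 * (K : ℝ) ≤ x := by
    have h1 : (2 * K : ℝ) ^ 3 ≤ x ^ 3 := by
      rw [hx3, le_div_iff₀ hr0]
      exact hR'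
    exact le_of_pow_le_pow_left₀ (by norm_num) hx0 h1
  have hx2 : 2 ≤ x := by linarith
  have hR3 : (R : ℝ) = r * x ^ 3 := by
    rw [hx3]
    field_simp
  have hinv : ((r : ℝ) / R) ^ (1 / 3 : ℝ) = x⁻¹ := by
    rw [hx, ← Real.inv_rpow hRr, inv_div]
  have hxp : 0 < x := by linarith
  have hxx : x ≤ x ^ 2 := by nlinarith
  have hrx : 2 ≤ r * x := by nlinarith
  have hrx2 : 2 ≤ r * x ^ 2 := by nlinarith
  have a1 := floor_half hrx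
  have a2 := floor_half hrx2
  have b1 := Int.floor_le ((r : ℝ) * x)
  have b2 := Int.floor_le ((r : ℝ) * x ^ 2)
  have c1 : S1 r R = ⌊(r : ℝ) * x⌋ := rfl
  have c2 : S2 r R = ⌊(r : ℝ) * x ^ 2⌋ := rfl
  rw [c1, c2, hinv]
  have d1 : (0 : ℝ) < (⌊(r : ℝ) * x⌋ : ℝ) := by linarith
  have d2 : (0 : ℝ) < (⌊(r : ℝ) * x ^ 2⌋ : ℝ) := by linarith
  refine ⟨?_, ?_, ?_, ?_, ?_, ?_⟩
  · rw [Int.le_floor]
    push_cast
    nlinarith
  · rw [Int.le_floor]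
    push_cast
    calc (K : ℝ) * (⌊(r : ℝ) * x⌋ : ℝ) ≤ K * (r * x) :=
          mul_le_mul_of_nonneg_left b1 (by linarith)
      _ = r * (K * x) := by ring
      _ ≤ r * (x * x) := by
          refine mul_le_mul_of_nonneg_left ?_ hr0.le
          nlinarith
      _ = _ := by ring
  · have h1 : (K : ℝ) * (⌊(r : ℝ) * x ^ 2⌋ : ℝ) ≤ R := by
      calc (K : ℝ) * (⌊(r : ℝ) * x ^ 2⌋ : ℝ) ≤ K * (r * x ^ 2) :=
            mul_le_mul_of_nonneg_left b2 (by linarith)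
        _ = r * (K * x ^ 2) := by ring
        _ ≤ r * (x * x ^ 2) := by
            refine mul_le_mul_of_nonneg_left ?_ hr0.le
            nlinarith [sq_nonneg x]
        _ = R := by rw [hR3]; ring
    exact_mod_cast h1
  · rw [div_le_iff₀ d1]
    calc (r : ℝ) = 2 * x⁻¹ * (r * x / 2) := by field_simp
      _ ≤ _ := mul_le_mul_of_nonneg_left a1 (by positivity)
  · rw [div_le_iff₀ d2]
    calc (⌊(r : ℝ) * x⌋ : ℝ) ≤ r * x := b1
      _ = 2 * x⁻¹ * (r * x ^ 2 / 2) := by field_simp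
      _ ≤ _ := mul_le_mul_of_nonneg_left a2 (by positivity)
  · rw [div_le_iff₀ hR0]
    calc (⌊(r : ℝ) * x ^ 2⌋ : ℝ) ≤ r * x ^ 2 := b2
      _ = x⁻¹ * (r * x ^ 3) := by field_simp
      _ ≤ 2 * x⁻¹ * (r * x ^ 3) := by
          have : 0 ≤ x⁻¹ * (r * x ^ 3) := by positivity
          linarith
      _ = _ := by rw [← hR3]

/-- **The assembly at `c`** with explicit intermediate scales. `M` bounds the local majorant `Y`, `Y'` is
the majorant of the rest. -/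
theorem asm_c' (hQ : 1 ≤ Q) (hR : RSW Q) (L : ℤ) (hL : 3 ≤ L) :
    ∃ (K : ℤ) (α C : ℝ), 1 ≤ K ∧ 0 < α ∧ 0 < C ∧
    ∀ (D : Finset (ℤ × ℤ)) (η : Cfg) (b : ℤ × ℤ) (r R : ℤ), Good η →
      FltQ D η b R false false → 1 ≤ r → K * r ≤ R →
      L * r ≤ S1 r R ∧ S1 r R ≤ S2 r R ∧ L * S2 r R ≤ R ∧
    ∀ (X X' Fl Y Y' : Cfg → ℝ) (M : ℝ), 0 ≤ M →
      Loc (hbox b (S1 r R)) Fl → (∀ ω, 0 ≤ Fl ω) → (∀ ω, Fl ω ≤ Y ω) →
      (∀ ω, |X ω| ≤ Y ω * Y' ω) → (∀ ω, |X' ω| ≤ Y' ω) → Ind (hbox b R) Y' →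
      (∀ ω, Iso b r (S1 r R) ω → X ω = Fl ω * X' ω) →
      (∀ ω, ¬ Crs D b (S2 r R) R ω → X' ω = X' (clo (hbox b (S2 r R)) ω)) →
      (∀ G : Cfg → ℝ, (∀ ω, 0 ≤ G ω) → Ind (hbox b (L * r)) G →
        Ex Q D η (fun ω => G ω * Y ω) ≤ M * Ex Q D η G) →
      Ex Q (hbox b (S2 r R)) eta0 Fl ≤ M →
      |Ex Q D η X - Ex Q (hbox b (S2 r R)) eta0 Fl * Ex Q D η X'| ≤
        C * ((r : ℝ) / R) ^ α * M * Ex Q D η Y' := by
  have hQ0 : 0 < Q := by linarith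
  obtain ⟨K, α, C, hK, hα, hC, h⟩ := asm_c hQ hR (mix1' hQ hR) (mix2' hQ hR)
  obtain ⟨K0, hK0, hsc⟩ := scales (max K (4 * L)) (le_trans hK (le_max_left _ _))
  have hL' : (3 : ℝ) ≤ L := by exact_mod_cast hL
  refine ⟨K0, α / 3, C * (4 * L) ^ α + C * 2 ^ α + C * 16 ^ α, hK0, by positivity, by positivity,
    ?_⟩
  intro D η b r R hη hF hr hKr
  obtain ⟨h1, h2, h3, g1, g2, g3⟩ := hsc r R hr hKr
  have hm1 : K ≤ max K (4 * L) := le_max_left _ _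
  have hm2 : 4 * L ≤ max K (4 * L) := le_max_right _ _
  have hs1 : 4 * L * r ≤ S1 r R := le_trans (mul_le_mul_of_nonneg_right hm2 (by omega)) h1
  have hs1' : 12 ≤ S1 r R := by nlinarith
  have hs2 : K * S1 r R ≤ S2 r R := le_trans (mul_le_mul_of_nonneg_right hm1 (by omega)) h2
  have hs2' : 4 * L * S1 r R ≤ S2 r R := le_trans (mul_le_mul_of_nonneg_right hm2 (by omega)) h2
  have hs2p : 12 ≤ S2 r R := by nlinarith
  have hs3 : 4 * L * S2 r R ≤ R := le_trans (mul_le_mul_of_nonneg_right hm2 (by omega)) h3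
  have hs3' : 12 * S2 r R ≤ R := by nlinarith
  refine ⟨by nlinarith, by nlinarith, by nlinarith, ?_⟩
  intro X X' Fl Y Y' M hM0 hFl hFl0 hFlY hX hX' hY' hIso hCrs hmom hz
  have hY'0 : ∀ ω, 0 ≤ Y' ω := fun ω => (abs_nonneg _).trans (hX' ω)
  have hME : 0 ≤ M * Ex Q D η Y' := mul_nonneg hM0 (Ex_nonneg hQ0 fun S _ => hY'0 _)
  refine (h D η b L r (S1 r R) (S2 r R) R hη hF hr hL (by nlinarith) hs2 (by nlinarith)
    X X' Fl Y Y' M hM0 hFl hFl0 hFlY hX hX' hY' hIso hCrs hmom hz).trans ?_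
  set t : ℝ := ((r : ℝ) / R) ^ (1 / 3 : ℝ) with ht
  have hr0 : (0 : ℝ) < r := by exact_mod_cast (by omega : 0 < r)
  have hR0 : (0 : ℝ) < R := by exact_mod_cast (by omega : 0 < R)
  have ht0 : 0 ≤ t := Real.rpow_nonneg (by positivity) _
  have htα : t ^ α = ((r : ℝ) / R) ^ (α / 3) := by
    rw [ht, ← Real.rpow_mul (by positivity)]
    congr 1
    ring
  have e1 : (((L * r : ℤ) : ℝ) / ((S1 r R - 2 : ℤ) : ℝ)) ^ α ≤ (4 * L) ^ α * t ^ α := by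
    rw [← Real.mul_rpow (by positivity) ht0]
    have hb : (0 : ℝ) < ((S1 r R - 2 : ℤ) : ℝ) := by exact_mod_cast (by omega : 0 < S1 r R - 2)
    have ha : (0 : ℝ) ≤ ((L * r : ℤ) : ℝ) := by
      push_cast
      positivity
    refine Real.rpow_le_rpow (div_nonneg ha hb.le) ?_ hα.le
    have hs : (0 : ℝ) < (S1 r R : ℝ) := by exact_mod_cast (by omega : 0 < S1 r R)
    have h5 : (S1 r R : ℝ) ≤ 2 * ((S1 r R - 2 : ℤ) : ℝ) := by
      exact_mod_cast (by omega : S1 r R ≤ 2 * (S1 r R - 2))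
    rw [div_le_iff₀ hs] at g1
    rw [div_le_iff₀ hb]
    push_cast
    have h6 : (r : ℝ) ≤ 4 * t * ((S1 r R - 2 : ℤ) : ℝ) := by
      calc (r : ℝ) ≤ 2 * t * (S1 r R : ℝ) := g1
        _ ≤ 2 * t * (2 * ((S1 r R - 2 : ℤ) : ℝ)) := mul_le_mul_of_nonneg_left h5 (by positivity)
        _ = _ := by ring
    have h7 := mul_le_mul_of_nonneg_left h6 (by linarith : (0 : ℝ) ≤ L)
    push_cast at h7
    linarith
  have e2 : ((S1 r R : ℝ) / S2 r R) ^ α ≤ 2 ^ α * t ^ α := by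
    rw [← Real.mul_rpow (by positivity) ht0]
    refine Real.rpow_le_rpow (div_nonneg ?_ ?_) g2 hα.le
    · exact_mod_cast (by omega : 0 ≤ S1 r R)
    · exact_mod_cast (by omega : 0 ≤ S2 r R)
  have e3 : (((S2 r R + 2 : ℤ) : ℝ) / ((R - 2 : ℤ) : ℝ)) ^ α ≤ 16 ^ α * t ^ α := by
    rw [← Real.mul_rpow (by positivity) ht0]
    have hb : (0 : ℝ) < ((R - 2 : ℤ) : ℝ) := by exact_mod_cast (by omega : 0 < R - 2)
    have ha : (0 : ℝ) ≤ ((S2 r R + 2 : ℤ) : ℝ) := by exact_mod_cast (by omega : 0 ≤ S2 r R + 2)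
    refine Real.rpow_le_rpow (div_nonneg ha hb.le) ?_ hα.le
    rw [div_le_iff₀ hR0] at g3
    rw [div_le_iff₀ hb]
    have h5 : ((S2 r R + 2 : ℤ) : ℝ) ≤ 2 * (S2 r R : ℝ) := by
      exact_mod_cast (by omega : S2 r R + 2 ≤ 2 * S2 r R)
    have h6 : (R : ℝ) ≤ 2 * ((R - 2 : ℤ) : ℝ) := by
      exact_mod_cast (by omega : R ≤ 2 * (R - 2))
    have h7 := mul_le_mul_of_nonneg_left h6 (by positivity : 0 ≤ 4 * t)
    have h8 : 0 ≤ 8 * t * ((R - 2 : ℤ) : ℝ) := by positivity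
    linarith
  have hCx : ∀ {y c' : ℝ}, y ≤ c' * t ^ α → C * y * M * Ex Q D η Y' ≤
      C * c' * t ^ α * (M * Ex Q D η Y') := by
    intro y c' hy
    have h5 := mul_le_mul_of_nonneg_right (mul_le_mul_of_nonneg_left hy hC.le) hME
    linarith
  have t1 := hCx e1
  have t2 := hCx e2
  have t3 := hCx e3
  rw [← htα]
  calc _ ≤ C * (4 * L) ^ α * t ^ α * (M * Ex Q D η Y') + C * 2 ^ α * t ^ α *
        (M * Ex Q D η Y') + C * 16 ^ α * t ^ α * (M * Ex Q D η Y') :=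
        add_le_add (add_le_add t1 t2) t3
    _ = _ := by ring

end Vale.Agent.P167.QB
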