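import Vale.Agent.P167.QB.FDefs
import Vale.Agent.P167.QB.Circ
import Vale.Agent.P167.QB.Far
import Vale.Agent.P167.H208.ND.Red

/-!
# P167, general `q`, block BRQ, negative part (1): the pointwise bound of the functional

Two rings at the flat point `d = q m`, the point charge `- θ` at `q l`, `m < l < k`. If both colours cross the gap
between the rings, the functional is bounded by the two majorants; if it is negative, both colours cross
the gap.
-/

namespace Vale.Agent.P167.QB.Sg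

open Finset Relation MeasureTheory Vale.Agent.P167 Vale.Agent.P167.BR Vale.Agent.P167.FK
open Vale.Agent.P167.E6 (IsPolygon Encloses)
open Vale.Agent.P167.QX (lo hi exists_xy lo_xy hi_xy wB XB)
open Vale.Agent.P167.H436.ND
open Vale.Agent.P167.H208.ND
open Vale.Agent.P167.H192.TA (Xc)
open Vale.Agent.P167.H542.Q (cB cB_pos wR thB wR_thB phs_thB)
open Vale.Agent.P167.H562.QM (MajA)
open Vale.Agent.P167.H562.MAJ (Sm)
open Vale.Agent.P167.H640.ND (mem_Zg mem_sites_Zg econ_Zg zone_sub sep_zn stay Zr_eq)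

variable {D : Finset (ℤ × ℤ)} {ω : Cfg} {n : ℕ} {q : ZMod n → ℤ × ℤ} {A : Finset Ed}
  {k l m : ℕ} {θ : ℝ} {R : ℤ} {a : Fin 2 → ℤ} {M : ℝ} {f : Fin 2 → ℤ × ℤ → ℝ}

/-- The charge. -/
noncomputable def Fx (θ : ℝ) {n : ℕ} (q : ZMod n → ℤ × ℤ) (l : ℕ) (f : Fin 2 → ℤ × ℤ → ℝ) :
    ℤ × ℤ → ℝ := Ft (fun _ => θ / 2) f (dlt (q l) (-θ))

theorem q_site (hq : IsPolygon q) (hD : Encloses q D) (i : ZMod n) : q i ∈ sites D := by
  rcases be_sides hq i with ⟨h1, -⟩ | ⟨h1, -⟩
  · rw [← h1]; exact ls_mem_sites (be_mem hq hD _)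
  · rw [← h1]; exact rs_mem_sites (be_mem hq hD _)

section

variable (hw : Win q D m R) (ha : Scl 4000 4 R a) (hln : l ≤ n)
include hw hln

open Classical in
/-- The mass of a piece. -/
theorem mass_X (hA : A ∈ pcs ω D) : mass D (q 0) (Fx θ q l f) A =
    θ / 2 * mass D (q 0) (f 0) A + θ / 2 * mass D (q 0) (f 1) A + if Ard q l A then -θ else 0 := by
  unfold Fx
  rw [mass_lin, Fin.sum_univ_two, mass_dlt hw.poly hw.enc hln hA (q_site hw.poly hw.enc _)]

include ha

/-- The weight of a piece which does not visit both rings is not negative. -/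
theorem w_nonneg (h0 : 0 < θ) (h1 : θ ≤ Real.pi / 3) (hk : (m : ℤ) + R ≤ k) (hkn : k ≤ n)
    (hf0 : ∀ i z, 0 ≤ f i z) (hfs : ∀ i z, f i z ≠ 0 → z ∈ Kr (q m) (a i))
    (hf1 : ∀ i, ∑ᶠ z, f i z = 1) (hA : A ∈ pcs ω D)
    (hV : ¬ (IsLp D A ∧ Vz (Zr (q m) (a 0)) A ∧ Vz (Zr (q m) (a 1)) A)) :
    0 ≤ wB θ (gB θ) q D k A (mass D (q 0) (Fx θ q l f) A) := by
  classical
  have hpi := Real.pi_pos
  have hs : 0 < Real.sin θ := Real.sin_pos_of_pos_of_lt_pi h0 (by linarith)
  have hs2 : 0 < Real.sin (2 * θ) := Real.sin_pos_of_pos_of_lt_pi (by linarith) (by linarith)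
  have hc : 0 < Real.cos θ := Real.cos_pos_of_mem_Ioo ⟨by linarith, by linarith⟩
  have m0 := mass_01 hw ha 0 (hf0 0) (hfs 0) (hf1 0) A
  have m1 := mass_01 hw ha 1 (hf0 1) (hfs 1) (hf1 1) A
  have e := mass_X (θ := θ) (f := f) hw hln hA
  obtain ⟨t, ht⟩ : ∃ t, t = mass D (q 0) (Fx θ q l f) A := ⟨_, rfl⟩
  rw [← ht] at e ⊢
  unfold wB
  split_ifs with c1 c2 c3
  · -- loops
    refine div_nonneg (Real.cos_nonneg_of_mem_Icc ?_) hc.le
    rw [if_neg (ard_lp hw.poly hw.enc hA c1), add_zero] at e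
    have hz : mass D (q 0) (f 0) A = 0 ∨ mass D (q 0) (f 1) A = 0 := by
      by_cases hv0 : Vz (Zr (q m) (a 0)) A
      · right
        have hv1 : ¬ Vz (Zr (q m) (a 1)) A := fun h => hV ⟨c1, hv0, h⟩
        rw [mass_ring hw ha hk hkn 1 (hfs 1) (hf1 1) hA hv1, if_neg (ard_lp hw.poly hw.enc hA c1)]
      · left
        rw [mass_ring hw ha hk hkn 0 (hfs 0) (hf1 0) hA hv0, if_neg (ard_lp hw.poly hw.enc hA c1)]
    have ht2 : 0 ≤ t ∧ t ≤ θ / 2 := by
      rcases hz with h | h <;> rw [h] at e <;> constructor <;> nlinarith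
    constructor <;> linarith
  · -- from the free to the wired side
    refine div_nonneg ?_ (by positivity)
    have e2 : Real.cos (θ / 2 + gB θ + t) = Real.sin (θ + t) := by
      unfold gB
      rw [show θ / 2 + (θ - Real.pi) / 2 + t = -(Real.pi / 2 - (θ + t)) by ring, Real.cos_neg,
        Real.cos_pi_div_two_sub]
    rw [e2]
    refine Real.sin_nonneg_of_nonneg_of_le_pi ?_ ?_
    · by_cases hl : Ard q l A
      · rw [if_pos hl] at e; nlinarith
      · rw [if_neg hl] at e; nlinarith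
    · by_cases hl : Ard q l A
      · rw [if_pos hl] at e; nlinarith
      · rw [if_neg hl] at e; nlinarith
  · refine div_nonneg (Real.sin_nonneg_of_nonneg_of_le_pi ?_ ?_) hs2.le
    · by_cases hl : Ard q l A
      · rw [if_pos hl] at e; nlinarith
      · rw [if_neg hl] at e; nlinarith
    · by_cases hl : Ard q l A
      · rw [if_pos hl] at e; nlinarith
      · rw [if_neg hl] at e; nlinarith
  · refine div_nonneg (Real.sin_nonneg_of_nonneg_of_le_pi ?_ ?_) hs.le
    · by_cases hl : Ard q l A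
      · rw [if_pos hl] at e; nlinarith
      · rw [if_neg hl] at e; nlinarith
    · by_cases hl : Ard q l A
      · rw [if_pos hl] at e; nlinarith
      · rw [if_neg hl] at e; nlinarith

omit hln in
theorem zns2 : Zns R a (fun i => 2 * a i) := by
  refine ⟨fun i => ?_, fun i => ?_, fun i j hij => ?_, fun i => ?_⟩
  · have := range_i hw ha i; omega
  · have := range_i hw ha i; omega
  · have := range_i hw ha i
    have h2 := a_mono hw ha hij
    omega
  · have := range_i hw ha i; omega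

/-- **If the functional is negative, both colours cross the gap.** -/
theorem neg_cross (h0 : 0 < θ) (h1 : θ ≤ Real.pi / 3) (hk : (m : ℤ) + R ≤ k) (hkn : k ≤ n)
    (hf0 : ∀ i z, 0 ≤ f i z) (hfs : ∀ i z, f i z ≠ 0 → z ∈ Kr (q m) (a i))
    (hf1 : ∀ i, ∑ᶠ z, f i z = 1) (hX : XG θ q D k (Fx θ q l f) ω < 0) (c : Bool) :
    ω ∈ Xc c (q m) (2 * a 0) (a 1) := by
  by_contra hcon
  refine absurd hX (not_lt.2 ?_)
  unfold XG QX.XB
  refine prod_nonneg fun A hA => w_nonneg hw ha hln h0 h1 hk hkn hf0 hfs hf1 hA ?_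
  rintro ⟨-, hv0, hv1⟩
  exact hcon (H192.ND.s_cross n q D m R hw 2 a (fun i => 2 * a i) (zns2 hw ha) ω A hA 0 1 rfl
    ⟨0, le_rfl, hv0⟩ ⟨1, le_rfl, hv1⟩ c)

end

end Vale.Agent.P167.QB.Sg
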