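import Vale.Agent.P167.QB.Sg1
import Vale.Agent.P167.H174.ND.Maj
import Vale.Agent.P167.H662.L.Lay2

/-!
# P167, general `q`, block BRQ, negative part (2): the upper bound of the functional
-/

namespace Vale.Agent.P167.QB.Sg

open Finset Relation MeasureTheory Vale.Agent.P167 Vale.Agent.P167.BR Vale.Agent.P167.FK
open Vale.Agent.P167.E6 (IsPolygon Encloses)
open Vale.Agent.P167.QX (lo hi exists_xy lo_xy hi_xy wB XB)
open Vale.Agent.P167.H436.ND
open Vale.Agent.P167.H208.ND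
open Vale.Agent.P167.H192.TA (Xc)
open Vale.Agent.P167.H542.Q (cB cB_pos wR thB wR_thB phs_thB)
open Vale.Agent.P167.H562.QM (MajA)
open Vale.Agent.P167.H562.MAJ (Sm)
open Vale.Agent.P167.H640.ND (mem_sites_Zg econ_Zg zone_sub sep_zn stay Zr_eq)

variable {D : Finset (ℤ × ℤ)} {ω : Cfg} {n : ℕ} {q : ZMod n → ℤ × ℤ} {A : Finset Ed}
  {k l m : ℕ} {θ : ℝ} {R : ℤ} {a : Fin 2 → ℤ} {f : Fin 2 → ℤ × ℤ → ℝ} {N : Fin 2 → ℕ}

/-- The bound of the weights. -/
noncomputable def MM (θ : ℝ) : ℝ := MW θ + (cB θ)⁻¹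

theorem MM_ge (h0 : 0 < θ) (h1 : θ ≤ Real.pi / 3) : 2 ≤ MM θ ∧ (cB θ)⁻¹ ≤ MM θ ∧ MW θ ≤ MM θ := by
  have k1 := two_le_MW h0 h1
  have k2 := inv_pos.2 (cB_pos h0 h1)
  unfold MM
  exact ⟨by linarith, by linarith, by linarith⟩

section

variable (hw : Win q D m R) (ha : Scl 4000 4 R a) (hml : (m : ℤ) + R ≤ l) (hlk : l ≤ k)
  (hkn : k ≤ n)
include hw ha hml

/-- The small pieces at the rings do not surround `q l`. -/
theorem sml_l (hA : A ∈ pcs ω D) (hex : ∃ i, Vz (Zr (q m) (a i)) A ∧ Small (kp * a i) A) :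
    ¬ Ard q l A := by
  obtain ⟨i, ⟨e0, he0, hz⟩, hsm⟩ := hex
  intro hl
  have hlp : ¬ IsLp D A := fun h => ard_lp hw.poly hw.enc hA h hl
  rw [Zr_eq, mem_eds, mem_Zg, mem_Zg] at hz
  have hadj := adj_sq e0
  have hai := ha.pos i
  have hti := ha.top i
  have hd : ∀ e ∈ A, ∀ e' ∈ A, 400 * nm (hdv e - hdv e') < a i := by
    intro e he e' he'
    have h := hsm _ (Finset.mem_image_of_mem _ he) _ (Finset.mem_image_of_mem _ he')
    rw [kp] at h
    have h' : (((400 * nm (hdv e - hdv e') : ℤ)) : ℝ) < ((a i : ℤ) : ℝ) := by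
      push_cast
      linarith
    exact_mod_cast h'
  obtain ⟨d, hd1, hd2⟩ : ∃ d : ℤ, 400 * d ≤ a i ∧ a i < 400 * (d + 1) :=
    ⟨a i / 400, by omega, by omega⟩
  have hd0 : ∀ e ∈ A, nm (hdv e - hdv e0) ≤ d := fun e he => by have := hd e he e0 he0; omega
  obtain ⟨x, y, hl1, hh1, ⟨e1, he1, a1, a2⟩, ⟨e2, he2, b1, b2⟩⟩ :=
    H135.ND.ends hw (d := d) hA hlp (v := hdv e0) (by omega) (by omega) (by omega) (by omega)
      (by omega) hd0
  have g1 := hd0 e1 he1
  have g2 := hd0 e2 he2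
  rw [nm, max_le_iff, abs_le, abs_le] at g1 g2
  simp only [Prod.fst_sub, Prod.snd_sub] at g1 g2
  unfold Ard at hl
  omega

omit hml in
/-- The position of the avoiding strands. -/
theorem av_pos (hk : (m : ℤ) + R ≤ k) (hkn : k ≤ n) (ω : Cfg) :
    ∃ a' ≤ m, (∀ A ∈ pcs ω D, Ard q a' A → Ard q m A) ∧
    ∀ A ∈ pcs ω D, ¬ Vz (Zr (q m) (a 1)) A → (Ard q (sL m a 1) A ↔ Ard q a' A) := by
  obtain ⟨r1, r2, r3, r4⟩ := range_i hw ha 1
  have hmn : m ≤ n := hw.l1.le
  have hqm : q m ∈ sites (hbox (q m) (2 * a 1)) := by rw [mem_sites_hbox (by omega)]; omega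
  obtain ⟨a', ha', h⟩ := off_pos hw.poly hw.enc ω
    ((hbox_mono (by omega)).trans (hbox_sub hw.flat)) (econ_hbox (by omega)) hmn hqm
  have hsL := sL_eq hw ha 1
  refine ⟨a', ha', fun A hA h1 => ((h A hA).2 h1).1, fun A hA hV => ?_⟩
  rw [← h A hA]
  constructor
  · intro h1
    have h2 := ard_l hw.poly hw.enc (zn_ring hw ha hk hkn) 1 hA hV h1
    refine ⟨h2, fun hV2 => ?_⟩
    have hlp : ¬ IsLp D A := fun h => ard_lp hw.poly hw.enc hA h h2
    have hb : Vz (hbox (q m) (a 1)) A := by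
      obtain ⟨e, he, he2⟩ := hV2
      refine ⟨e, he, ?_⟩
      have h3 : e ∉ eds (Zr (q m) (a 1)) := fun h' => hV ⟨e, he, h'⟩
      rw [Zr_eq, mem_eds, not_or, mem_Zg, mem_Zg] at h3
      rw [mem_eds, mem_hbox, mem_hbox] at he2 ⊢
      omega
    have h5 := stay hw.flat (by omega) (by omega) (by omega) hA hV hb
    obtain ⟨x, y, h, k1, k2, k3, k4, -⟩ := inn_xy hw.poly hw.enc
      (hw.flat.mono (by omega : a 1 ≤ R)) (by omega) hw.l1
      (fun h' => hw.off (sites_mono (hbox_mono (by omega)) h')) hA (fun d hd => (h5 d hd).1)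
      (fun d hd => (h5 d hd).2) hlp
    have hlo := lo_xy hw.poly hw.enc hA h
    have h8 := h1.1
    rcases le_total x y with h7 | h7
    · rw [min_eq_left h7] at hlo
      omega
    · rw [min_eq_right h7] at hlo
      omega
  · rintro ⟨h1, hV2⟩
    have hlp : ¬ IsLp D A := fun h => ard_lp hw.poly hw.enc hA h h1
    obtain ⟨x, y, h⟩ := exists_xy hw.poly hw.enc hA hlp
    have key : ∀ w : ℕ, be q (w : ZMod n) ∈ A → ¬ ((m : ℤ) - 2 * a 1 ≤ w ∧
        (w : ℤ) < m + 2 * a 1) := by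
      intro w hwA hcon
      apply hV2
      obtain ⟨h5, h6⟩ := flat_side hw.poly hw.enc hw.flat (by omega) hw.l1 hw.off (i := w) (by omega)
        (by omega)
      refine ⟨_, hwA, ?_⟩
      rw [h6, ce_mem_eds, E2.face0, mem_hbox, h5]
      left
      simp only
      omega
    have kx := key x h.2.2.1
    have ky := key y h.2.2.2.1
    have hlo := lo_xy hw.poly hw.enc hA h
    have hhi := hi_xy hw.poly hw.enc hA h
    unfold Ard at h1 ⊢
    rcases le_total x y with h7 | h7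
    · rw [min_eq_left h7] at hlo
      rw [max_eq_right h7] at hhi
      omega
    · rw [min_eq_right h7] at hlo
      rw [max_eq_left h7] at hhi
      omega

include hlk hkn

/-- The mass of an avoiding piece, if a colour crosses the gap. -/
theorem mass_gap {c : Bool} (hX : ω ∈ Xc c (q m) (2 * a 0) (a 1))
    (hfs : ∀ i z, f i z ≠ 0 → z ∈ Kr (q m) (a i))
    (hf1 : ∀ i, ∑ᶠ z, f i z = 1) (hA : A ∈ pcs ω D) (hV : ∀ i, ¬ Vz (Zr (q m) (a i)) A) :
    mass D (q 0) (Fx θ q l f) A = (open Classical in if Ard q (sL m a 1) A then θ else 0) -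
      (open Classical in if Ard q l A then θ else 0) := by
  classical
  have hk : (m : ℤ) + R ≤ k := by omega
  have hZ := zn_ring hw ha hk hkn
  have e := mass_X (θ := θ) (f := f) hw (hlk.trans hkn) hA
  rw [mass_ring hw ha hk hkn 0 (hfs 0) (hf1 0) hA (hV 0),
    mass_ring hw ha hk hkn 1 (hfs 1) (hf1 1) hA (hV 1)] at e
  have h01 : Ard q (sL m a 0) A ↔ Ard q (sL m a 1) A := by
    have h1 := H640.ND.s_gap n q D m R hw 2 a (fun i => 2 * a i) (zns2 hw ha) ω A hA hV 0 1 rfl c hX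
      (q (sL m a 0)) (hZ.ms 0) (q (sL m a 1)) (hZ.ms 1)
    rw [sep_iff hw.poly hw.enc hZ 0 hA (hV 0) (hZ.ms 0),
      sep_iff hw.poly hw.enc hZ 1 hA (hV 1) (hZ.ms 1)] at h1
    exact h1
  rw [e]
  by_cases h1 : Ard q (sL m a 1) A <;> by_cases h2 : Ard q l A
  · rw [if_pos (h01.2 h1), if_pos h1, if_pos h1, if_pos h2, if_pos h2]; ring
  · rw [if_pos (h01.2 h1), if_pos h1, if_pos h1, if_neg h2, if_neg h2]; ring
  · rw [if_neg (fun h => h1 (h01.1 h)), if_neg h1, if_neg h1, if_pos h2, if_pos h2]; ring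
  · rw [if_neg (fun h => h1 (h01.1 h)), if_neg h1, if_neg h1, if_neg h2, if_neg h2]; ring

open Classical in
/-- **The product over the avoiding pieces.** -/
theorem av_le (h0 : 0 < θ) (h1 : θ ≤ Real.pi / 3) {c : Bool}
    (hX : ω ∈ Xc c (q m) (2 * a 0) (a 1))
    (hfs : ∀ i z, f i z ≠ 0 → z ∈ Kr (q m) (a i)) (hf1 : ∀ i, ∑ᶠ z, f i z = 1)
    (hN : ∀ i, MajA (Zr (q m) (a i)) (kp * a i) ω (N i)) :
    |∏ A ∈ (pcs ω D).filter (fun A => ∀ i, ¬ Vz (Zr (q m) (a i)) A),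
      wB θ (gB θ) q D k A (mass D (q 0) (Fx θ q l f) A)| ≤ MM θ ^ (2 + 2 * ∑ i, N i) := by
  obtain ⟨M1, M2, M3⟩ := MM_ge h0 h1
  have hs := sin_pos' h0 h1
  have hc := cos_half h0 h1
  have hk : (m : ℤ) + R ≤ k := by omega
  have hln : l ≤ n := hlk.trans hkn
  have hR := range_i hw ha 1
  obtain ⟨a', ha', hm', hpos⟩ := av_pos hw ha hk hkn ω
  set F : Finset (Finset Ed) := (pcs ω D).filter (fun A => ¬ IsLp D A ∧
    ¬ ∃ i, Vz (Zr (q m) (a i)) A ∧ ¬ Small (kp * a i) A) with hFdef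
  set w' : Finset Ed → ℝ := fun A => |wB θ (gB θ) q D k A ((if Ard q a' A then θ else 0) -
    if Ard q l A then θ else 0)| with hw'
  have hFF : ∀ A ∈ F, A ∈ pcs ω D ∧ ¬ IsLp D A := fun A hA => by
    rw [hFdef, mem_filter] at hA
    exact ⟨hA.1, hA.2.1⟩
  have hfar := far_prod hw.poly hw.enc (ω := ω) (k := k) (F := F) (a := a') (b := l)
    (N := ∑ i, N i) hs (by linarith) M1 (M := MM θ)
    (fun A t => (wB_bd h0 h1 q D k A t).trans M3) (ha'.trans (by omega)) hln hFF ?_ ?_ ?_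
  · refine le_trans (le_of_eq ?_) hfar
    rw [abs_prod]
    have e1 : ∏ A ∈ ((pcs ω D).filter (fun A => ∀ i, ¬ Vz (Zr (q m) (a i)) A)).filter
          (fun A => ¬ IsLp D A), |wB θ (gB θ) q D k A (mass D (q 0) (Fx θ q l f) A)| =
        ∏ A ∈ (pcs ω D).filter (fun A => ∀ i, ¬ Vz (Zr (q m) (a i)) A),
          |wB θ (gB θ) q D k A (mass D (q 0) (Fx θ q l f) A)| := by
      refine prod_subset (filter_subset _ _) fun A hA hA' => ?_
      obtain ⟨hA1, hA2⟩ := mem_filter.1 hA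
      have hlp : IsLp D A := by
        by_contra h
        exact hA' (mem_filter.2 ⟨hA, h⟩)
      rw [mass_gap hw ha hml hlk hkn hX hfs hf1 hA1 hA2, if_neg (ard_lp hw.poly hw.enc hA1 hlp),
        if_neg (ard_lp hw.poly hw.enc hA1 hlp), sub_zero, wB_hx hs (by linarith), abs_one]
    have e2 : ∏ A ∈ ((pcs ω D).filter (fun A => ∀ i, ¬ Vz (Zr (q m) (a i)) A)).filter
          (fun A => ¬ IsLp D A), |wB θ (gB θ) q D k A (mass D (q 0) (Fx θ q l f) A)| =
        ∏ A ∈ ((pcs ω D).filter (fun A => ∀ i, ¬ Vz (Zr (q m) (a i)) A)).filter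
          (fun A => ¬ IsLp D A), w' A := by
      refine prod_congr rfl fun A hA => ?_
      obtain ⟨hA1, hA3⟩ := mem_filter.1 hA
      obtain ⟨hA1, hA2⟩ := mem_filter.1 hA1
      rw [mass_gap hw ha hml hlk hkn hX hfs hf1 hA1 hA2]
      have h5 := hpos A hA1 (hA2 1)
      simp only [hw']
      rw [if_congr h5 rfl rfl]
    rw [← e1, e2]
    refine prod_subset (fun A hA => ?_) fun A hA hA' => ?_
    · obtain ⟨hA1, hA3⟩ := mem_filter.1 hA
      obtain ⟨hA1, hA2⟩ := mem_filter.1 hA1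
      exact mem_filter.2 ⟨hA1, hA3, fun ⟨i, h5, _⟩ => hA2 i h5⟩
    · obtain ⟨hA1, hA2, hA3⟩ := mem_filter.1 hA
      have hex : ∃ i, Vz (Zr (q m) (a i)) A ∧ Small (kp * a i) A := by
        by_contra hcon
        push Not at hcon hA3
        exact hA' (mem_filter.2 ⟨mem_filter.2 ⟨hA1, fun i hv => hcon i hv (hA3 i hv)⟩, hA2⟩)
      have h5 := (H135.ND.s_small n q D m R hw 2 a ha ω A hA1 hex).1
      have h6 := sml_l hw ha hml hA1 hex
      simp only [hw']
      rw [if_neg (fun h => h5 (hm' A hA1 h)), if_neg h6, sub_zero, wB_hx hs (by linarith), abs_one]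
  · -- the number of the other strands
    have hsub : (pcs ω D).filter (fun A => ¬ IsLp D A ∧ A ∉ F) ⊆
        Finset.univ.biUnion fun i : Fin 2 =>
        (pcs ω D).filter (fun A => Vz (Zr (q m) (a i)) A ∧ ¬ Small (kp * a i) A) := by
      intro A hA
      obtain ⟨h3, h4, h5⟩ := mem_filter.1 hA
      rw [hFdef, mem_filter] at h5
      have h6 : ∃ i, Vz (Zr (q m) (a i)) A ∧ ¬ Small (kp * a i) A := by
        by_contra h7
        exact h5 ⟨h3, h4, h7⟩
      obtain ⟨i, h7⟩ := h6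
      exact mem_biUnion.2 ⟨i, mem_univ i, mem_filter.2 ⟨h3, h7⟩⟩
    refine (card_le_card hsub).trans (card_biUnion_le.trans (sum_le_sum fun i _ => ?_))
    refine hN i _ (fun γ hγ => H542.isSeg_piece (mem_filter.1 hγ).1) ?_ ?_
    · intro γ hγ γ' hγ' hne
      rw [disjoint_left]
      intro e he he'
      exact hne (eq_of_mem_pcs (mem_filter.1 hγ).1 (mem_filter.1 hγ').1 he he')
    · intro γ hγ
      obtain ⟨h1, h2, h3⟩ := mem_filter.1 hγ
      refine ⟨H542.Q.PW.exists_vs (zone_sub hw.flat (by have := range_i hw ha i; omega)) h1 h2, ?_⟩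
      unfold Small at h3
      push Not at h3
      obtain ⟨u, hu, v, hv, h4⟩ := h3
      obtain ⟨e1, he1, rfl⟩ := mem_image.1 hu
      obtain ⟨e2, he2, rfl⟩ := mem_image.1 hv
      exact ⟨e1, he1, e2, he2, h4⟩
  · intro A _ h2 _
    unfold Ard at h2
    omega
  · intro A _ h2 h3
    unfold Ard at h2 h3
    omega

end

end Vale.Agent.P167.QB.Sg
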