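import Vale.Agent.P167.QB.Sg2

/-!
# P167, general `q`, block BRQ, negative part (3): the upper bound of the functional
-/

namespace Vale.Agent.P167.QB.Sg

open Finset Relation MeasureTheory Vale.Agent.P167 Vale.Agent.P167.BR Vale.Agent.P167.FK
open Vale.Agent.P167.E6 (IsPolygon Encloses)
open Vale.Agent.P167.QX (lo hi exists_xy lo_xy hi_xy wB XB)
open Vale.Agent.P167.H436.ND
open Vale.Agent.P167.H208.ND
open Vale.Agent.P167.H192.TA (Xc)
open Vale.Agent.P167.H542.Q (cB cB_pos wR thB wR_thB phs_thB)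
open Vale.Agent.P167.H562.QM (MajA)
open Vale.Agent.P167.H562.MAJ (Sm)

variable {D : Finset (ℤ × ℤ)} {ω : Cfg} {n : ℕ} {q : ZMod n → ℤ × ℤ} {A : Finset Ed}
  {k l m : ℕ} {θ : ℝ} {R : ℤ} {a : Fin 2 → ℤ} {f : Fin 2 → ℤ × ℤ → ℝ} {N : Fin 2 → ℕ}

/-- The masses of the small loops. -/
theorem G_small {g : ℤ × ℤ → ℝ} {Cm : ℝ} {a : ℤ} {b : ℤ × ℤ} (h0 : 0 < θ) (h1 : θ ≤ Real.pi / 3)
    (hCm : Cm ≤ 1000) (ha : 4000 ≤ a) (hg : Bp Cm b a g) {ℓ : Finset Ed} (hl : IsLoop ω ℓ)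
    (hs : Small (kp * a) ℓ) : |G (fun z => θ / 2 * g z) ℓ| ≤ 1 / 10 := by
  have hpi := Real.pi_lt_d2
  have ha0 : (4000 : ℝ) ≤ a := by exact_mod_cast ha
  obtain ⟨r, hr⟩ : ∃ r : ℤ, r = a / 400 + 1 := ⟨_, rfl⟩
  have hr1 : 1 ≤ r := by omega
  have hr2 : a < 400 * r := by omega
  have hr3 : 400 * r ≤ a + 400 := by omega
  have hr2' : (a : ℝ) < 400 * r := by exact_mod_cast hr2
  have hr3' : 400 * (r : ℝ) ≤ a + 400 := by exact_mod_cast hr3
  have hs' : Small (r : ℝ) ℓ := fun u hu v hv => by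
    have := hs u hu v hv
    unfold kp at this
    linarith
  have hb : ∀ z, |θ / 2 * g z| ≤ θ / 2 * (1000 / (a : ℝ) ^ 2) := by
    intro z
    rw [abs_mul, abs_of_pos (by positivity : 0 < θ / 2), abs_of_nonneg (hg.nonneg z)]
    refine mul_le_mul_of_nonneg_left ((hg.le z).trans ?_) (by positivity)
    exact div_le_div_of_nonneg_right hCm (by positivity)
  refine (H662.L.G_bulk (by positivity) hl hr1 hs' hb).trans ?_
  have h3 : (9 * (r : ℝ) ^ 2) ≤ a ^ 2 / 10000 := by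
    have h4 : (r : ℝ) ≤ 11 * a / 4000 := by linarith
    have h5 : (0 : ℝ) ≤ r := by exact_mod_cast (by omega : 0 ≤ r)
    nlinarith
  have h6 : θ / 2 * (1000 / (a : ℝ) ^ 2) * (9 * (r : ℝ) ^ 2) ≤
      θ / 2 * (1000 / (a : ℝ) ^ 2) * (a ^ 2 / 10000) :=
    mul_le_mul_of_nonneg_left h3 (by positivity)
  have h7 : θ / 2 * (1000 / (a : ℝ) ^ 2) * (a ^ 2 / 10000) = θ / 20 := by
    field_simp
    ring
  linarith

section

variable (hw : Win q D m R) (ha : Scl 4000 4 R a) (hml : (m : ℤ) + R ≤ l) (hlk : l ≤ k)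
  (hkn : k ≤ n)
include hw ha hml hlk hkn

open Classical in
/-- **The product over the visiting pieces.** -/
theorem vis_le (h0 : 0 < θ) (h1 : θ ≤ Real.pi / 3) {Cm : ℝ} (hCm : Cm ≤ 1000)
    (hf : ∀ i, Bp Cm (q m) (a i) (f i))
    (hN : ∀ i, MajA (Zr (q m) (a i)) (kp * a i) ω (N i)) :
    |∏ A ∈ (pcs ω D).filter (fun A => ∃ i, Vz (Zr (q m) (a i)) A),
      wB θ (gB θ) q D k A (mass D (q 0) (Fx θ q l f) A)| ≤
      ∏ i, Yu θ (MM θ) (θ / 2) (f i) (a i) (N i) ω := by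
  obtain ⟨M1, M2, M3⟩ := MM_ge h0 h1
  have hk : (m : ℤ) + R ≤ k := by omega
  have hln : l ≤ n := hlk.trans hkn
  have e1 : Ft (fun _ => 1) (fun i z => θ / 2 * f i z) (dlt (q l) (-θ)) = Fx θ q l f := by
    funext z
    simp [Ft, Fx]
  have key := H542.Q.PW.s_PW θ (cB θ) D (thB θ (gB θ) q D k) (q 0) (phs_thB h0 h1 (gB_cos θ)) 2
    (fun i => Zr (q m) (a i)) (fun i => Kr (q m) (a i)) (fun i => kp * a i) (rng_ring hw ha)
    (fun i z => θ / 2 * f i z) (dlt (q l) (-θ))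
    (fun i z hz => (hf i).supp z (right_ne_zero_of_mul hz)) ω
    (fun i ℓ hl hs => G_small h0 h1 hCm (ha.pos i) (hf i) hl hs)
    (fun A hA hv => ?_) N hN (MM θ) (by linarith) M2
  · rw [e1] at key
    simp only [wR_thB (gB_cos θ)] at key
    exact key.1
  · obtain ⟨h2, h3⟩ := H135.ND.s_small n q D m R hw 2 a ha ω A hA hv
    have h4 := sml_l hw ha hml hA hv
    refine ⟨by rw [mass_dlt hw.poly hw.enc hln hA (q_site hw.poly hw.enc _), if_neg h4],
      fun hl => ?_⟩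
    rw [e1, Fx, mass_lin, mass_dlt hw.poly hw.enc hln hA (q_site hw.poly hw.enc _), if_neg h4,
      add_zero]
    refine sum_eq_zero fun i _ => ?_
    have : mass D (q 0) (f i) A = 0 := by
      unfold mass
      refine sum_eq_zero fun z _ => ?_
      by_cases hz : f i z = 0
      · rw [hz, ite_self]
      · rw [if_neg (h3 hl i z ((hf i).supp z hz))]
    rw [this, mul_zero]

/-- **The upper bound of the functional.** -/
theorem X_le (h0 : 0 < θ) (h1 : θ ≤ Real.pi / 3) {c : Bool}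
    (hX : ω ∈ Xc c (q m) (2 * a 0) (a 1)) {Cm : ℝ} (hCm : Cm ≤ 1000)
    (hf : ∀ i, Bp Cm (q m) (a i) (f i))
    (hN : ∀ i, MajA (Zr (q m) (a i)) (kp * a i) ω (N i)) :
    |XG θ q D k (Fx θ q l f) ω| ≤ MM θ ^ 2 * (Yu θ (MM θ ^ 3) (θ / 2) (f 0) (a 0) (N 0) ω *
      Yu θ (MM θ ^ 3) (θ / 2) (f 1) (a 1) (N 1) ω) := by
  classical
  obtain ⟨M1, M2, M3⟩ := MM_ge h0 h1
  have k1 := av_le hw ha hml hlk hkn h0 h1 hX (fun i => (hf i).supp) (fun i => (hf i).sum) hN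
  have k2 := vis_le hw ha hml hlk hkn h0 h1 hCm hf hN
  have hsplit : XG θ q D k (Fx θ q l f) ω =
      (∏ A ∈ (pcs ω D).filter (fun A => ∀ i, ¬ Vz (Zr (q m) (a i)) A),
        wB θ (gB θ) q D k A (mass D (q 0) (Fx θ q l f) A)) *
      ∏ A ∈ (pcs ω D).filter (fun A => ∃ i, Vz (Zr (q m) (a i)) A),
        wB θ (gB θ) q D k A (mass D (q 0) (Fx θ q l f) A) := by
    unfold XG QX.XB
    rw [← prod_filter_mul_prod_filter_not (pcs ω D) (fun A => ∀ i, ¬ Vz (Zr (q m) (a i)) A)]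
    congr 1
    refine prod_congr ?_ fun _ _ => rfl
    refine filter_congr fun A _ => ?_
    push Not
    rfl
  rw [hsplit, abs_mul]
  rw [Fin.sum_univ_two] at k1
  rw [Fin.prod_univ_two] at k2
  refine (mul_le_mul k1 k2 (abs_nonneg _) (by positivity)).trans (le_of_eq ?_)
  unfold Yu
  rw [pow_add, mul_add, pow_add, ← pow_mul, ← pow_mul, show 3 * N 0 = 2 * N 0 + N 0 by ring,
    show 3 * N 1 = 2 * N 1 + N 1 by ring, pow_add, pow_add]
  ring

end

end Vale.Agent.P167.QB.Sg
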