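import Vale.Agent.P167.QB.Sg1
import Vale.Agent.P167.H640.CZ.Sum

/-!
# P167, general `q`, block BRQ, negative part (4): the dual arm

If the functional is not zero and no primal arm goes from radius `r1` to radius `R1`, the half box of radius `R1`
is joined by a dual path to the arc from `q l` to `q k`.
-/

namespace Vale.Agent.P167.QB.Sg

open Finset Relation MeasureTheory Vale.Agent.P167 Vale.Agent.P167.BR Vale.Agent.P167.FK
open Vale.Agent.P145.FB (PStep)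
open Vale.Agent.P167.E6 (IsPolygon Encloses)
open Vale.Agent.P167.H436.ND
open Vale.Agent.P167.H208.ND
open Vale.Agent.P167.H632 (cs pr)
open Vale.Agent.P167.H640.CZ (Zx Zx_sub stf_zx Se iso_noarm)

variable {D Z B : Finset (ℤ × ℤ)} {ω : Cfg} {n : ℕ} {q : ZMod n → ℤ × ℤ} {c : Bool}
  {k l m : ℕ} {θ : ℝ} {r r1 R1 R : ℤ} {T : Set (ℤ × ℤ)}

/-- The last exit. -/
theorem jn_exit (hZB : Z ⊆ B) (h : Jn c (D \ Z) ω ↑(sites Z) T) : Jn c (D \ B) ω ↑(sites B) T := by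
  obtain ⟨u, hu, t, ht, hp, hut⟩ := h
  have key : ∃ u' ∈ sites B, (u'.1 + u'.2) % 2 = pr c ∧
      ReflTransGen (PStep (cs c ω ∩ (↑(D \ B) : Set (ℤ × ℤ)))) u' t ∧ (t.1 + t.2) % 2 = pr c := by
    clear ht
    induction hut with
    | refl => exact ⟨u, sites_mono hZB hu, hp, ReflTransGen.refl, hp⟩
    | @tail x y _ hxy ih =>
      obtain ⟨u', h1, h2, h3, h4⟩ := ih
      have hpar := pstep_par hxy
      obtain ⟨g1, g2, g3⟩ := hxy
      by_cases hv : (min x.1 y.1, min x.2 y.2) ∈ B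
      · refine ⟨y, ?_, by omega, ReflTransGen.refl, by omega⟩
        rw [mem_sites]
        refine ⟨_, hv, ?_⟩
        simp only
        omega
      · refine ⟨u', h1, h2, h3.tail ⟨g1, g2, g3.1, ?_⟩, by omega⟩
        have h5 := g3.2
        simp only [mem_coe, mem_sdiff] at h5 ⊢
        exact ⟨h5.1, hv⟩
  obtain ⟨u', h1, h2, h3, -⟩ := key
  exact ⟨u', h1, t, ht, h2, h3⟩

/-- **The dual arm.** -/
theorem dar_of (h0t : 0 < θ) (h1t : θ ≤ Real.pi / 3) (hq : IsPolygon q) (hD : Encloses q D)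
    (hF : Flt D (q m) R) (hmn : m < n) (h0 : q 0 ∉ sites (hbox (q m) R)) (hml : (m : ℤ) + R ≤ l)
    (hlk : l < k) (hkn : k ≤ n) (hr : 1 ≤ r) (hr1 : r + 2 ≤ r1) (h1 : r1 < R1) (h2 : R1 + 2 ≤ R)
    {f : ℤ × ℤ → ℝ} (hf : ∀ z, f z ≠ 0 → z ∈ sites (hbox (q m) r)) (hs : ∑ᶠ z, f z = θ)
    (hH : ¬ HArm (q m) r1 R1 ω) (hX : XG θ q D k (fun z => f z - dlt (q l) θ z) ω ≠ 0) :
    ω ∈ DAr D (Wa q k l) (q m) R1 := by
  have hS : Se q D m r1 R1 R ω :=
    { poly := hq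
      enc := hD
      flat := hF
      mn := hmn
      off := h0
      h1 := by omega
      h2 := h1
      h3 := h2
      noarm := hH }
  have hI := iso_noarm (ω := ω) (b := q m) (r := r) (r1 := r1) (R1 := R1) (by omega) hr1 h1.le hH
  rw [factD h0t h1t n q D hq hD k m l hlk hkn r (R1 + 2) hr (by omega) (hF.mono h2)
    (fun h => h0 (sites_mono (hbox_mono h2) h)) (by omega) f hf hs ω hI,
    stf_zx hS hr (by omega) hml hlk hkn θ] at hX
  unfold DAr
  by_contra hcon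
  have hn : ¬ Jn false (D \ Zx (q m) r1 R1 ω) ω ↑(sites (Zx (q m) r1 R1 ω))
      {z | ∃ j : ℕ, l ≤ j ∧ j ≤ k ∧ q j = z} := fun h => hcon (jn_exit Zx_sub h)
  refine hX ?_
  rw [if_neg hn, mul_zero, mul_zero]

end Vale.Agent.P167.QB.Sg
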