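import Vale.Agent.P167.QB.SgDefs
import Vale.Agent.P167.QB.Sg3
import Vale.Agent.P167.QB.Sg4

/-!
# P167, general `q`, block BRQ, negative part (5): the decomposition over the scales of the primal arm
-/

namespace Vale.Agent.P167.QB.Sg

open Finset Relation MeasureTheory Vale.Agent.P167 Vale.Agent.P167.BR Vale.Agent.P167.FK
open Vale.Agent.P167.FKA (Ind Loc Ex_mono Ex_add Ex_mul_left Ex_congr ind_nonneg)
open Vale.Agent.P145.FB (PStep)
open Vale.Agent.P167.E6 (IsPolygon Encloses)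
open Vale.Agent.P167.H436.ND
open Vale.Agent.P167.H208.ND
open Vale.Agent.P167.H192.TA (Xc dF mem_dF)
open Vale.Agent.P167.H192.Q (Xc_restrict loc_Xc)
open Vale.Agent.P167.H562.QM (MajA)
open Vale.Agent.P167.H632 (cs pr)

variable {D : Finset (ℤ × ℤ)} {η ω : Cfg} {n : ℕ} {q : ZMod n → ℤ × ℤ}
  {k l m : ℕ} {θ : ℝ} {Rc R : ℤ} {a : Fin 2 → ℤ} {f : Fin 2 → ℤ × ℤ → ℝ} {N : Fin 2 → ℕ}

/-! ### the geometry -/

theorem geo_win (h : Geo2 q D η k l m Rc R) : Win q D m R := by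
  have h1 := h.mR
  have h2 := h.lR
  have h3 := h.kn
  have h4 := h.pc
  have h5 := h.pd
  refine ⟨h.poly, h.enc, fun v v1 v2 v3 v4 => h.fd.dom v ?_, by omega, h.od⟩
  rw [nm, max_le_iff, abs_le, abs_le]
  simp only [Prod.fst_sub, Prod.snd_sub]
  omega

theorem geo_flt (h : Geo2 q D η k l m Rc R) : FltO D η (q m) R false false := by
  refine ⟨h.good, fun v v1 v2 v3 v4 => h.fd.out v ?_ v4⟩
  rw [nm, max_le_iff, abs_le, abs_le]
  simp only [Prod.fst_sub, Prod.snd_sub]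
  omega

/-! ### the pointwise bound -/

/-- The scales. -/
def sc (a1 R₁ : ℤ) (j : ℕ) : ℤ := min (4 * a1 * 2 ^ j) R₁

/-- **The pointwise bound.** -/
theorem pw (h0 : 0 < θ) (h1 : θ ≤ Real.pi / 3) (hG : Geo2 q D η k l m Rc R)
    (ha : Scl 4000 4 R a) (h8 : 8 * a 0 ≤ a 1) {Cm : ℝ} (hCm : Cm ≤ 1000)
    (hf : ∀ i, Bp Cm (q m) (a i) (f i)) {R₁ : ℤ} (hR1 : 8 * a 1 ≤ R₁) (hR2 : R₁ + 2 ≤ R)
    (hN : ∀ i, MajA (Zr (q m) (a i)) (kp * a i) ω (N i)) {J : ℕ} (hJ : R₁ ≤ 4 * a 1 * 2 ^ J) :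
    max (-(Xcd θ q D k l f ω)) 0 * nH (q m) (4 * a 1) R₁ ω ≤
      ∑ j ∈ range J, MM θ ^ 2 * ((Evs q D k l m (a 0) (a 1) (sc (a 1) R₁ j)
        (sc (a 1) R₁ (j + 1))).indicator 1 ω *
      (Yu θ (MM θ ^ 3) (θ / 2) (f 0) (a 0) (N 0) ω *
        Yu θ (MM θ ^ 3) (θ / 2) (f 1) (a 1) (N 1) ω)) := by
  classical
  obtain ⟨M1, M2, M3⟩ := MM_ge h0 h1
  have hw := geo_win hG
  have g1 := hG.mR
  have g2 := hG.lR
  have g3 := hG.kn
  have g4 := hG.pc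
  have hY : 0 ≤ Yu θ (MM θ ^ 3) (θ / 2) (f 0) (a 0) (N 0) ω *
      Yu θ (MM θ ^ 3) (θ / 2) (f 1) (a 1) (N 1) ω := by
    unfold Yu
    positivity
  have hnn : ∀ j ∈ range J, 0 ≤ MM θ ^ 2 * ((Evs q D k l m (a 0) (a 1) (sc (a 1) R₁ j)
        (sc (a 1) R₁ (j + 1))).indicator (1 : Cfg → ℝ) ω *
      (Yu θ (MM θ ^ 3) (θ / 2) (f 0) (a 0) (N 0) ω *
        Yu θ (MM θ ^ 3) (θ / 2) (f 1) (a 1) (N 1) ω)) := fun j _ =>
    mul_nonneg (by positivity) (mul_nonneg (ind_nonneg _ _) hY)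
  by_cases hX : 0 ≤ Xcd θ q D k l f ω
  · rw [max_eq_right (by linarith), zero_mul]
    exact sum_nonneg hnn
  by_cases hH : HArm (q m) (4 * a 1) R₁ ω
  · have : nH (q m) (4 * a 1) R₁ ω = 0 := by
      unfold nH
      rw [Set.indicator_of_notMem]
      simpa using hH
    rw [this, mul_zero]
    exact sum_nonneg hnn
  have hn1 : nH (q m) (4 * a 1) R₁ ω = 1 := by
    unfold nH
    rw [Set.indicator_of_mem (by simpa using hH)]
    rfl
  push Not at hX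
  rw [hn1, mul_one, max_eq_left (by linarith)]
  -- both colours cross the gap
  have hcr : ∀ c : Bool, ω ∈ Xc c (q m) (2 * a 0) (a 1) := fun c =>
    neg_cross hw ha (by omega) h0 h1 (by omega) g3 (fun i => (hf i).nonneg) (fun i => (hf i).supp)
      (fun i => (hf i).sum) hX c
  have hup := X_le hw ha g1 (by omega) g3 h0 h1 (hcr true) hCm hf hN
  have ha0 := ha.pos 0
  have ha1 := ha.pos 1
  -- the scale
  have hJ0 : J ≠ 0 := by
    rintro rfl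
    rw [pow_zero] at hJ
    omega
  have hex : ∃ j : ℕ, ¬ HArm (q m) (4 * a 1) (sc (a 1) R₁ (j + 1)) ω := by
    refine ⟨J - 1, ?_⟩
    have e : sc (a 1) R₁ (J - 1 + 1) = R₁ := by
      unfold sc
      rw [Nat.sub_add_cancel (by omega)]
      exact min_eq_right hJ
    rw [e]
    exact hH
  have hlt : Nat.find hex < J := by
    have : Nat.find hex ≤ J - 1 := by
      refine Nat.find_min' hex ?_
      have e : sc (a 1) R₁ (J - 1 + 1) = R₁ := by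
        unfold sc
        rw [Nat.sub_add_cancel (by omega)]
        exact min_eq_right hJ
      rw [e]
      exact hH
    omega
  obtain ⟨j, hj⟩ : ∃ j, j = Nat.find hex := ⟨_, rfl⟩
  have hj1 : ¬ HArm (q m) (4 * a 1) (sc (a 1) R₁ (j + 1)) ω := hj ▸ Nat.find_spec hex
  have hj2 : 8 * a 1 ≤ sc (a 1) R₁ j → HArm (q m) (4 * a 1) (sc (a 1) R₁ j) ω := by
    intro h5
    have hj0 : j ≠ 0 := by
      rintro h6
      rw [h6] at h5
      unfold sc at h5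
      rw [pow_zero] at h5
      have := min_le_left (4 * a 1 * 1) R₁
      omega
    have h7 := Nat.find_min hex (m := j - 1) (by omega)
    rw [Nat.sub_add_cancel (by omega)] at h7
    exact not_not.1 h7
  rw [← hj] at hlt
  have hs1 : 4 * a 1 < sc (a 1) R₁ (j + 1) := by
    unfold sc
    rw [lt_min_iff]
    have h5 : (2 : ℤ) ≤ 2 ^ (j + 1) := by
      rw [pow_succ]
      have : (1 : ℤ) ≤ 2 ^ j := one_le_pow₀ (by norm_num)
      omega
    constructor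
    · nlinarith
    · omega
  have hs2 : sc (a 1) R₁ (j + 1) ≤ R₁ := min_le_right _ _
  -- the dual arm
  have hkr : ∀ i : Fin 2, ∀ z, f i z ≠ 0 → z ∈ sites (hbox (q m) (2 * a 1)) := by
    intro i z hz
    have h5 := (hf i).supp z hz
    simp only [Kr, Set.mem_ofPred_eq] at h5
    have h6 : a i ≤ a 1 := by
      fin_cases i
      · have h7 : a 0 ≤ a 1 := by omega
        exact h7
      · exact le_rfl
    have h7 := ha.pos i
    rw [mem_sites_hbox (by omega)]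
    omega
  have hfin : ∀ i : Fin 2, (Function.support fun z => θ / 2 * f i z).Finite := fun i =>
    (sites (hbox (q m) (2 * a 1))).finite_toSet.subset fun z hz =>
      hkr i z (right_ne_zero_of_mul hz)
  have hsum : ∑ᶠ z, (θ / 2 * f 0 z + θ / 2 * f 1 z) = θ := by
    rw [finsum_add_distrib (hfin 0) (hfin 1), ← mul_finsum' , ← mul_finsum', (hf 0).sum, (hf 1).sum]
    · ring
    · exact (sites (hbox (q m) (2 * a 1))).finite_toSet.subset fun z hz => hkr 1 z hz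
    · exact (sites (hbox (q m) (2 * a 1))).finite_toSet.subset fun z hz => hkr 0 z hz
  have hFx : Fx θ q l f = fun z => (θ / 2 * f 0 z + θ / 2 * f 1 z) - dlt (q l) θ z := by
    funext z
    simp only [Fx, Ft, Fin.sum_univ_two, dlt]
    split_ifs <;> ring
  have hdar : ω ∈ DAr D (Wa q k l) (q m) (sc (a 1) R₁ (j + 1)) := by
    refine dar_of h0 h1 hw.poly hw.enc hw.flat hw.l1 hw.off g1 (by omega) g3
      (r := 2 * a 1) (r1 := 4 * a 1) (by omega) (by omega) hs1 (by omega)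
      (f := fun z => θ / 2 * f 0 z + θ / 2 * f 1 z) (fun z hz => ?_) hsum hj1 ?_
    · by_cases h5 : f 0 z = 0
      · refine hkr 1 z fun h6 => hz ?_
        simp only [h5, h6]
        ring
      · exact hkr 0 z h5
    · have h5 : XG θ q D k (Fx θ q l f) ω ≠ 0 := ne_of_lt hX
      rw [hFx] at h5
      exact h5
  have hmem : ω ∈ Evs q D k l m (a 0) (a 1) (sc (a 1) R₁ j) (sc (a 1) R₁ (j + 1)) := by
    refine ⟨?_, ?_, hj2, hdar⟩
    · exact Xc_restrict (by omega) (by omega) (by omega) (hcr true)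
    · exact Xc_restrict (by omega) (by omega) (by omega) (hcr false)
  refine le_trans ?_ (single_le_sum hnn (mem_range.2 hlt))
  rw [Set.indicator_of_mem hmem]
  have h5 : -(Xcd θ q D k l f ω) ≤ |XG θ q D k (Fx θ q l f) ω| := neg_le_abs _
  refine h5.trans (hup.trans (le_of_eq ?_))
  simp only [Pi.one_apply, one_mul]

/-! ### the moments -/

/-- Two majorants. -/
theorem mom2 {Q : ℝ} (hQ : 0 < Q) {Z0 Z1 : Finset (ℤ × ℤ)} (h0D : Z0 ⊆ D)
    (hdis : Disjoint Z1 Z0) {Y0 Y1 g : Cfg → ℝ} (hY0 : ∀ ω, 0 ≤ Y0 ω) (hY1 : ∀ ω, 0 ≤ Y1 ω)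
    (hg : ∀ ω, 0 ≤ g ω) (hR1 : Rd D Z1 Y1) (hg0 : Ind Z0 g) (hg1 : Ind Z1 g) {ν0 ν1 C0 C1 : ℝ}
    (hν0 : 0 < ν0) (hν1 : 0 < ν1) (hC0 : 0 ≤ C0)
    (m0 : ∀ g : Cfg → ℝ, (∀ ω, 0 ≤ g ω) → Ind Z0 g →
      Ex Q D η (fun ω => g ω * Y0 ω ^ 4) ≤ C0 * ν0 ^ 4 * Ex Q D η g)
    (m1 : ∀ g : Cfg → ℝ, (∀ ω, 0 ≤ g ω) → Ind Z1 g →
      Ex Q D η (fun ω => g ω * Y1 ω ^ 4) ≤ C1 * ν1 ^ 4 * Ex Q D η g) :
    Ex Q D η (fun ω => g ω * (Y0 ω * Y1 ω)) ≤
      (1 + C0) * (1 + C1) * (ν0 * ν1) * Ex Q D η g := by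
  have key : ∀ y ν : ℝ, 0 ≤ y → 0 < ν → y ≤ ν * (1 + (ν⁻¹) ^ 4 * y ^ 4) := by
    intro y ν hy hν
    obtain ⟨t, rfl⟩ : ∃ t, y = ν * t := ⟨y / ν, by field_simp⟩
    have e : (ν⁻¹) ^ 4 * (ν * t) ^ 4 = t ^ 4 := by field_simp
    rw [e]
    refine mul_le_mul_of_nonneg_left ?_ hν.le
    nlinarith [sq_nonneg (t ^ 2 - 1 / 2), sq_nonneg (t - 1 / 2)]
  set g1 : Cfg → ℝ := fun ω => g ω * (1 + (ν1⁻¹) ^ 4 * Y1 ω ^ 4) with hg1d
  have hg1n : ∀ ω, 0 ≤ g1 ω := fun ω => mul_nonneg (hg ω) (by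
    have := hY1 ω
    positivity)
  have hg1i : Ind Z0 g1 := by
    intro ω ω' h
    simp only [hg1d]
    rw [hg0 ω ω' h, (hR1.ind h0D hdis) ω ω' h]
  have e1 : Ex Q D η (fun ω => g ω * (Y0 ω * Y1 ω)) ≤
      (ν0 * ν1) * (Ex Q D η g1 + (ν0⁻¹) ^ 4 * Ex Q D η (fun ω => g1 ω * Y0 ω ^ 4)) := by
    rw [← Ex_mul_left, ← Ex_add, ← Ex_mul_left]
    refine Ex_mono hQ fun S _ => ?_
    simp only [hg1d]
    generalize cf D η S = ω
    have k0 := key (Y0 ω) ν0 (hY0 ω) hν0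
    have k1 := key (Y1 ω) ν1 (hY1 ω) hν1
    have k2 := mul_le_mul k0 k1 (hY1 ω) (le_trans (hY0 ω) k0)
    have k3 := mul_le_mul_of_nonneg_left k2 (hg ω)
    refine k3.trans (le_of_eq ?_)
    ring
  have e2 := m0 g1 hg1n hg1i
  have e3 : Ex Q D η g1 ≤ (1 + C1) * Ex Q D η g := by
    have e4 : Ex Q D η g1 = Ex Q D η g + (ν1⁻¹) ^ 4 * Ex Q D η (fun ω => g ω * Y1 ω ^ 4) := by
      rw [← Ex_mul_left, ← Ex_add]
      refine Ex_congr fun S _ => ?_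
      simp only [hg1d]
      ring
    rw [e4]
    have e5 := mul_le_mul_of_nonneg_left (m1 g hg hg1) (by positivity : 0 ≤ (ν1⁻¹) ^ 4)
    have e6 : (ν1⁻¹) ^ 4 * (C1 * ν1 ^ 4 * Ex Q D η g) = C1 * Ex Q D η g := by field_simp
    linarith
  have e5 : (ν0⁻¹) ^ 4 * Ex Q D η (fun ω => g1 ω * Y0 ω ^ 4) ≤ C0 * Ex Q D η g1 := by
    have e5 := mul_le_mul_of_nonneg_left e2 (by positivity : 0 ≤ (ν0⁻¹) ^ 4)
    have e6 : (ν0⁻¹) ^ 4 * (C0 * ν0 ^ 4 * Ex Q D η g1) = C0 * Ex Q D η g1 := by field_simp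
    linarith
  calc _ ≤ (ν0 * ν1) * (Ex Q D η g1 + (ν0⁻¹) ^ 4 * Ex Q D η (fun ω => g1 ω * Y0 ω ^ 4)) := e1
    _ ≤ (ν0 * ν1) * ((1 + C0) * ((1 + C1) * Ex Q D η g)) := by
        refine mul_le_mul_of_nonneg_left ?_ (by positivity)
        have := mul_le_mul_of_nonneg_left e3 (by linarith : 0 ≤ 1 + C0)
        linarith
    _ = _ := by ring

/-! ### locality of the events -/

theorem evs_ind {a0 a1 s s' : ℤ} {Z : Finset (ℤ × ℤ)}
    (hZ1 : ∀ v ∈ Z, v ∈ hbox (q m) (4 * a1)) (hZ2 : Disjoint (dF (q m) (3 * a0) (a1 / 2)) Z)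
    (hs : 4 * a1 ≤ s') : Ind Z ((Evs q D k l m a0 a1 s s').indicator (1 : Cfg → ℝ)) := by
  have key : ∀ ω ω' : Cfg, (∀ v, v ∉ Z → ω v = ω' v) → ω ∈ Evs q D k l m a0 a1 s s' →
      ω' ∈ Evs q D k l m a0 a1 s s' := by
    rintro ω ω' h ⟨k1, k2, k3, k4⟩
    have hx : ∀ v ∈ dF (q m) (3 * a0) (a1 / 2), ω v = ω' v := fun v hv =>
      h v fun hv' => (disjoint_left.1 hZ2) hv hv'
    refine ⟨H192.Q.Xc_congr hx k1, H192.Q.Xc_congr hx k2, fun h5 => ?_, ?_⟩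
    · exact (harm_congr fun v _ hv => h v fun hv' => hv (hZ1 v hv')).1 (k3 h5)
    · obtain ⟨u, hu, t, ht, hp, hut⟩ := k4
      refine ⟨u, hu, t, ht, hp, ReflTransGen.mono (fun x y hxy => ?_) _ _ hut⟩
      obtain ⟨g1, g2, g3, g4⟩ := hxy
      refine ⟨g1, g2, ?_, g4⟩
      have h5 : ω (min x.1 y.1, min x.2 y.2) = ω' (min x.1 y.1, min x.2 y.2) := by
        refine h _ fun hv => ?_
        simp only [mem_coe, mem_sdiff] at g4
        exact g4.2 (hbox_mono hs (hZ1 _ hv))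
      simp only [cs, Set.mem_ofPred_eq] at g3 ⊢
      rw [← h5]
      exact g3
  intro ω ω' h
  by_cases h1 : ω ∈ Evs q D k l m a0 a1 s s'
  · rw [Set.indicator_of_mem h1, Set.indicator_of_mem (key ω ω' h h1)]
    rfl
  · rw [Set.indicator_of_notMem h1,
      Set.indicator_of_notMem fun h2 => h1 (key ω' ω (fun v hv => (h v hv).symm) h2)]

end Vale.Agent.P167.QB.Sg
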