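import Vale.Agent.P167.QB.Sg5
import Vale.Agent.P167.H662.ND.SY

/-!
# P167, general `q`, block BRQ, negative part (6): the upper bound, from the probability estimate `S_pev`
-/

namespace Vale.Agent.P167.QB.Sg

open Finset Relation MeasureTheory Vale.Agent.P167 Vale.Agent.P167.BR Vale.Agent.P167.FK
open Vale.Agent.P167.FKA (Ind Loc Ex_mono Ex_add Ex_mul_left Ex_congr Ex_sum ind_nonneg Pr_nonneg)
open Vale.Agent.P167.E6 (IsPolygon Encloses)
open Vale.Agent.P167.H436.ND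
open Vale.Agent.P167.H208.ND
open Vale.Agent.P167.H192.TA (Xc dF mem_dF)
open Vale.Agent.P167.H562.QM (MajA NbP)
open Vale.Agent.P167.H519 (IsLim)

variable {D : Finset (ℤ × ℤ)} {η ω : Cfg} {n : ℕ} {q : ZMod n → ℤ × ℤ}
  {k l m : ℕ} {θ : ℝ} {Rc R : ℤ} {a : Fin 2 → ℤ} {f : Fin 2 → ℤ × ℤ → ℝ} {P : Measure Cfg}

/-- **(SGN) from (PEV).** -/
theorem sgn_of_pev (h0 : 0 < θ) (h1 : θ ≤ Real.pi / 3) (hR : RSW (2 * Real.cos θ))
    (hP : IsLim (2 * Real.cos θ) P) (hp : S_pev θ) : S_sgn θ P := by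
  classical
  intro Cm hCm hCm1
  obtain ⟨M1, M2, M3⟩ := MM_ge h0 h1
  have hpi := Real.pi_lt_d2
  have hcos : 1 / 2 ≤ Real.cos θ := cos_half h0 h1
  have hQ : 0 < 2 * Real.cos θ := by linarith
  obtain ⟨α, C', Kg, a₀, hα, hC', hKg, ha₀, hpev⟩ := hp
  have hM3 : (1 : ℝ) ≤ MM θ ^ 3 := one_le_pow₀ (by linarith)
  obtain ⟨CY, aY, hCY, hY⟩ := H662.ND.s_Y h0 h1 hR hP Cm (MM θ ^ 3) hCm hM3
  obtain ⟨ρ, hρ⟩ : ∃ ρ : ℝ, ρ = (1 / 2 : ℝ) ^ α := ⟨_, rfl⟩
  have hρ0 : 0 < ρ := by rw [hρ]; positivity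
  have hρ1 : ρ < 1 := by
    rw [hρ]
    exact Real.rpow_lt_one (by norm_num) (by norm_num) hα
  refine ⟨α, MM θ ^ 2 * ((1 + CY) * (1 + CY)) * C' * (1 - ρ)⁻¹, Kg, max (max a₀ aY) 4000, hα,
    ?_, hKg, ?_⟩
  · have : 0 < (1 - ρ)⁻¹ := inv_pos.2 (by linarith)
    positivity
  intro n q D η k l m Rc R hG a ha0 haK f hf R₁ hR1 hR2
  have b1 : a₀ ≤ a 0 := (le_max_left _ _).trans ((le_max_left _ _).trans ha0)
  have b2 : aY ≤ a 0 := (le_max_right _ _).trans ((le_max_left _ _).trans ha0)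
  have b3 : 4000 ≤ a 0 := (le_max_right _ _).trans ha0
  have b4 : 8 * a 0 ≤ a 1 := le_trans (by nlinarith) haK
  have b5 : 8 * a 1 ≤ R₁ := le_trans (by nlinarith) hR1
  have b6 : 8 * R₁ ≤ R := le_trans (by nlinarith) hR2
  have hw := geo_win hG
  have ha : Scl 4000 4 R a := by
    refine ⟨fun i => ?_, fun i j hij => ?_, fun i => ?_⟩
    · fin_cases i
      · exact b3
      · show 4000 ≤ a 1
        omega
    · have hi : i = 0 := by omega
      have hj : j = 1 := by omega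
      subst hi hj
      omega
    · fin_cases i
      · show 8 * a 0 ≤ R
        omega
      · show 8 * a 1 ≤ R
        omega
  -- the number of the scales
  have hex : ∃ J : ℕ, R₁ ≤ 4 * a 1 * 2 ^ J := by
    refine ⟨R₁.toNat, ?_⟩
    have h3 : R₁.toNat < 2 ^ R₁.toNat := Nat.lt_two_pow_self
    have h4 : ((R₁.toNat : ℕ) : ℤ) < 2 ^ R₁.toNat := by exact_mod_cast h3
    rw [Int.toNat_of_nonneg (by omega)] at h4
    nlinarith
  obtain ⟨J, hJ⟩ : ∃ J, J = Nat.find hex := ⟨_, rfl⟩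
  have hJ1 : R₁ ≤ 4 * a 1 * 2 ^ J := hJ ▸ Nat.find_spec hex
  have hJ2 : ∀ j < J, 4 * a 1 * 2 ^ j < R₁ := fun j hj => by
    rw [hJ] at hj
    exact not_le.1 (Nat.find_min hex hj)
  -- the majorants
  obtain ⟨N0, hN0, hY0⟩ := hY (q m) (a 0) b2
  obtain ⟨N1, hN1, hY1⟩ := hY (q m) (a 1) (by omega)
  have hτ : |θ / 2| ≤ 1 := by
    rw [abs_of_pos (by positivity)]
    linarith
  obtain ⟨r0, -, m0⟩ := hY0 D η R false false hw.flat (geo_flt hG) (by omega) (f 0) (hf 0)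
    (θ / 2) hτ
  obtain ⟨r1, -, m1⟩ := hY1 D η R false false hw.flat (geo_flt hG) (by omega) (f 1) (hf 1)
    (θ / 2) hτ
  obtain ⟨ν0, hν0⟩ : ∃ ν, ν = Real.exp (-(Real.tan θ * (θ / 2 * NbP P (kp * a 0)))) := ⟨_, rfl⟩
  obtain ⟨ν1, hν1⟩ : ∃ ν, ν = Real.exp (-(Real.tan θ * (θ / 2 * NbP P (kp * a 1)))) := ⟨_, rfl⟩
  have hν0p : 0 < ν0 := by rw [hν0]; exact Real.exp_pos _
  have hν1p : 0 < ν1 := by rw [hν1]; exact Real.exp_pos _
  have e4 : ∀ x : ℝ, Real.exp (-(4 * x)) = Real.exp (-x) ^ 4 := fun x => by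
    rw [← Real.exp_nat_mul]
    congr 1
    push_cast
    ring
  have hNn : Nn θ P a = ν0 * ν1 := by
    unfold Nn Ex0
    rw [Fin.sum_univ_two, hν0, hν1, ← Real.exp_add]
    congr 1
    ring
  have hZ0 : Zg (q m) (a 0 / 2) (3 * a 0) ⊆ D := by
    intro v hv
    rw [mem_Zg] at hv
    exact (hw.flat v (by omega) (by omega) (by omega) (by omega)).2 (by omega)
  have hdis : Disjoint (Zg (q m) (a 1 / 2) (3 * a 1)) (Zg (q m) (a 0 / 2) (3 * a 0)) := by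
    rw [disjoint_left]
    intro v hv hv'
    rw [mem_Zg] at hv hv'
    omega
  have hin : ∀ i : Fin 2, ∀ v ∈ Zg (q m) (a i / 2) (3 * a i), v ∈ hbox (q m) (4 * a 1) := by
    intro i v hv
    have h6 : a i ≤ a 1 := by
      fin_cases i
      · have h7 : a 0 ≤ a 1 := by omega
        exact h7
      · exact le_rfl
    rw [mem_Zg] at hv
    rw [mem_hbox]
    omega
  have hgap : ∀ i : Fin 2, Disjoint (dF (q m) (3 * a 0) (a 1 / 2))
      (Zg (q m) (a i / 2) (3 * a i)) := by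
    intro i
    rw [disjoint_left]
    intro v hv hv'
    rw [mem_dF] at hv
    simp only [H192.TA.dq, Set.mem_ofPred_eq] at hv
    rw [mem_Zg] at hv'
    have hi : i = 0 ∨ i = 1 := by omega
    rcases hi with rfl | rfl <;> omega
  -- one scale
  have hsc : ∀ j < J, sc (a 1) R₁ j = 4 * a 1 * 2 ^ j := fun j hj => min_eq_left (hJ2 j hj).le
  have h2j : ∀ j : ℕ, (1 : ℤ) ≤ 2 ^ j := fun j => one_le_pow₀ (by norm_num)
  have hstep : ∀ j ∈ range J, Ex (2 * Real.cos θ) D η (fun ω => MM θ ^ 2 *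
      ((Evs q D k l m (a 0) (a 1) (sc (a 1) R₁ j) (sc (a 1) R₁ (j + 1))).indicator 1 ω *
        (Yu θ (MM θ ^ 3) (θ / 2) (f 0) (a 0) (N0 ω) ω *
          Yu θ (MM θ ^ 3) (θ / 2) (f 1) (a 1) (N1 ω) ω))) ≤
      (MM θ ^ 2 * ((1 + CY) * (1 + CY)) * C' * (((a 0 : ℝ) / a 1) ^ α * (Nn θ P a *
        Pr (2 * Real.cos θ) D η (DAr D (Wa q k l) (q m) (4 * a 0))))) * ρ ^ j := by
    intro j hj
    have hj' := mem_range.1 hj
    have s1 := hsc j hj'
    have s2 := h2j j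
    have s3 : 4 * a 1 ≤ sc (a 1) R₁ j := by rw [s1]; nlinarith
    have s4 : sc (a 1) R₁ j ≤ sc (a 1) R₁ (j + 1) := by
      rw [s1]
      refine le_min ?_ (hJ2 j hj').le
      rw [pow_succ]
      nlinarith
    have s5 : sc (a 1) R₁ (j + 1) ≤ 2 * sc (a 1) R₁ j := by
      rw [s1]
      refine (min_le_left _ _).trans (le_of_eq ?_)
      rw [pow_succ]
      ring
    have s6 : sc (a 1) R₁ (j + 1) ≤ R₁ := min_le_right _ _
    have hpr := hpev n q D η k l m Rc R hG (a 0) (a 1) _ _ b1 haK s3 s4 s5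
      (le_trans (by nlinarith) hR2)
    rw [Ex_mul_left]
    have hi : ∀ i : Fin 2, Ind (Zg (q m) (a i / 2) (3 * a i)) ((Evs q D k l m (a 0) (a 1)
        (sc (a 1) R₁ j) (sc (a 1) R₁ (j + 1))).indicator (1 : Cfg → ℝ)) := fun i =>
      evs_ind (hin i) (hgap i) (by omega)
    have hm := mom2 (D := D) (η := η) hQ hZ0 hdis
      (Y0 := fun ω => Yu θ (MM θ ^ 3) (θ / 2) (f 0) (a 0) (N0 ω) ω)
      (Y1 := fun ω => Yu θ (MM θ ^ 3) (θ / 2) (f 1) (a 1) (N1 ω) ω)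
      (fun ω => by unfold Yu; positivity) (fun ω => by unfold Yu; positivity)
      (fun ω => ind_nonneg (Evs q D k l m (a 0) (a 1) (sc (a 1) R₁ j) (sc (a 1) R₁ (j + 1))) ω)
      r1 (hi 0) (hi 1) hν0p hν1p hCY.le
      (fun g hg0 hg1 => by
        have := (m0 g hg0 hg1).1
        rwa [e4, ← hν0] at this)
      (C1 := CY) (fun g hg0 hg1 => by
        have := (m1 g hg0 hg1).1
        rwa [e4, ← hν1] at this)
    rw [← hNn] at hm
    have hNp : 0 < Nn θ P a := Real.exp_pos _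
    have hDp : 0 ≤ Pr (2 * Real.cos θ) D η (DAr D (Wa q k l) (q m) (4 * a 0)) := Pr_nonneg hQ _
    have hr0 : (0 : ℝ) ≤ ((a 0 : ℝ) / a 1) ^ α := by
      refine Real.rpow_nonneg (div_nonneg ?_ ?_) _
      · exact_mod_cast (by omega : 0 ≤ a 0)
      · exact_mod_cast (by omega : 0 ≤ a 1)
    have hrj : ((a 1 : ℝ) / (sc (a 1) R₁ j : ℤ)) ^ α ≤ ρ ^ j := by
      have ha1 : (0 : ℝ) < a 1 := by exact_mod_cast (by omega : 0 < a 1)
      have e5 : ((a 1 : ℝ) / (sc (a 1) R₁ j : ℤ)) ≤ (1 / 2) ^ j := by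
        rw [s1]
        push_cast
        rw [div_le_iff₀ (by positivity)]
        have e6 : (1 / 2 : ℝ) ^ j * (4 * a 1 * 2 ^ j) = 4 * a 1 := by
          rw [one_div, inv_pow]
          field_simp
        rw [e6]
        linarith
      have e7 : ρ ^ j = ((1 / 2 : ℝ) ^ j) ^ α := by
        rw [hρ, ← Real.rpow_natCast, ← Real.rpow_natCast, ← Real.rpow_mul (by norm_num),
          ← Real.rpow_mul (by norm_num), mul_comm]
      rw [e7]
      refine Real.rpow_le_rpow (div_nonneg ha1.le ?_) e5 hα.le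
      exact_mod_cast (by omega : 0 ≤ sc (a 1) R₁ j)
    have hpr2 : Pr (2 * Real.cos θ) D η (Evs q D k l m (a 0) (a 1) (sc (a 1) R₁ j)
        (sc (a 1) R₁ (j + 1))) ≤ C' * ((a 0 : ℝ) / a 1) ^ α * ρ ^ j *
        Pr (2 * Real.cos θ) D η (DAr D (Wa q k l) (q m) (4 * a 0)) :=
      hpr.trans (mul_le_mul_of_nonneg_right (mul_le_mul_of_nonneg_left hrj (by positivity)) hDp)
    calc _ ≤ MM θ ^ 2 * ((1 + CY) * (1 + CY) * Nn θ P a *
          Pr (2 * Real.cos θ) D η (Evs q D k l m (a 0) (a 1) (sc (a 1) R₁ j)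
            (sc (a 1) R₁ (j + 1)))) := mul_le_mul_of_nonneg_left hm (by positivity)
      _ ≤ MM θ ^ 2 * ((1 + CY) * (1 + CY) * Nn θ P a *
          (C' * ((a 0 : ℝ) / a 1) ^ α * ρ ^ j *
            Pr (2 * Real.cos θ) D η (DAr D (Wa q k l) (q m) (4 * a 0)))) := by
          refine mul_le_mul_of_nonneg_left (mul_le_mul_of_nonneg_left hpr2 ?_) (by positivity)
          positivity
      _ = _ := by ring
  -- the sum over the scales
  have hpt : Ex (2 * Real.cos θ) D η (fun ω => max (-(Xcd θ q D k l f ω)) 0 *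
      nH (q m) (4 * a 1) R₁ ω) ≤ ∑ j ∈ range J, Ex (2 * Real.cos θ) D η (fun ω => MM θ ^ 2 *
      ((Evs q D k l m (a 0) (a 1) (sc (a 1) R₁ j) (sc (a 1) R₁ (j + 1))).indicator 1 ω *
        (Yu θ (MM θ ^ 3) (θ / 2) (f 0) (a 0) (N0 ω) ω *
          Yu θ (MM θ ^ 3) (θ / 2) (f 1) (a 1) (N1 ω) ω))) := by
    rw [← Ex_sum]
    refine Ex_mono hQ fun S _ => ?_
    refine pw (N := fun i => if i = 0 then N0 (cf D η S) else N1 (cf D η S)) h0 h1 hG ha b4 hCm1 hf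
      b5 (by omega) (fun i => ?_) hJ1
    fin_cases i
    · exact hN0 _
    · exact hN1 _
  refine hpt.trans ((sum_le_sum hstep).trans ?_)
  rw [← mul_sum]
  have hgeo : ∑ j ∈ range J, ρ ^ j ≤ (1 - ρ)⁻¹ := by
    rw [← tsum_geometric_of_lt_one hρ0.le hρ1]
    exact (summable_geometric_of_lt_one hρ0.le hρ1).sum_le_tsum _ fun _ _ => by positivity
  have hNp : 0 < Nn θ P a := Real.exp_pos _
  have hDp : 0 ≤ Pr (2 * Real.cos θ) D η (DAr D (Wa q k l) (q m) (4 * a 0)) := Pr_nonneg hQ _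
  have hr0 : (0 : ℝ) ≤ ((a 0 : ℝ) / a 1) ^ α := by
    refine Real.rpow_nonneg (div_nonneg ?_ ?_) _
    · exact_mod_cast (by omega : 0 ≤ a 0)
    · exact_mod_cast (by omega : 0 ≤ a 1)
  refine (mul_le_mul_of_nonneg_left hgeo (by positivity)).trans (le_of_eq ?_)
  ring

end Vale.Agent.P167.QB.Sg
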