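import Vale.Agent.P167.QB.FDefs

/-!
# P167, general `q`, block BRQ: the negative part, the probability estimate as a literal statement
-/

namespace Vale.Agent.P167.QB

open Vale.Agent.P167.BR Vale.Agent.P167.FK
open Vale.Agent.P167.H192.TA (Xc)

/-- Both colours cross the gap between the rings, the primal arm from radius `4 a1` comes to radius `s`, the
half box of radius `s'` is joined to the arc from `q l` to `q k` by a dual path. -/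
def Evs {n : ℕ} (q : ZMod n → ℤ × ℤ) (D : Finset (ℤ × ℤ)) (k l m : ℕ) (a0 a1 s s' : ℤ) : Set Cfg :=
  {ω | ω ∈ Xc true (q m) (3 * a0) (a1 / 2) ∧ ω ∈ Xc false (q m) (3 * a0) (a1 / 2) ∧
    (8 * a1 ≤ s → HArm (q m) (4 * a1) s ω) ∧ ω ∈ DAr D (Wa q k l) (q m) s'}

/-- **(PEV)** The probability of these events (from HAR and GLU). -/
def S_pev (θ : ℝ) : Prop := ∃ (α C : ℝ) (Kg a₀ : ℤ), 0 < α ∧ 0 < C ∧ 8 ≤ Kg ∧ 1 ≤ a₀ ∧
  ∀ (n : ℕ) (q : ZMod n → ℤ × ℤ) (D : Finset (ℤ × ℤ)) (η : Cfg) (k l m : ℕ) (Rc Rd : ℤ),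
  Geo2 q D η k l m Rc Rd → ∀ a0 a1 s s' : ℤ, a₀ ≤ a0 → Kg * a0 ≤ a1 → 4 * a1 ≤ s → s ≤ s' →
  s' ≤ 2 * s → Kg * s' ≤ Rd →
    Pr (2 * Real.cos θ) D η (Evs q D k l m a0 a1 s s') ≤
      C * ((a0 : ℝ) / a1) ^ α * ((a1 : ℝ) / s) ^ α *
        Pr (2 * Real.cos θ) D η (DAr D (Wa q k l) (q m) (4 * a0))

end Vale.Agent.P167.QB
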