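import Vale.Agent.P167.QB.Brb

/-!
# P167, general `q`, block Q-BRIDGE: charges at the base point, majorants

`k = n` (free polygon). The bump `fp` and the point charge `- θ` at the flat point `q m`, and a bump `- fc`
(`maj4`) or a point charge `- θ` (`maj5`) at the flat point `q l`.
-/

namespace Vale.Agent.P167.QB

open Finset Relation Vale.Agent.P167.BR Vale.Agent.P167.H562.SML Vale.Agent.P167.H45
open Vale.Agent.P167.E6 (IsPolygon Encloses dir face)
open Vale.Agent.P167.H718 (IsXY IsCl Cl isCl_strand side_const)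
open Vale.Agent.P167.QX (lo hi exists_xy lo_xy hi_xy wB)
open Vale.Agent.P167.H562.MAJ (bigs Sm core Sc mem_core)
open Vale.Agent.P167.H562.QM (BumpsQ WtQ Far)

variable {D Z : Finset (ℤ × ℤ)} {ω : Cfg} {n : ℕ} {q : ZMod n → ℤ × ℤ} {A B : Finset Ed}
  {a b m : ℕ} {θ K : ℝ} {k l : ℕ} {r R rc rd : ℤ} {fc fd : ℤ × ℤ → ℝ}

section

variable (hq : IsPolygon q) (hD : Encloses q D)
include hq hD

theorem hi_lt_n (hA : A ∈ pcs ω D) (hl : ¬ IsLp D A) : hi q A < n := by
  obtain ⟨x, y, h⟩ := exists_xy hq hD hA hl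
  rw [hi_xy hq hD hA h]
  exact max_lt h.1 h.2.1

open Classical in
/-- **The far strands with negative masses.** -/
theorem far_neg (hx : 0 < Real.sin θ) (hc : 1 ≤ 2 * Real.cos θ) {M : ℝ} (hM2 : 2 ≤ M)
    (ha : a ≤ n) (hb : b ≤ n) (hm : m ≤ n)
    {F : Finset (Finset Ed)} (hF : ∀ A ∈ F, A ∈ pcs ω D ∧ ¬ IsLp D A) {N : ℕ}
    (hN : ((pcs ω D).filter (fun A => ¬ IsLp D A ∧ A ∉ F)).card ≤ N)
    (h1 : ∀ A ∈ F, Ard q m A → ¬ Ard q a A → ¬ Ard q b A) :
    ∏ A ∈ F, |wB θ (gB θ) q D n A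
      (-((if Ard q m A ∧ ¬ Ard q a A then θ else 0) + if Ard q b A then θ else 0))| ≤
      M ^ (2 + 2 * N) := by
  have hc0 : 0 < Real.cos θ := by linarith
  have hoth : ∀ P : Finset Ed → Prop, (∀ A ∈ pcs ω D, P A → ¬ IsLp D A) →
      |∑ A ∈ (pcs ω D).filter P, sg q A - ∑ A ∈ F.filter P, sg q A| ≤ (N : ℤ) := by
    intro P hP
    have e1 : (pcs ω D).filter P = F.filter P ∪ ((pcs ω D).filter fun A => P A ∧ A ∉ F) := by
      ext A
      simp only [mem_filter, mem_union]
      constructor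
      · rintro ⟨h3, h4⟩
        by_cases h5 : A ∈ F
        · exact Or.inl ⟨h5, h4⟩
        · exact Or.inr ⟨h3, h4, h5⟩
      · rintro (⟨h3, h4⟩ | ⟨h3, h4, -⟩)
        · exact ⟨(hF A h3).1, h4⟩
        · exact ⟨h3, h4⟩
    have e2 : Disjoint (F.filter P) ((pcs ω D).filter fun A => P A ∧ A ∉ F) := by
      rw [disjoint_left]
      intro A h3 h4
      exact (mem_filter.1 h4).2.2 (mem_filter.1 h3).1
    rw [e1, sum_union e2, add_sub_cancel_left]
    refine (sum_sg_le _).trans ?_
    have h3 : ((pcs ω D).filter fun A => P A ∧ A ∉ F).card ≤ N := by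
      refine le_trans (card_le_card fun A h4 => ?_) hN
      rw [mem_filter] at h4 ⊢
      exact ⟨h4.1, hP A h4.1 h4.2.1, h4.2.2⟩
    exact_mod_cast h3
  set P1 : Finset Ed → Prop := fun A => Ard q m A ∧ ¬ Ard q a A with hP1
  set P2 : Finset Ed → Prop := fun A => Ard q b A with hP2
  have e1 : ∀ A ∈ F, |wB θ (gB θ) q D n A
      (-((if Ard q m A ∧ ¬ Ard q a A then θ else 0) + if Ard q b A then θ else 0))| =
      (2 * Real.cos θ) ^ ((if P1 A then sg q A else 0) + if P2 A then sg q A else 0 : ℤ) := by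
    intro A hA
    have hfull := wB_full (θ := θ) (k := n) hq hD hx hc0 (hF A hA).1 (hF A hA).2
      (hi_lt_n hq hD (hF A hA).1 (hF A hA).2)
    by_cases h3 : P1 A
    · have h4 : ¬ P2 A := h1 A hA h3.1 h3.2
      rw [if_pos h3, if_neg h4, if_pos h3, if_neg h4, add_zero, add_zero, hfull,
        abs_of_pos (by positivity)]
    · rw [if_neg h3, if_neg h3]
      by_cases h4 : P2 A
      · rw [if_pos h4, if_pos h4, zero_add, zero_add, hfull, abs_of_pos (by positivity)]
      · rw [if_neg h4, if_neg h4, add_zero, neg_zero, wB_hx hx hc0, abs_one, add_zero, zpow_zero]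
  rw [prod_congr rfl e1]
  have h2c : (2 * Real.cos θ) ≠ 0 := by positivity
  have e2 : ∏ A ∈ F, (2 * Real.cos θ) ^ ((if P1 A then sg q A else 0) +
      if P2 A then sg q A else 0 : ℤ) =
      (2 * Real.cos θ) ^ (∑ A ∈ F.filter P1, sg q A + ∑ A ∈ F.filter P2, sg q A) := by
    rw [sum_filter, sum_filter, ← sum_add_distrib]
    exact prod_zpow h2c _ _
  rw [e2]
  obtain ⟨c1, hc1, k1⟩ := sum_diff hq hD ω hm ha
  obtain ⟨c2, hc2, k2⟩ := sum_diff hq hD ω hb (Nat.zero_le n)
  have h0 : ∀ A : Finset Ed, ¬ Ard q 0 A := fun A h => absurd h.1 (Nat.not_lt_zero _)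
  have k2' : ∑ A ∈ (pcs ω D).filter P2, sg q A = sgm q b - sgm q c2 := by
    rw [← k2]
    refine sum_congr (filter_congr fun A _ => ?_) fun _ _ => rfl
    exact ⟨fun h => ⟨h, h0 A⟩, fun h => h.1⟩
  have k3 := hoth P1 fun A hA h => fun h' => ard_lp hq hD hA h' h.1
  have k4 := hoth P2 fun A hA h => fun h' => ard_lp hq hD hA h' h
  rw [k2'] at k4
  have k5 : |(sgm q m - sgm q c1) - ∑ A ∈ F.filter P1, sg q A| ≤ (N : ℤ) := by
    rw [← k1]
    convert k3
  have k6 := sgm_sub_bd hq m c1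
  have k7 := sgm_sub_bd hq b c2
  have k8 : ∑ A ∈ F.filter P1, sg q A + ∑ A ∈ F.filter P2, sg q A ≤ ((2 + 2 * N : ℕ) : ℤ) := by
    rw [abs_le] at k4 k5 k6 k7
    push_cast
    omega
  calc _ ≤ (2 * Real.cos θ) ^ ((2 + 2 * N : ℕ) : ℤ) := zpow_le_zpow_right₀ hc k8
    _ = (2 * Real.cos θ) ^ (2 + 2 * N) := zpow_natCast _ _
    _ ≤ M ^ (2 + 2 * N) :=
      pow_le_pow_left₀ (by positivity) (by have := Real.cos_le_one θ; linarith) _

/-- A small strand which visits the half box at `q m` does not surround a far flat point. -/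
theorem small_not (h : Sc K rd) (hFm : Flt D (q m) (2 * rd)) (hFl : Flt D (q l) R) (hR : 1 ≤ R)
    (hm : m < n) (h0 : q 0 ∉ sites (hbox (q m) (2 * rd)))
    (hd : Disjoint (hbox (q m) (2 * rd)) (hbox (q l) R)) (hA : A ∈ pcs ω D)
    (hs : Small (dq K rd) A) (hV : Vz (hbox (q m) rd) A) : ¬ Ard q l A := by
  have hr8 := h.r8
  intro ha
  have hAl : ¬ IsLp D A := fun h' => ard_lp hq hD hA h' ha
  have hI := h.inner hFm hA (small_mono (dq_le h) hs) hV
  obtain ⟨x, y, h1, h2, h3, h4, h5, -⟩ := inn_xy hq hD hFm (by omega) hm h0 hA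
    (fun e he => (hI e he).1) (fun e he => (hI e he).2) hAl
  have hfar := far_index hq hD hFl hFm hR (by omega) hd.symm
  unfold Ard at ha
  rw [lo_xy hq hD hA h1, hi_xy hq hD hA h1] at ha
  omega

open Classical in
/-- **The majorant: bump and point charge at `q m`, bump at `q l`.** -/
theorem maj4 (hθ0 : 0 < θ) (hθ1 : θ ≤ Real.pi / 3) (hln : l < n) (hmn : m < n)
    (hSd : Sc K rd) (hSc : Sc K rc) (hFd : Flt D (q m) (2 * rd)) (hFc : Flt D (q l) (2 * rc))
    (h0d : q 0 ∉ sites (hbox (q m) (2 * rd))) (h0c : q 0 ∉ sites (hbox (q l) (2 * rc)))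
    (hsep : Disjoint (hbox (q m) (2 * rd)) (hbox (q l) (2 * rc)))
    (hgd : ∀ z, |fd z| ≤ K / (rd : ℝ) ^ 2) (hgc : ∀ z, |fc z| ≤ K / (rc : ℝ) ^ 2)
    (hsd : ∀ z, fd z ≠ 0 → z ∈ sites (core K (q m) rd))
    (hsc : ∀ z, fc z ≠ 0 → z ∈ sites (core K (q l) rc))
    (htd : ∑ᶠ z, fd z = θ) (htc : ∑ᶠ z, fc z = θ) (ω : Cfg) {Nd Nc : ℕ}
    (hNd : (bigs D (hbox (q m) rd) (dq K rd) ω).card ≤ Nd)
    (hNc : (bigs D (hbox (q l) rc) (dq K rc) ω).card ≤ Nc) :
    |XG θ q D n (fun z => (fd z - dlt (q m) θ z) - fc z) ω| ≤ MW θ ^ 2 *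
      (((MW θ ^ 3) ^ Nd * Real.exp (-(Real.tan θ * Sm fd (dq K rd) ω))) *
      ((MW θ ^ 3) ^ Nc * Real.exp (-(Real.tan θ * Sm (-fc) (dq K rc) ω)))) := by
  have hM2 := two_le_MW hθ0 hθ1
  have hM1 : 1 ≤ MW θ := by linarith
  have hrc := hSc.r8
  have hrd := hSd.r8
  have hqd : q m ∈ sites (hbox (q m) rd) := by rw [mem_sites_hbox (by omega)]; omega
  have hqc : q l ∈ sites (hbox (q l) rc) := by rw [mem_sites_hbox (by omega)]; omega
  have hms : q m ∈ sites D :=
    sites_mono ((hbox_mono (by omega)).trans (hbox_sub hFd)) hqd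
  set i : Bool → ℕ := b2 m l with hi'
  set r : Bool → ℤ := b2 rd rc with hr'
  set g : Bool → ℤ × ℤ → ℝ := b2 fd (-fc) with hg'
  set t : Bool → ℝ := b2 θ (-θ) with ht'
  have hnegs : ∑ᶠ z, (-fc) z = -θ := by
    rw [← htc, ← finsum_neg_distrib]
    rfl
  set w' : Finset Ed → ℝ → ℝ := fun A t => wB θ (gB θ) q D n A (t - if Ard q m A then θ else 0)
    with hw'
  set w : Finset Ed → ℝ → ℝ := fun A t => if IsLp D A then H562.wt θ t else w' A t with hw
  have hwt : WtQ θ (MW θ) D w :=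
    { a0 := hθ0
      a1 := hθ1
      M1 := hM1
      loop := fun A t hA => by rw [hw]; simp only; rw [if_pos hA]
      bd := fun A t => by
        rw [hw]
        simp only
        split_ifs with h
        · have := (wtq hθ0 hθ1 q D n).loop A t h
          rw [← this]
          exact wB_bd hθ0 hθ1 q D n A t
        · exact wB_bd hθ0 hθ1 q D n A _ }
  have hmaj := maj_gen hq hD (J := (univ : Finset Bool)) (i := i) (r := r) (g := g) (t := t)
    hwt (by rintro (_ | _) _ <;> assumption) (by rintro (_ | _) _ <;> assumption)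
    (by rintro (_ | _) _ <;> assumption) (by rintro (_ | _) _ <;> assumption)
    (by
      rintro (_ | _) _ z
      · show |(-fc) z| ≤ _
        rw [Pi.neg_apply, abs_neg]
        exact hgc z
      · exact hgd z)
    (by
      rintro (_ | _) _ z hz
      · exact hsc z (by intro h'; apply hz; show -(fc z) = 0; rw [h', neg_zero])
      · exact hsd z hz)
    (by rintro (_ | _) _ <;> assumption)
    (by
      rintro (_ | _) _ (_ | _) _ hne
      · exact absurd rfl hne
      · exact hsep.symm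
      · exact hsep
      · exact absurd rfl hne) ω
  have hf : (fun z => fd z - fc z) = fun z => ∑ j, g j z := by
    funext z
    rw [Fintype.sum_bool]
    show fd z - fc z = fd z + -(fc z)
    ring
  have e0 : |XG θ q D n (fun z => (fd z - dlt (q m) θ z) - fc z) ω| =
      ∏ A ∈ pcs ω D, |w A (mass D (q 0) (fun z => ∑ j, g j z) A)| := by
    unfold XG QX.XB
    rw [abs_prod, ← hf]
    refine prod_congr rfl fun A hA => ?_
    have e1 : mass D (q 0) (fun z => (fd z - dlt (q m) θ z) - fc z) A =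
        mass D (q 0) (fun z => fd z - fc z) A - if Ard q m A then θ else 0 := by
      rw [mass_sub' (fun z => fd z - dlt (q m) θ z) fc, mass_sub' fd, mass_sub' fd,
        mass_dlt hq hD hmn.le hA hms]
      ring
    rw [e1]
    congr 1
    simp only [hw, hw']
    by_cases h : IsLp D A
    · rw [if_pos h, if_neg (ard_lp hq hD hA h), sub_zero]
      exact (wtq hθ0 hθ1 q D n).loop A _ h
    · rw [if_neg h]
  rw [e0]
  refine hmaj.trans ?_
  rw [Fintype.prod_bool]
  -- the far strands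
  set F : Finset (Finset Ed) := (pcs ω D).filter
    (Far univ D (fun j => hbox (q (i j : ℕ)) (r j)) (fun j => dq K (r j))) with hFdef
  obtain ⟨a, ham, ha⟩ := off_pos hq hD ω ((hbox_mono (by omega)).trans (hbox_sub hFd))
    (econ_hbox (by omega)) hmn.le hqd
  obtain ⟨b, hbl, hb⟩ := off_pos hq hD ω ((hbox_mono (by omega)).trans (hbox_sub hFc))
    (econ_hbox (by omega)) hln.le hqc
  have hFF : ∀ A ∈ F, A ∈ pcs ω D ∧ ¬ IsLp D A := fun A hA => by
    rw [hFdef, mem_filter] at hA
    exact ⟨hA.1, hA.2.1⟩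
  have hfar := far_neg hq hD (ω := ω) (F := F) (a := a) (b := b) (m := m) (N := Nd + Nc)
    (sin_pos' hθ0 hθ1) (by have := cos_half hθ0 hθ1; linarith) hM2
    (ham.trans hmn.le) (hbl.trans hln.le) hmn.le hFF ?_ ?_
  · have e1 : ∏ A ∈ F, |w A (∑ j, if Ard q (i j) A ∧ ¬ Vz (hbox (q (i j)) (r j)) A
        then t j else 0)| = ∏ A ∈ F, |wB θ (gB θ) q D n A
          (-((if Ard q m A ∧ ¬ Ard q a A then θ else 0) + if Ard q b A then θ else 0))| := by
      refine prod_congr rfl fun A hA => ?_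
      obtain ⟨hA', hAl⟩ := hFF A hA
      simp only [hw, hw']
      rw [if_neg hAl]
      congr 2
      rw [Fintype.sum_bool]
      have k1 : (if Ard q (i true) A ∧ ¬ Vz (hbox (q (i true)) (r true)) A then t true else 0) =
          if Ard q a A then θ else 0 := by
        have hh : Ard q (i true) A ∧ ¬ Vz (hbox (q (i true)) (r true)) A ↔ Ard q a A := ha A hA'
        by_cases h' : Ard q a A
        · rw [if_pos h', if_pos (hh.2 h')]
          rfl
        · rw [if_neg h', if_neg (fun h'' => h' (hh.1 h''))]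
      have k2 : (if Ard q (i false) A ∧ ¬ Vz (hbox (q (i false)) (r false)) A then t false else 0) =
          -if Ard q b A then θ else 0 := by
        have hh : Ard q (i false) A ∧ ¬ Vz (hbox (q (i false)) (r false)) A ↔ Ard q b A := hb A hA'
        by_cases h' : Ard q b A
        · rw [if_pos h', if_pos (hh.2 h')]
          rfl
        · rw [if_neg h', if_neg (fun h'' => h' (hh.1 h'')), neg_zero]
      rw [k1, k2]
      by_cases h3 : Ard q a A
      · have h4 : Ard q m A := ((ha A hA').2 h3).1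
        have h5 : ¬ (Ard q m A ∧ ¬ Ard q a A) := fun h' => h'.2 h3
        rw [if_pos h3, if_pos h4, if_neg h5]
        ring
      · by_cases h4 : Ard q m A
        · have h5 : Ard q m A ∧ ¬ Ard q a A := ⟨h4, h3⟩
          rw [if_neg h3, if_pos h4, if_pos h5]
          ring
        · have h5 : ¬ (Ard q m A ∧ ¬ Ard q a A) := fun h' => h4 h'.1
          rw [if_neg h3, if_neg h4, if_neg h5]
          ring
    rw [e1]
    have k1 : MW θ ^ (bigs D (hbox (q (i true)) (r true)) (dq K (r true)) ω).card ≤ MW θ ^ Nd :=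
      pow_le_pow_right₀ hM1 hNd
    have k2 : MW θ ^ (bigs D (hbox (q (i false)) (r false)) (dq K (r false)) ω).card ≤ MW θ ^ Nc :=
      pow_le_pow_right₀ hM1 hNc
    have p1 := Real.exp_pos (-(Real.tan θ * Sm fd (dq K rd) ω))
    have p2 := Real.exp_pos (-(Real.tan θ * Sm (-fc) (dq K rc) ω))
    calc _ ≤ (MW θ ^ Nd * Real.exp (-(Real.tan θ * Sm fd (dq K rd) ω)) *
          (MW θ ^ Nc * Real.exp (-(Real.tan θ * Sm (-fc) (dq K rc) ω)))) *
          MW θ ^ (2 + 2 * (Nd + Nc)) := by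
          refine mul_le_mul (mul_le_mul (mul_le_mul_of_nonneg_right k1 p1.le)
            (mul_le_mul_of_nonneg_right k2 p2.le) (by positivity) (by positivity)) hfar
            (prod_nonneg fun _ _ => abs_nonneg _) (by positivity)
      _ = _ := by ring
  · -- the number of the other strands
    have hsub : (pcs ω D).filter (fun A => ¬ IsLp D A ∧ A ∉ F) ⊆
        bigs D (hbox (q m) rd) (dq K rd) ω ∪ bigs D (hbox (q l) rc) (dq K rc) ω := by
      intro A hA
      rw [mem_filter] at hA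
      obtain ⟨hA, hAl, hAF⟩ := hA
      rw [hFdef, mem_filter] at hAF
      have h1 : ¬ Far univ D (fun j => hbox (q (i j : ℕ)) (r j)) (fun j => dq K (r j)) A :=
        fun h' => hAF ⟨hA, h'⟩
      unfold Far at h1
      push Not at h1
      obtain ⟨j, -, h2, h3⟩ := h1 hAl
      rw [mem_union]
      rcases j with _ | _
      · right
        exact mem_filter.2 ⟨hA, h2, h3⟩
      · left
        exact mem_filter.2 ⟨hA, h2, h3⟩
    refine (card_le_card hsub).trans ((card_union_le _ _).trans ?_)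
    omega
  · intro A hA h1 h2 h3
    obtain ⟨hA', hAl⟩ := hFF A hA
    have h4 : Ard q l A := ((hb A hA').2 h3).1
    have h5 : Vz (hbox (q m) rd) A := by
      by_contra h'
      exact h2 ((ha A hA').1 ⟨h1, h'⟩)
    rw [hFdef, mem_filter] at hA
    have h6 := hA.2.2 true (mem_univ _)
    have h7 : Small (dq K rd) A := by
      by_contra h'
      exact h6 ⟨h5, h'⟩
    exact small_not hq hD hSd hFd hFc (by omega) hmn h0d hsep hA' h7 h5 h4

open Classical in
/-- **The majorant: bump and point charge at `q m`, point charge at `q l`.** -/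
theorem maj5 (hθ0 : 0 < θ) (hθ1 : θ ≤ Real.pi / 3) (hln : l < n) (hmn : m < n)
    (hSd : Sc K rd) (hFd : Flt D (q m) (2 * rd)) (hFc : Flt D (q l) R) (hR : 1 ≤ R)
    (h0d : q 0 ∉ sites (hbox (q m) (2 * rd)))
    (hsep : Disjoint (hbox (q m) (2 * rd)) (hbox (q l) R))
    (hgd : ∀ z, |fd z| ≤ K / (rd : ℝ) ^ 2)
    (hsd : ∀ z, fd z ≠ 0 → z ∈ sites (core K (q m) rd))
    (htd : ∑ᶠ z, fd z = θ) (ω : Cfg) {Nd : ℕ}
    (hNd : (bigs D (hbox (q m) rd) (dq K rd) ω).card ≤ Nd) :
    |XG θ q D n (fun z => (fd z - dlt (q m) θ z) - dlt (q l) θ z) ω| ≤ MW θ ^ 2 *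
      ((MW θ ^ 3) ^ Nd * Real.exp (-(Real.tan θ * Sm fd (dq K rd) ω))) := by
  have hM2 := two_le_MW hθ0 hθ1
  have hM1 : 1 ≤ MW θ := by linarith
  have hrd := hSd.r8
  have hqd : q m ∈ sites (hbox (q m) rd) := by rw [mem_sites_hbox (by omega)]; omega
  have hqc : q l ∈ sites (hbox (q l) R) := by rw [mem_sites_hbox hR]; omega
  have hms : q m ∈ sites D :=
    sites_mono ((hbox_mono (by omega)).trans (hbox_sub hFd)) hqd
  have hls : q l ∈ sites D := sites_mono (hbox_sub hFc) hqc
  set w' : Finset Ed → ℝ → ℝ := fun A t => wB θ (gB θ) q D n A (t - (if Ard q m A then θ else 0) -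
    if Ard q l A then θ else 0) with hw'
  set w : Finset Ed → ℝ → ℝ := fun A t => if IsLp D A then H562.wt θ t else w' A t with hw
  have hwt : WtQ θ (MW θ) D w :=
    { a0 := hθ0
      a1 := hθ1
      M1 := hM1
      loop := fun A t hA => by rw [hw]; simp only; rw [if_pos hA]
      bd := fun A t => by
        rw [hw]
        simp only
        split_ifs with h
        · have := (wtq hθ0 hθ1 q D n).loop A t h
          rw [← this]
          exact wB_bd hθ0 hθ1 q D n A t
        · exact wB_bd hθ0 hθ1 q D n A _ }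
  have hmaj := maj_gen hq hD (J := ({()} : Finset Unit)) (i := fun _ => m) (r := fun _ => rd)
    (g := fun _ => fd) (t := fun _ => θ) hwt (fun _ _ => hSd) (fun _ _ => hFd) (fun _ _ => hmn)
    (fun _ _ => h0d) (fun _ _ => hgd) (fun _ _ => hsd) (fun _ _ => htd)
    (fun _ _ _ _ h => absurd rfl h) ω
  simp only [sum_singleton, prod_singleton] at hmaj
  have e0 : |XG θ q D n (fun z => (fd z - dlt (q m) θ z) - dlt (q l) θ z) ω| =
      ∏ A ∈ pcs ω D, |w A (mass D (q 0) fd A)| := by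
    unfold XG QX.XB
    rw [abs_prod]
    refine prod_congr rfl fun A hA => ?_
    rw [mass_sub' (fun z => fd z - dlt (q m) θ z), mass_sub' fd, mass_dlt hq hD hmn.le hA hms,
      mass_dlt hq hD hln.le hA hls]
    congr 1
    simp only [hw, hw']
    by_cases h : IsLp D A
    · rw [if_pos h, if_neg (ard_lp hq hD hA h), if_neg (ard_lp hq hD hA h), sub_zero, sub_zero]
      exact (wtq hθ0 hθ1 q D n).loop A _ h
    · rw [if_neg h]
  rw [e0]
  refine hmaj.trans ?_
  set F : Finset (Finset Ed) := (pcs ω D).filter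
    (Far {()} D (fun _ => hbox (q m) rd) (fun _ => dq K rd)) with hFdef
  obtain ⟨a, ham, ha⟩ := off_pos hq hD ω ((hbox_mono (by omega)).trans (hbox_sub hFd))
    (econ_hbox (by omega)) hmn.le hqd
  have hFF : ∀ A ∈ F, A ∈ pcs ω D ∧ ¬ IsLp D A := fun A hA => by
    rw [hFdef, mem_filter] at hA
    exact ⟨hA.1, hA.2.1⟩
  have hfar := far_neg hq hD (ω := ω) (F := F) (a := a) (b := l) (m := m) (N := Nd)
    (sin_pos' hθ0 hθ1) (by have := cos_half hθ0 hθ1; linarith) hM2
    (ham.trans hmn.le) hln.le hmn.le hFF ?_ ?_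
  · have e1 : ∏ A ∈ F, |w A (if Ard q m A ∧ ¬ Vz (hbox (q m) rd) A then θ else 0)| =
        ∏ A ∈ F, |wB θ (gB θ) q D n A
          (-((if Ard q m A ∧ ¬ Ard q a A then θ else 0) + if Ard q l A then θ else 0))| := by
      refine prod_congr rfl fun A hA => ?_
      obtain ⟨hA', hAl⟩ := hFF A hA
      simp only [hw, hw']
      rw [if_neg hAl]
      congr 2
      by_cases h3 : Ard q a A
      · have h4 := (ha A hA').2 h3
        have h5 : ¬ (Ard q m A ∧ ¬ Ard q a A) := fun h' => h'.2 h3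
        rw [if_pos h4, if_pos h4.1, if_neg h5]
        ring
      · have h6 : ¬ (Ard q m A ∧ ¬ Vz (hbox (q m) rd) A) := fun h' => h3 ((ha A hA').1 h')
        by_cases h4 : Ard q m A
        · have h5 : Ard q m A ∧ ¬ Ard q a A := ⟨h4, h3⟩
          rw [if_neg h6, if_pos h4, if_pos h5]
          ring
        · have h5 : ¬ (Ard q m A ∧ ¬ Ard q a A) := fun h' => h4 h'.1
          rw [if_neg h6, if_neg h4, if_neg h5]
          ring
    rw [e1]
    have k1 : MW θ ^ (bigs D (hbox (q m) rd) (dq K rd) ω).card ≤ MW θ ^ Nd :=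
      pow_le_pow_right₀ hM1 hNd
    have p1 := Real.exp_pos (-(Real.tan θ * Sm fd (dq K rd) ω))
    calc _ ≤ (MW θ ^ Nd * Real.exp (-(Real.tan θ * Sm fd (dq K rd) ω))) *
          MW θ ^ (2 + 2 * Nd) := by
          refine mul_le_mul (mul_le_mul_of_nonneg_right k1 p1.le) hfar
            (prod_nonneg fun _ _ => abs_nonneg _) (by positivity)
      _ = _ := by ring
  · have hsub : (pcs ω D).filter (fun A => ¬ IsLp D A ∧ A ∉ F) ⊆
        bigs D (hbox (q m) rd) (dq K rd) ω := by
      intro A hA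
      rw [mem_filter] at hA
      obtain ⟨hA, hAl, hAF⟩ := hA
      rw [hFdef, mem_filter] at hAF
      have h1 : ¬ Far {()} D (fun _ => hbox (q m) rd) (fun _ => dq K rd) A :=
        fun h' => hAF ⟨hA, h'⟩
      unfold Far at h1
      push Not at h1
      obtain ⟨j, -, h2, h3⟩ := h1 hAl
      exact mem_filter.2 ⟨hA, h2, h3⟩
    exact (card_le_card hsub).trans hNd
  · intro A hA h1 h2 h3
    obtain ⟨hA', hAl⟩ := hFF A hA
    have h5 : Vz (hbox (q m) rd) A := by
      by_contra h'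
      exact h2 ((ha A hA').1 ⟨h1, h'⟩)
    rw [hFdef, mem_filter] at hA
    have h6 := hA.2.2 () (mem_singleton_self _)
    have h7 : Small (dq K rd) A := by
      by_contra h'
      exact h6 ⟨h5, h'⟩
    exact small_not hq hD hSd hFd hFc hR hmn h0d hsep hA' h7 h5 h3

end

end Vale.Agent.P167.QB
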