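import Vale.Agent.P167.QB.Uns1
import Vale.Agent.P167.H174.ND.Base

/-!
# P167, general `q`, block Q-BRIDGE: charges at the base point

`brC2`: the bridge at `q l` for the bump and the point charge `- θ` at `q m`. `brC3`: the bridge at `q l`
for the bump at the base point `q 0` (change of the base point). `k = n` (free polygon).
-/

namespace Vale.Agent.P167.QB

open Finset Filter Topology MeasureTheory Vale.Agent.P167.BR Vale.Agent.P167.FK
open Vale.Agent.P167.E6 (IsPolygon Encloses)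
open Vale.Agent.P167.FKA (Loc Ind ArmDec)
open Vale.Agent.P167.H519 (IsLim)
open Vale.Agent.P167.QX (lo hi exists_xy lo_xy hi_xy wB)
open Vale.Agent.P167.H562.SML
open Vale.Agent.P167.H562.MAJ (bigs Sm Sm_loc core Sc mem_core)
open Vale.Agent.P167.H562.QM

variable {Q : ℝ} {P : Measure Cfg} {D : Finset (ℤ × ℤ)} {η ω : Cfg} {b : ℤ × ℤ} {r R : ℤ} {K θ : ℝ}
  {f g : ℤ × ℤ → ℝ} {σ : ℤ}

/-- **The bridge at `q l`, bump and point charge at `q m`.** -/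
theorem brC2 (hθ0 : 0 < θ) (hθ1 : θ ≤ Real.pi / 3) (hR0 : RSW (2 * Real.cos θ))
    (hP : IsLim (2 * Real.cos θ) P) (hK : 1 ≤ K) :
    ∃ (r0 : ℝ) (Λ : ℤ) (α C : ℝ), 1 ≤ r0 ∧ 1 ≤ Λ ∧ 0 < α ∧ 0 < C ∧
    ∀ (n : ℕ) (q : ZMod n → ℤ × ℤ) (D : Finset (ℤ × ℤ)), IsPolygon q → Encloses q D →
    ∀ (η : Cfg) (l m : ℕ) (rc R₁ R₂ R₃ rd : ℤ) (fc fd : ℤ × ℤ → ℝ),
      Good η → m < n → l < n → (l : ℤ) + R₃ ≤ n → r0 ≤ rc → r0 ≤ rd →
      4 * rc + 2 ≤ R₁ → Λ * R₁ ≤ R₂ → R₂ + 4 ≤ R₃ →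
      FltQ D η (q l) R₃ false false → FltQ D η (q m) (2 * rd) false false →
      q 0 ∉ sites (hbox (q l) R₃) → q 0 ∉ sites (hbox (q m) (2 * rd)) →
      Disjoint (hbox (q m) (2 * rd)) (hbox (q l) R₃) →
      Bq' θ K (q l) rc fc → Bq' θ K (q m) rd fd →
      |Ex (2 * Real.cos θ) D η (XG θ q D n (fun z => (fd z - dlt (q m) θ z) - fc z)) -
        zC θ (q l) rc R₁ R₂ fc * Ex (2 * Real.cos θ) D η
          (XG θ q D n (fun z => (fd z - dlt (q m) θ z) - dlt (q l) θ z))| ≤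
        C * (((rc : ℝ) / R₁) ^ α + ((R₁ : ℝ) / R₂) ^ α + ((R₂ : ℝ) / R₃) ^ α) *
          (Nf θ K P rc / Nf θ K P rd) := by
  classical
  have hQ := two_cos hθ0 hθ1
  have hQ0 : 0 < 2 * Real.cos θ := by linarith
  obtain ⟨t0, t2⟩ := H562.QM.tan_bd hθ0 hθ1
  have hM2 := two_le_MW hθ0 hθ1
  have hM3 : (1 : ℝ) ≤ MW θ ^ 3 := one_le_pow₀ (by linarith)
  obtain ⟨C1, r1, hC1, hr1, h1⟩ := yb_mom hQ hR0 hP hK (MW θ ^ 3) 1 hM3 zero_le_one
  obtain ⟨Λ, α, C, hΛ, hα, hC, h2⟩ := asmC hθ0 hθ1 hR0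
  refine ⟨r1, Λ, α, C * MW θ ^ 2 * C1 * C1, hr1, hΛ, hα, by positivity,
    fun n q D hq hD η l m rc R₁ R₂ R₃ rd fc fd hη hmn hln hk hrc hrd hR1 hR2 hR3 hFc hFd h0c
      h0d hdis hfc hfd => ?_⟩
  obtain ⟨hSc, h1c⟩ := h1 rc hrc
  obtain ⟨hSd, h1d⟩ := h1 rd hrd
  obtain ⟨Nc, hNc1, hNc2, hNc3⟩ := h1c (q l)
  obtain ⟨Nd, hNd1, hNd2, hNd3⟩ := h1d (q m)
  have hrc8 := hSc.r8
  have hrd8 := hSd.r8
  have hΛR : R₁ ≤ R₂ := by nlinarith
  have hFc' : Flt D (q l) R₃ := flt_of hFc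
  have hFc2 : Flt D (q l) (2 * rc) := hFc'.mono (by omega)
  have hFd' : Flt D (q m) (2 * rd) := flt_of hFd
  have h0c2 : q 0 ∉ sites (hbox (q l) (2 * rc)) := fun h => h0c (sites_mono (hbox_mono (by omega)) h)
  set Yc : Cfg → ℝ := YQ (MW θ ^ 3) (Real.tan θ) Nc (-fc) (dq K rc) with hYc
  set Yd : Cfg → ℝ := YQ (MW θ ^ 3) (Real.tan θ) Nd fd (dq K rd) with hYd
  have hYc0 : ∀ ω, 0 ≤ Yc ω := fun ω => (YQ_pos (by positivity) _ _ _ _ _).le
  have hYd0 : ∀ ω, 0 ≤ Yd ω := fun ω => (YQ_pos (by positivity) _ _ _ _ _).le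
  have hnf : ∀ z, |(-fc) z| ≤ K / (rc : ℝ) ^ 2 := fun z => by
    rw [Pi.neg_apply, abs_neg]; exact hfc.abs_le z
  have hqls : q l ∈ sites D := sites_mono (hbox_sub hFc') (by
    rw [mem_sites_hbox (by omega)]; omega)
  have hqms : q m ∈ sites D := sites_mono (hbox_sub hFd') (by
    rw [mem_sites_hbox (by omega)]; omega)
  have hmain := h2 n q D hq hD η n l rc R₁ R₂ R₃ fc (fun z => fd z - dlt (q m) θ z) Yc Yd
    (C1 * Nf θ K P rc) (MW θ ^ 2) hη hln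
    (by omega) hR1 hR2 hR3 hFc h0c hk hfc.nonneg
    (fun z hz => sites_mono hSc.core_sub (hfc.supp z hz)) hfc.sum
    (fun ζ A hA hI => ?_)
    (mul_nonneg hC1.le (Nf_pos _ _ _ _).le) (by positivity) hYc0 hYd0 ?_ ?_ ?_ ?_ ?_
  · refine hmain.trans ?_
    -- the expectation of the majorant at `d`
    have h3 := hNd3 D η false false hη hFd fd hfd.abs_le hfd.supp (fun _ => 1)
      (fun _ => zero_le_one) (fun _ _ _ => rfl) (Real.tan θ) 1 t0 t2 zero_le_one le_rfl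
    simp only [one_mul, Real.rpow_one] at h3
    rw [FKA.Ex_const hQ0, hfd.sum, mul_one] at h3
    have h4 : Real.exp (-(Real.tan θ * θ * NbP P (dq K rd))) = 1 / Nf θ K P rd := by
      unfold Nf
      rw [Real.exp_neg, one_div]
    rw [h4] at h3
    have h5 : (0 : ℝ) ≤ ((rc : ℝ) / R₁) ^ α + ((R₁ : ℝ) / R₂) ^ α + ((R₂ : ℝ) / R₃) ^ α := by
      have e1 : (0 : ℝ) ≤ rc := by exact_mod_cast (by omega : (0 : ℤ) ≤ rc)
      have e2 : (0 : ℝ) ≤ R₁ := by exact_mod_cast (by omega : (0 : ℤ) ≤ R₁)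
      have e3 : (0 : ℝ) ≤ R₂ := by exact_mod_cast (by omega : (0 : ℤ) ≤ R₂)
      have e4 : (0 : ℝ) ≤ R₃ := by exact_mod_cast (by omega : (0 : ℤ) ≤ R₃)
      positivity
    have h6 := Nf_pos θ K P rc
    calc C * (((rc : ℝ) / R₁) ^ α + ((R₁ : ℝ) / R₂) ^ α + ((R₂ : ℝ) / R₃) ^ α) * MW θ ^ 2 *
          (C1 * Nf θ K P rc) * Ex (2 * Real.cos θ) D η Yd
        ≤ C * (((rc : ℝ) / R₁) ^ α + ((R₁ : ℝ) / R₂) ^ α + ((R₂ : ℝ) / R₃) ^ α) * MW θ ^ 2 *
          (C1 * Nf θ K P rc) * (C1 * (1 / Nf θ K P rd)) :=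
          mul_le_mul_of_nonneg_left h3 (by positivity)
      _ = _ := by ring
  · -- the inner pieces
    rw [mass_sub', (mass_far' hq hD (m := m) (rm := rd) (Rm := 2 * rd) hln hmn hFd' hFc'
      (by omega) (by omega) (by omega) hdis h0c
      (fun z hz => sites_mono hSd.core_sub (hfd.supp z hz)) hI).1, zero_sub,
      mass_dlt hq hD hmn.le hA hqms, if_neg, neg_zero]
    intro ha
    have hAl : ¬ IsLp D A := fun h' => ard_lp hq hD hA h' ha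
    obtain ⟨x, y, g1, g2, g3, g4, g5, -⟩ := inn_xy hq hD hFc' (by omega) hln h0c hA
      (fun e he => (hI e he).1) (fun e he => (hI e he).2) hAl
    have hfar := far_index hq hD hFd' hFc' (by omega) (by omega) hdis
    unfold Ard at ha
    rw [lo_xy hq hD hA g1, hi_xy hq hD hA g1] at ha
    omega
  · intro ω ω' hw
    refine YQ_reads hSd hNd1 hfd.supp fun v hv => hw v fun hv' => ?_
    have hvD : v ∈ D := hbox_sub hFc' hv'
    exact Finset.disjoint_left.1 hdis (near_hbox hFd hvD hv) hv'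
  · intro D' η' hF' hη' G hG0 hG
    have h3 := hNc3 D' η' false false hη' (fltQ_mn hF' (by omega)) (-fc) hnf hfc.neg_supp G hG0
      (fun ω ω' hw => hG ω ω' fun v hv => hw v fun hv' => hv (hbox_mono (by omega) hv'))
      (Real.tan θ) 1 t0 t2 zero_le_one le_rfl
    simp only [Real.rpow_one] at h3
    rw [hfc.neg_sum] at h3
    refine h3.trans (le_of_eq ?_)
    unfold Nf
    congr 3
    ring
  · intro ω
    have h3 := FL_le (θ := θ) (σ := -1) hθ0 hθ1 hSc (R := R₁) (by omega) (Or.inr rfl) hnf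
      hfc.neg_supp (hNc2 ω)
    refine (le_abs_self _).trans (h3.trans ?_)
    rw [hYc, YQ]
    refine mul_le_mul_of_nonneg_left (mul_le_mul_of_nonneg_right ?_ (Real.exp_pos _).le)
      (by norm_num)
    rw [← pow_mul]
    exact pow_le_pow_right₀ (by linarith) (by omega)
  · intro ω
    exact maj4 hq hD hθ0 hθ1 hln hmn hSd hSc hFd' hFc2 h0d h0c2
      (hdis.mono_right (hbox_mono (by omega))) hfd.abs_le hfc.abs_le hfd.supp hfc.supp hfd.sum hfc.sum ω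
      (hNd2 ω D) (hNc2 ω D)
  · intro ω
    exact maj5 hq hD hθ0 hθ1 hln hmn hSd hFd' hFc' (by omega) h0d hdis hfd.abs_le hfd.supp
      hfd.sum ω (hNd2 ω D)

end Vale.Agent.P167.QB
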