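import Vale.Agent.P167.QB.Uns2

/-!
# P167, general `q`, block Q-BRIDGE: the bump at the base point

`brC3`: the bridge at `q l` for the bump `fp` at the base point `q 0`; `k = n` (free polygon).
-/

namespace Vale.Agent.P167.QB

open Finset Filter Topology MeasureTheory Vale.Agent.P167.BR Vale.Agent.P167.FK
open Vale.Agent.P167.E6 (IsPolygon Encloses)
open Vale.Agent.P167.FKA (Loc Ind ArmDec)
open Vale.Agent.P167.H519 (IsLim)
open Vale.Agent.P167.QX (lo hi exists_xy lo_xy hi_xy wB)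
open Vale.Agent.P167.H562.SML
open Vale.Agent.P167.H562.MAJ (bigs Sm Sm_loc core Sc mem_core)
open Vale.Agent.P167.H562.QM
open Vale.Agent.P167.H174.ND (poly_rot encl_rot s_base)

variable {Q : ℝ} {P : Measure Cfg} {D : Finset (ℤ × ℤ)} {η ω : Cfg} {b : ℤ × ℤ} {r R : ℤ} {K θ : ℝ}
  {f g : ℤ × ℤ → ℝ} {σ : ℤ} {n : ℕ} {q : ZMod n → ℤ × ℤ}

theorem sum_dlt {b : ℤ × ℤ} (hb : b ∈ sites D) (t : ℝ) : ∑ z ∈ sites D, dlt b t z = t := by
  classical
  unfold dlt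
  rw [sum_ite_eq', if_pos hb]

theorem fin_sites (hf : ∀ z, f z ≠ 0 → z ∈ sites D) : ∑ᶠ z, f z = ∑ z ∈ sites D, f z :=
  (sum_sites (Subset.refl D) hf).symm

/-- The functional depends on the masses only. -/
theorem XG_congr {k : ℕ} (h : ∀ A ∈ pcs ω D, mass D (q 0) f A = mass D (q 0) g A) :
    XG θ q D k f ω = XG θ q D k g ω := by
  unfold XG QX.XB
  exact prod_congr rfl fun A hA => by rw [h A hA]

/-- The change of the base point for the functional with a bump at the old base point. -/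
theorem base_ch (hq : IsPolygon q) (hD : Encloses q D) (hθ0 : 0 < θ) (hθ1 : θ < Real.pi / 2)
    {q' : ZMod n → ℤ × ℤ} {j m : ℕ} (hj0 : 0 < j) (hjn : j < n) (hm : m + j = n)
    (hqq : ∀ i : ZMod n, q' i = q (i + j)) :
    ∃ s : ℤ, (s = 0 ∨ s = 1 ∨ s = -1) ∧ ∀ fp g : ℤ × ℤ → ℝ, (∀ z, fp z ≠ 0 → z ∈ sites D) →
      (∀ z, g z ≠ 0 → z ∈ sites D) → ∑ᶠ z, fp z = θ → ∑ᶠ z, g z = θ → ∀ ω : Cfg,
      XG θ q D n (fun z => fp z - g z) ω = (2 * Real.cos θ) ^ s *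
        XG θ q' D n (fun z => (fp z - dlt (q' m) θ z) - g z) ω := by
  classical
  have hq' : IsPolygon q' := poly_rot hq hqq
  have hD' : Encloses q' D := encl_rot hD hqq
  obtain ⟨s, hs, -, h1⟩ := s_base hθ0 hθ1 n q q' D j hq hD hj0 hjn hqq
  refine ⟨s, hs, fun fp g hfp hg hsp hsg ω => ?_⟩
  have hqj : q' 0 ∈ sites D := XDL.base_mem hq' hD'
  have hq0 := XDL.base_mem hq hD
  have e0 : q j = q' 0 := by rw [hqq, zero_add]
  have hqm : q 0 = q' m := by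
    rw [hqq, ← Nat.cast_add, hm, ZMod.natCast_self]
  rw [e0, hqm] at h1
  have hsup : ∀ z, (fp z - g z) + dlt (q' 0) θ z ≠ 0 → z ∈ sites D := by
    intro z hz
    by_cases h2 : z = q' 0
    · rw [h2]; exact hqj
    · rw [dlt, if_neg h2, add_zero] at hz
      by_cases h3 : fp z = 0
      · rw [h3, zero_sub, neg_ne_zero] at hz
        exact hg z hz
      · exact hfp z h3
  have htot : ∑ᶠ z, ((fp z - g z) + dlt (q' 0) θ z) = θ := by
    rw [fin_sites hsup, sum_add_distrib, sum_sub_distrib, ← fin_sites hfp, ← fin_sites hg,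
      sum_dlt hqj, hsp, hsg]
    ring
  have h2 := h1 (fun z => (fp z - g z) + dlt (q' 0) θ z) hsup htot ω
  have e1 : (fun z => (fp z - g z) + dlt (q' 0) θ z + dlt (q' 0) (-θ) z) =
      fun z => fp z - g z := by
    funext z
    unfold dlt
    split_ifs <;> ring
  rw [e1] at h2
  rw [h2]
  congr 1
  refine XG_congr fun A hA => ?_
  have e2 : mass D (q' 0) (dlt (q' 0) θ) A = 0 := by
    have h3 := mass_dlt (l := 0) hq' hD' (Nat.zero_le n) hA (by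
      rw [Nat.cast_zero]; exact hqj) θ
    rw [Nat.cast_zero] at h3
    have h4 : ¬ Ard q' 0 A := fun h => absurd h.1 (Nat.not_lt_zero _)
    rw [if_neg h4] at h3
    exact h3
  have e3 : (fun z => (fp z - g z) + dlt (q' 0) θ z + dlt (q' m) (-θ) z) =
      fun z => ((fp z - dlt (q' m) θ z) - g z) - (-(dlt (q' 0) θ z)) := by
    funext z
    unfold dlt
    split_ifs <;> ring
  rw [e3, mass_sub' _ (fun z => -(dlt (q' 0) θ z))]
  have e4 : mass D (q' 0) (fun z => -(dlt (q' 0) θ z)) A = 0 := by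
    have h5 : mass D (q' 0) (-(dlt (q' 0) θ)) A = -mass D (q' 0) (dlt (q' 0) θ) A := mass_neg
    rw [e2, neg_zero] at h5
    exact h5
  rw [e4, sub_zero]

/-- **The bridge at `q l`, bump at the base point.** -/
theorem brC3 (hθ0 : 0 < θ) (hθ1 : θ ≤ Real.pi / 3) (hR0 : RSW (2 * Real.cos θ))
    (hP : IsLim (2 * Real.cos θ) P) (hK : 1 ≤ K) :
    ∃ (r0 : ℝ) (Λ : ℤ) (α C : ℝ), 1 ≤ r0 ∧ 1 ≤ Λ ∧ 0 < α ∧ 0 < C ∧
    ∀ (n : ℕ) (q : ZMod n → ℤ × ℤ) (D : Finset (ℤ × ℤ)), IsPolygon q → Encloses q D →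
    ∀ (η : Cfg) (l : ℕ) (rc R₁ R₂ R₃ rp : ℤ) (fc fp : ℤ × ℤ → ℝ),
      Good η → l ≤ n → r0 ≤ rc → r0 ≤ rp → 4 * rc + 2 ≤ R₁ → Λ * R₁ ≤ R₂ → R₂ + 6 ≤ R₃ →
      FltQ D η (q l) R₃ false false → FltQ D η (q 0) (2 * rp) false false →
      Disjoint (hbox (q 0) (2 * rp)) (hbox (q l) R₃) →
      Bq' θ K (q l) rc fc → Bq' θ K (q 0) rp fp →
      |Ex (2 * Real.cos θ) D η (XG θ q D n (fun z => fp z - fc z)) -
        zC θ (q l) rc R₁ R₂ fc *
          Ex (2 * Real.cos θ) D η (XG θ q D n (fun z => fp z - dlt (q l) θ z))| ≤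
        C * (((rc : ℝ) / R₁) ^ α + ((R₁ : ℝ) / R₂) ^ α + ((R₂ : ℝ) / R₃) ^ α) *
          (Nf θ K P rc / Nf θ K P rp) := by
  classical
  have hQ := two_cos hθ0 hθ1
  have hQ0 : 0 < 2 * Real.cos θ := by linarith
  obtain ⟨r0, Λ, α, C, hr0, hΛ, hα, hC, h⟩ := brC2 hθ0 hθ1 hR0 hP hK
  obtain ⟨C1, r1, -, -, h1⟩ := yb_mom hQ hR0 hP hK 1 1 le_rfl zero_le_one
  refine ⟨max r0 r1, Λ, α, 2 * C * 2 ^ α, hr0.trans (le_max_left _ _), hΛ, hα, by positivity,
    fun n q D hq hD η l rc R₁ R₂ R₃ rp fc fp hη hln hrc hrp hR1 hR2 hR3 hFc hFp hdis hfc hfp => ?_⟩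
  obtain ⟨hSc, -⟩ := h1 rc ((le_max_right _ _).trans hrc)
  obtain ⟨hSp, -⟩ := h1 rp ((le_max_right _ _).trans hrp)
  replace hrc := (le_max_left _ _).trans hrc
  replace hrp := (le_max_left _ _).trans hrp
  have hr1 : (1 : ℝ) ≤ rc := hr0.trans hrc
  have hr1' : 1 ≤ rc := by exact_mod_cast hr1
  have hr2 : 1 ≤ rp := by exact_mod_cast hr0.trans hrp
  have hR12 : R₁ ≤ R₂ := by nlinarith
  have hFc' := flt_of hFc
  have hFp' := flt_of hFp
  have hn0 : q ((0 : ℕ) : ZMod n) = q 0 := by rw [Nat.cast_zero]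
  have hnn : q ((n : ℕ) : ZMod n) = q 0 := by rw [ZMod.natCast_self]
  have f1 : ((0 : ℕ) : ℤ) ≤ l - R₃ ∨ (l : ℤ) + R₃ ≤ (0 : ℕ) :=
    far_index hq hD (k := 0) (Ra := 2 * rp) (Rb := R₃) (by rw [hn0]; exact hFp') hFc' (by omega)
      (by omega) (by rw [hn0]; exact hdis)
  have f2 : ((n : ℕ) : ℤ) ≤ l - R₃ ∨ (l : ℤ) + R₃ ≤ (n : ℕ) :=
    far_index hq hD (k := n) (Ra := 2 * rp) (Rb := R₃) (by rw [hnn]; exact hFp') hFc' (by omega)
      (by omega) (by rw [hnn]; exact hdis)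
  have hl1 : R₃ ≤ l := by omega
  have hl2 : (l : ℤ) + R₃ ≤ n := by omega
  -- the new base point
  obtain ⟨t, ht⟩ : ∃ t : ℕ, (t : ℤ) = R₃ - 1 := ⟨(R₃ - 1).toNat, by omega⟩
  set j : ℕ := l + t with hj
  obtain ⟨m, hm⟩ : ∃ m : ℕ, m + j = n := ⟨n - j, by omega⟩
  set q' : ZMod n → ℤ × ℤ := fun i => q (i + j) with hq'def
  have hqq : ∀ i : ZMod n, q' i = q (i + j) := fun _ => rfl
  have hq' : IsPolygon q' := poly_rot hq hqq
  have hD' : Encloses q' D := encl_rot hD hqq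
  obtain ⟨s, hs, hbase⟩ := base_ch hq hD hθ0 (by linarith [Real.pi_pos]) (by omega) (by omega) hm hqq
  have hqm : q' m = q 0 := by
    rw [hqq, ← Nat.cast_add, hm, ZMod.natCast_self]
  have hql : q' ((m + l : ℕ) : ZMod n) = q l := by
    rw [hqq, ← Nat.cast_add]
    have : m + l + j = l + n := by omega
    rw [this, Nat.cast_add, ZMod.natCast_self, add_zero]
  have hq0 : q' 0 = q l + ((t : ℤ), 0) := by
    rw [hqq, zero_add, hj, Nat.cast_add]
    exact (walk hq hD hFc' t (by omega)).1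
  have hb1 : q' 0 ∉ sites (hbox (q l) (R₃ - 2)) := by
    rw [mem_sites_hbox (by omega), hq0]
    simp only [Prod.fst_add]
    omega
  have hb2 : q' 0 ∉ sites (hbox (q 0) (2 * rp)) := by
    intro hcon
    obtain ⟨v, hv, hv1, hv2⟩ := mem_sites.1 hcon
    have hvD : v ∈ D := hbox_sub hFp' hv
    rw [hq0] at hv1 hv2
    simp only [Prod.fst_add, Prod.snd_add] at hv1 hv2
    have h3 := (hFc' v (by omega) (by omega) (by omega) (by omega)).1 hvD
    exact Finset.disjoint_left.1 hdis hv (by rw [mem_hbox]; omega)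
  have hsup1 : ∀ z, fp z ≠ 0 → z ∈ sites D := fun z hz =>
    sites_mono (hSp.core_sub.trans ((hbox_mono (by omega)).trans (hbox_sub hFp'))) (hfp.supp z hz)
  have hsup2 : ∀ z, fc z ≠ 0 → z ∈ sites D := fun z hz =>
    sites_mono (hSc.core_sub.trans ((hbox_mono (by omega)).trans (hbox_sub hFc'))) (hfc.supp z hz)
  have hls : q l ∈ sites D := sites_mono (hbox_sub hFc') (by
    rw [mem_sites_hbox (by omega)]; omega)
  have hsup3 : ∀ z, dlt (q l) θ z ≠ 0 → z ∈ sites D := by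
    intro z hz
    by_cases h2 : z = q l
    · rw [h2]; exact hls
    · rw [dlt, if_neg h2] at hz
      exact absurd rfl hz
  have htot3 : ∑ᶠ z, dlt (q l) θ z = θ := by rw [fin_sites hsup3, sum_dlt hls]
  have e1 : Ex (2 * Real.cos θ) D η (XG θ q D n (fun z => fp z - fc z)) =
      (2 * Real.cos θ) ^ s * Ex (2 * Real.cos θ) D η
        (XG θ q' D n (fun z => (fp z - dlt (q' m) θ z) - fc z)) := by
    rw [← FKA.Ex_mul_left]
    congr 1
    funext ω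
    exact hbase fp fc hsup1 hsup2 hfp.sum hfc.sum ω
  have e2 : Ex (2 * Real.cos θ) D η (XG θ q D n (fun z => fp z - dlt (q l) θ z)) =
      (2 * Real.cos θ) ^ s * Ex (2 * Real.cos θ) D η
        (XG θ q' D n (fun z => (fp z - dlt (q' m) θ z) - dlt (q l) θ z)) := by
    rw [← FKA.Ex_mul_left]
    congr 1
    funext ω
    exact hbase fp (dlt (q l) θ) hsup1 hsup3 hfp.sum htot3 ω
  have h2 := h n q' D hq' hD' η (m + l) m rc R₁ R₂ (R₃ - 2) rp fc fp hη (by omega) (by omega)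
    (by push_cast; omega) hrc hrp hR1 hR2 (by omega) (by rw [hql]; exact fltQ_mn hFc (by omega))
    (by rw [hqm]; exact hFp) (by rw [hql]; exact hb1) (by rw [hqm]; exact hb2)
    (by rw [hql, hqm]; exact hdis.mono_right (hbox_mono (by omega)))
    (by rw [hql]; exact hfc) (by rw [hqm]; exact hfp)
  rw [hql] at h2
  have hc2 : (0 : ℝ) < (2 * Real.cos θ) ^ s := zpow_pos hQ0 _
  have hc3 : (2 * Real.cos θ) ^ s ≤ 2 := by
    have hc1 := Real.cos_le_one θ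
    rcases hs with h3 | h3 | h3
    · rw [h3, zpow_zero]; norm_num
    · rw [h3, zpow_one]; linarith
    · rw [h3, zpow_neg_one]
      exact (inv_le_one_of_one_le₀ hQ).trans (by norm_num)
  rw [e1, e2, mul_left_comm, ← mul_sub, abs_mul, abs_of_pos hc2]
  refine (mul_le_mul hc3 h2 (abs_nonneg _) (by norm_num)).trans ?_
  have hb1 : (0 : ℝ) < R₁ := by exact_mod_cast (by omega : 0 < R₁)
  have hb2 : (0 : ℝ) < R₂ := by exact_mod_cast (by omega : 0 < R₂)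
  have hb3 : (0 : ℝ) < R₃ := by exact_mod_cast (by omega : 0 < R₃)
  have hb4 : (0 : ℝ) < ((R₃ - 2 : ℤ) : ℝ) := by exact_mod_cast (by omega : 0 < R₃ - 2)
  have g3 : ((R₂ : ℝ) / ((R₃ - 2 : ℤ) : ℝ)) ^ α ≤ 2 ^ α * ((R₂ : ℝ) / R₃) ^ α := by
    rw [← Real.mul_rpow (by norm_num) (by positivity)]
    refine Real.rpow_le_rpow (div_nonneg hb2.le hb4.le) ?_ hα.le
    rw [mul_div_assoc', div_le_div_iff₀ hb4 hb3]
    have h5 : (R₃ : ℝ) ≤ 2 * ((R₃ - 2 : ℤ) : ℝ) := by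
      exact_mod_cast (by omega : R₃ ≤ 2 * (R₃ - 2))
    nlinarith
  have g2 : (1 : ℝ) ≤ 2 ^ α := Real.one_le_rpow (by norm_num) hα.le
  set x1 : ℝ := ((rc : ℝ) / R₁) ^ α with hx1'
  set x2 : ℝ := ((R₁ : ℝ) / R₂) ^ α with hx2'
  set x3 : ℝ := ((R₂ : ℝ) / R₃) ^ α with hx3'
  have hr0' : (0 : ℝ) < rc := by linarith
  have hx1 : 0 ≤ x1 := Real.rpow_nonneg (by positivity) _
  have hx2 : 0 ≤ x2 := Real.rpow_nonneg (by positivity) _
  have hN : 0 ≤ Nf θ K P rc / Nf θ K P rp := (div_pos (Nf_pos _ _ _ _) (Nf_pos _ _ _ _)).le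
  have k1 : x1 + x2 + ((R₂ : ℝ) / ((R₃ - 2 : ℤ) : ℝ)) ^ α ≤ 2 ^ α * (x1 + x2 + x3) := by
    nlinarith
  have k2 := mul_le_mul_of_nonneg_left k1 (mul_nonneg (mul_nonneg (by norm_num : (0 : ℝ) ≤ 2) hC.le)
    hN)
  calc _ = 2 * C * (Nf θ K P rc / Nf θ K P rp) *
        (x1 + x2 + ((R₂ : ℝ) / ((R₃ - 2 : ℤ) : ℝ)) ^ α) := by ring
    _ ≤ _ := k2
    _ = _ := by ring

end Vale.Agent.P167.QB
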