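import Vale.Agent.P167.QB.Uns3

/-!
# P167, general `q`, block Q-BRIDGE: one one-point function

`zC_cmp`: comparison of the one-point functions of different
scales. `zS θ b r f = zC θ b r (r ^ 2) (r ^ 3) f`: the one-point function without radii. `uns`, `brC'`: the
bridge with `zS`.
-/

namespace Vale.Agent.P167.QB

open Finset Filter Topology MeasureTheory Vale.Agent.P167.BR Vale.Agent.P167.FK
open Vale.Agent.P167.E6 (IsPolygon Encloses dir face)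
open Vale.Agent.P167.FKA (Loc Ind ArmDec)
open Vale.Agent.P167.H519 (IsLim)
open Vale.Agent.P167.H562.SML
open Vale.Agent.P167.H562.MAJ (bigs Sm Sm_loc core Sc mem_core)
open Vale.Agent.P167.H562.QM
open Vale.Agent.P167.H174.ND (poly_rot encl_rot s_base)

variable {Q : ℝ} {P : Measure Cfg} {D : Finset (ℤ × ℤ)} {η ω : Cfg} {b : ℤ × ℤ} {r R : ℤ} {K θ : ℝ}
  {f g : ℤ × ℤ → ℝ} {σ : ℤ}

theorem Bq'.neg_abs (h : Bq' θ K b r f) (z : ℤ × ℤ) : |(-f) z| ≤ K / (r : ℝ) ^ 2 := by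
  rw [Pi.neg_apply, abs_neg]
  exact h.abs_le z

/-- **Comparison of the one-point functions of different scales.** -/
theorem zC_cmp (hθ0 : 0 < θ) (hθ1 : θ ≤ Real.pi / 3) (hR0 : RSW (2 * Real.cos θ))
    (hP : IsLim (2 * Real.cos θ) P) (hK : 1 ≤ K) :
    ∃ (r0 : ℝ) (Λ : ℤ) (α C : ℝ), 1 ≤ r0 ∧ 1 ≤ Λ ∧ 0 < α ∧ 0 < C ∧
    ∀ (b : ℤ × ℤ) (r R₁ R₂ R₁' R₂' : ℤ) (f : ℤ × ℤ → ℝ), r0 ≤ r → 4 * r + 2 ≤ R₁ → Λ * R₁ ≤ R₂ →
      R₁ ≤ R₁' → R₂ ≤ R₂' → R₁' < R₂' → Bq' θ K b r f →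
      |zC θ b r R₁ R₂ f - zC θ b r R₁' R₂' f| ≤
        C * (((r : ℝ) / R₁) ^ α + ((R₁ : ℝ) / R₂) ^ α) * Nf θ K P r := by
  have hQ := two_cos hθ0 hθ1
  have hQ0 : 0 < 2 * Real.cos θ := by linarith
  obtain ⟨t0, t2⟩ := H562.QM.tan_bd hθ0 hθ1
  have hM2 := two_le_MW hθ0 hθ1
  obtain ⟨C1, r1, hC1, hr1, h1⟩ := yb_mom hQ hR0 hP hK (MW θ) 1 (by linarith) zero_le_one
  obtain ⟨Λ, α, C, hΛ, hα, hC, h2⟩ := zC_comp hθ0 hθ1 hR0
  refine ⟨r1, Λ, α, C * C1, hr1, hΛ, hα, by positivity,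
    fun b r R₁ R₂ R₁' R₂' f hr hR1 hR2 h11 h22 h12 hf => ?_⟩
  obtain ⟨hS, h1⟩ := h1 r hr
  obtain ⟨N, hN1, hN2, hN3⟩ := h1 b
  have hr8 := hS.r8
  obtain ⟨n, q, l, hq, hD, hl1, hql, hq0⟩ := hpoly b (R := 2 * R₁') (by omega)
  have hmain := h2 n q (hbox b (2 * R₁')) hq hD (l + R₁'.toNat) l r R₁ R₂ R₁' R₂' f
    (YQ (MW θ) (Real.tan θ) N (-f) (dq K r)) (C1 * Nf θ K P r) hl1 (by omega) hR1 hR2 h11 h22 h12
    (by rw [hql]; exact flt_hbox (by omega))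
    (by rw [hql, hq0]; exact top_notin (by omega)) (by push_cast; omega) hf.nonneg
    (fun z hz => by rw [hql]; exact sites_mono hS.core_sub (hf.supp z hz)) hf.sum
    (mul_nonneg hC1.le (Nf_pos _ _ _ _).le)
    (fun ω => (YQ_pos (by positivity) _ _ _ _ _).le) ?_ ?_ ?_
  · rw [hql] at hmain
    refine hmain.trans (le_of_eq ?_)
    ring
  · rw [hql]
    intro D' η' hF' hη' G hG0 hG
    have h3 := hN3 D' η' false false hη' (fltQ_mn hF' (by omega)) (-f) hf.neg_abs hf.neg_supp G hG0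
      (fun ω ω' hw => hG ω ω' fun v hv => hw v fun hv' => hv (hbox_mono (by omega) hv'))
      (Real.tan θ) 1 t0 t2 zero_le_one le_rfl
    simp only [Real.rpow_one] at h3
    rw [hf.neg_sum] at h3
    refine h3.trans (le_of_eq ?_)
    unfold Nf
    congr 3
    ring
  · rw [hql]
    intro ω
    exact (le_abs_self _).trans (FL_le (θ := θ) (σ := -1) hθ0 hθ1 hS (R := R₁) (by omega)
      (Or.inr rfl) hf.neg_abs hf.neg_supp (hN2 ω))
  · rw [hql]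
    intro ω
    exact (le_abs_self _).trans (FL_le (θ := θ) (σ := -1) hθ0 hθ1 hS (R := R₁') (by omega)
      (Or.inr rfl) hf.neg_abs hf.neg_supp (hN2 ω))

theorem dlt_supp {n : ℕ} {q : ZMod n → ℤ × ℤ} {l : ℕ} (hls : q l ∈ sites D) (z : ℤ × ℤ)
    (hz : dlt (q l) θ z ≠ 0) : z ∈ sites D := by
  by_cases h2 : z = q l
  · rw [h2]; exact hls
  · rw [dlt, if_neg h2] at hz
    exact absurd rfl hz

/-- The change of the base point. -/
theorem base_geo {n : ℕ} {q : ZMod n → ℤ × ℤ} {l : ℕ} {rp : ℤ} (hq : IsPolygon q) (hD : Encloses q D)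
    (hθ0 : 0 < θ) (hθ1 : θ ≤ Real.pi / 3) (hln : l ≤ n) (hR : 2 ≤ R) (hrp : 1 ≤ rp)
    (hFc : Flt D (q l) R) (hFp : Flt D (q 0) (2 * rp))
    (hdis : Disjoint (hbox (q 0) (2 * rp)) (hbox (q l) R)) :
    ∃ (q' : ZMod n → ℤ × ℤ) (m l' : ℕ), IsPolygon q' ∧ Encloses q' D ∧ m < n ∧ l' < n ∧
      q' m = q 0 ∧ q' l' = q l ∧ q' 0 ∉ sites (hbox (q 0) (2 * rp)) ∧
    ∃ s : ℤ, (s = 0 ∨ s = 1 ∨ s = -1) ∧ ∀ fp g : ℤ × ℤ → ℝ, (∀ z, fp z ≠ 0 → z ∈ sites D) →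
      (∀ z, g z ≠ 0 → z ∈ sites D) → ∑ᶠ z, fp z = θ → ∑ᶠ z, g z = θ → ∀ ω : Cfg,
      XG θ q D n (fun z => fp z - g z) ω = (2 * Real.cos θ) ^ s *
        XG θ q' D n (fun z => (fp z - dlt (q' m) θ z) - g z) ω := by
  have hn0 : q ((0 : ℕ) : ZMod n) = q 0 := by rw [Nat.cast_zero]
  have hnn : q ((n : ℕ) : ZMod n) = q 0 := by rw [ZMod.natCast_self]
  have f1 : ((0 : ℕ) : ℤ) ≤ l - R ∨ (l : ℤ) + R ≤ (0 : ℕ) :=
    far_index hq hD (k := 0) (Ra := 2 * rp) (Rb := R) (by rw [hn0]; exact hFp) hFc (by omega)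
      (by omega) (by rw [hn0]; exact hdis)
  have f2 : ((n : ℕ) : ℤ) ≤ l - R ∨ (l : ℤ) + R ≤ (n : ℕ) :=
    far_index hq hD (k := n) (Ra := 2 * rp) (Rb := R) (by rw [hnn]; exact hFp) hFc (by omega)
      (by omega) (by rw [hnn]; exact hdis)
  have hl1 : R ≤ l := by omega
  have hl2 : (l : ℤ) + R ≤ n := by omega
  obtain ⟨t, ht⟩ : ∃ t : ℕ, (t : ℤ) = R - 1 := ⟨(R - 1).toNat, by omega⟩
  set j : ℕ := l + t with hj
  obtain ⟨m, hm⟩ : ∃ m : ℕ, m + j = n := ⟨n - j, by omega⟩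
  set q' : ZMod n → ℤ × ℤ := fun i => q (i + j) with hq'def
  have hqq : ∀ i : ZMod n, q' i = q (i + j) := fun _ => rfl
  have hqm : q' m = q 0 := by
    rw [hqq, ← Nat.cast_add, hm, ZMod.natCast_self]
  have hql : q' ((m + l : ℕ) : ZMod n) = q l := by
    rw [hqq, ← Nat.cast_add]
    have : m + l + j = l + n := by omega
    rw [this, Nat.cast_add, ZMod.natCast_self, add_zero]
  have hq0 : q' 0 = q l + ((t : ℤ), 0) := by
    rw [hqq, zero_add, hj, Nat.cast_add]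
    exact (walk hq hD hFc t (by omega)).1
  refine ⟨q', m, m + l, poly_rot hq hqq, encl_rot hD hqq, by omega, by omega, hqm, hql, ?_,
    base_ch hq hD hθ0 (by linarith [Real.pi_pos]) (by omega) (by omega) hm hqq⟩
  intro hcon
  obtain ⟨v, hv, hv1, hv2⟩ := mem_sites.1 hcon
  have hvD : v ∈ D := hbox_sub hFp hv
  rw [hq0] at hv1 hv2
  simp only [Prod.fst_add, Prod.snd_add] at hv1 hv2
  have h3 := (hFc v (by omega) (by omega) (by omega) (by omega)).1 hvD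
  exact Finset.disjoint_left.1 hdis hv (by rw [mem_hbox]; omega)

/-- **The functional with the bump at the base point and a point charge**, upper bound. -/
theorem brB3 (hθ0 : 0 < θ) (hθ1 : θ ≤ Real.pi / 3) (hR0 : RSW (2 * Real.cos θ))
    (hP : IsLim (2 * Real.cos θ) P) (hK : 1 ≤ K) :
    ∃ (r0 C : ℝ), 1 ≤ r0 ∧ 0 < C ∧
    ∀ (n : ℕ) (q : ZMod n → ℤ × ℤ) (D : Finset (ℤ × ℤ)), IsPolygon q → Encloses q D →
    ∀ (η : Cfg) (l : ℕ) (R rp : ℤ) (fp : ℤ × ℤ → ℝ),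
      Good η → l ≤ n → r0 ≤ rp → 2 ≤ R →
      FltQ D η (q l) R false false → FltQ D η (q 0) (2 * rp) false false →
      Disjoint (hbox (q 0) (2 * rp)) (hbox (q l) R) → Bq' θ K (q 0) rp fp →
      Ex (2 * Real.cos θ) D η
        (fun ω => |XG θ q D n (fun z => fp z - dlt (q l) θ z) ω|) ≤ C / Nf θ K P rp := by
  classical
  have hQ := two_cos hθ0 hθ1
  have hQ0 : 0 < 2 * Real.cos θ := by linarith
  obtain ⟨t0, t2⟩ := H562.QM.tan_bd hθ0 hθ1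
  have hM2 := two_le_MW hθ0 hθ1
  have hM3 : (1 : ℝ) ≤ MW θ ^ 3 := one_le_pow₀ (by linarith)
  obtain ⟨C1, r1, hC1, hr1, h1⟩ := yb_mom hQ hR0 hP hK (MW θ ^ 3) 1 hM3 zero_le_one
  refine ⟨r1, 2 * (MW θ ^ 2 * C1), hr1, by positivity,
    fun n q D hq hD η l R rp fp hη hln hrp hR hFc hFp hdis hfp => ?_⟩
  obtain ⟨hSp, h1p⟩ := h1 rp hrp
  obtain ⟨Np, hNp1, hNp2, hNp3⟩ := h1p (q 0)
  have hrp8 := hSp.r8
  have hFc' := flt_of hFc
  have hFp' := flt_of hFp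
  obtain ⟨q', m, l', hq', hD', hm, hl', hqm, hql, hb, s, hs, hbase⟩ :=
    base_geo (θ := θ) hq hD hθ0 hθ1 hln hR (by omega) hFc' hFp' hdis
  have hls : q l ∈ sites D := sites_mono (hbox_sub hFc') (by
    rw [mem_sites_hbox (by omega)]; omega)
  have hc2 : (0 : ℝ) < (2 * Real.cos θ) ^ s := zpow_pos hQ0 _
  have hc3 : (2 * Real.cos θ) ^ s ≤ 2 := by
    have hc1 := Real.cos_le_one θ
    rcases hs with h3 | h3 | h3
    · rw [h3, zpow_zero]; norm_num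
    · rw [h3, zpow_one]; linarith
    · rw [h3, zpow_neg_one]
      exact (inv_le_one_of_one_le₀ hQ).trans (by norm_num)
  have h3 := hNp3 D η false false hη hFp fp hfp.abs_le hfp.supp (fun _ => 1)
    (fun _ => zero_le_one) (fun _ _ _ => rfl) (Real.tan θ) 1 t0 t2 zero_le_one le_rfl
  simp only [one_mul, Real.rpow_one] at h3
  rw [FKA.Ex_const hQ0, hfp.sum, mul_one] at h3
  have h4 : Real.exp (-(Real.tan θ * θ * NbP P (dq K rp))) = 1 / Nf θ K P rp := by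
    unfold Nf
    rw [Real.exp_neg, one_div]
  rw [h4] at h3
  have hpt : ∀ ω, |XG θ q D n (fun z => fp z - dlt (q l) θ z) ω| ≤
      2 * MW θ ^ 2 * YQ (MW θ ^ 3) (Real.tan θ) Np fp (dq K rp) ω := by
    intro ω
    rw [hbase fp (dlt (q l) θ) (fun z hz => sites_mono (hSp.core_sub.trans
      ((hbox_mono (by omega)).trans (hbox_sub hFp'))) (hfp.supp z hz)) (dlt_supp hls) hfp.sum
      (by rw [fin_sites (dlt_supp hls), sum_dlt hls]) ω, abs_mul, abs_of_pos hc2]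
    have h5 := maj5 (R := R) (K := K) (fd := fp) (Nd := Np ω) hq' hD' hθ0 hθ1 hl' hm hSp
      (by rw [hqm]; exact hFp') (by rw [hql]; exact hFc') (by omega) (by rw [hqm]; exact hb)
      (by rw [hql, hqm]; exact hdis) hfp.abs_le (by rw [hqm]; exact hfp.supp) hfp.sum ω
      (by rw [hqm]; exact hNp2 ω D)
    rw [hql] at h5
    refine (mul_le_mul hc3 h5 (abs_nonneg _) (by norm_num)).trans (le_of_eq ?_)
    unfold YQ
    ring
  have h6 : Ex (2 * Real.cos θ) D η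
      (fun ω => |XG θ q D n (fun z => fp z - dlt (q l) θ z) ω|) ≤
      Ex (2 * Real.cos θ) D η
        (fun ω => 2 * MW θ ^ 2 * YQ (MW θ ^ 3) (Real.tan θ) Np fp (dq K rp) ω) :=
    FKA.Ex_mono hQ0 fun S _ => hpt _
  rw [FKA.Ex_mul_left] at h6
  refine h6.trans ?_
  refine (mul_le_mul_of_nonneg_left h3 (by positivity)).trans (le_of_eq ?_)
  ring

end Vale.Agent.P167.QB
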